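import Vale.Agent.P092.H465.DAQ

/-!
P092 (helper465), row CLASS-D: chains of `SL_{m+1}(D)` and of its central quotients.
-/

set_option linter.all false

open Matrix Topology Filter Set

namespace Vale.Agent.P092.H465.DA

open Vale.Agent.P092.H701
open Vale.Agent.P092.H264 (Chn)

section dE

variable (k : Type*) [NontriviallyNormedField k] [ProperSpace k]
variable (D : Type*) [NormedDivisionRing D] [NormedAlgebra k D]
  [FiniteDimensional k D] [Algebra.IsCentral k D] {N : ℕ}

theorem two_le (hN : 2 ≤ N) : 2 ≤ Fintype.card (Fin N) := by rwa [Fintype.card_fin]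

/-- `SL_N(k) → SL_N(D)` -/
def dE (hN : 2 ≤ N) : SpecialLinearGroup (Fin N) k →* SLD (Fin N) D :=
  (slE (1 : Matrix (Fin N) (Fin N) D) 1 (one_mul 1)).codRestrict (SLD (Fin N) D) fun g => by
    haveI : Nontrivial (Fin N) := Fin.nontrivial_iff_two_le.2 hN
    exact slE_mem _ _ _ g

theorem dE_val (hN : 2 ≤ N) (g : SpecialLinearGroup (Fin N) k) :
    (dE k D hN g).1.1 = g.1.map (algebraMap k D) := by
  have e : (dE k D hN g).1.1 = 1 + 1 * (g.1.map (algebraMap k D) - 1) * 1 := rfl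
  rw [e, one_mul, mul_one]
  abel

theorem continuous_dE (hN : 2 ≤ N) : Continuous (dE k D hN) := by
  rw [(isClosedEmbedding_SLD (n := Fin N) (D := D) k (two_le hN)).isInducing.continuous_iff]
  have e : ((fun g : SLD (Fin N) D => g.1.1) ∘ (dE k D hN)) =
      fun g : SpecialLinearGroup (Fin N) k => g.1.map (algebraMap k D) := by
    funext g
    exact dE_val k D hN g
  rw [e]
  exact continuous_subtype_val.matrix_map (continuous_algebraMap k D)

/-- the rows of `g x` -/
theorem dE_row (hN : 2 ≤ N) (g : SpecialLinearGroup (Fin N) k) (x : SLD (Fin N) D) (a : Fin N) :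
    (dE k D hN g * x).1.1 a = ∑ l, g.1 a l • x.1.1 l := by
  have e : (dE k D hN g * x).1.1 = (dE k D hN g).1.1 * x.1.1 := rfl
  rw [e, dE_val]
  funext c
  rw [mul_apply, Finset.sum_apply]
  refine Finset.sum_congr rfl fun l _ => ?_
  rw [Pi.smul_apply, Algebra.smul_def, map_apply]

theorem elem_same (hN : 2 ≤ N) {a b : Fin N} (h : a ≠ b) (t : k) (x : SLD (Fin N) D) :
    (dE k D hN (elem h t) * x).1.1 a = x.1.1 a + t • x.1.1 b := by
  rw [dE_row]
  have e : ∀ l, (elem h t).1 a l = (1 : Matrix (Fin N) (Fin N) k) a l + single a b t a l := fun l => rfl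
  simp only [e, add_smul, Finset.sum_add_distrib]
  congr 1
  · rw [Finset.sum_eq_single a]
    · rw [one_apply_eq, one_smul]
    · intro l _ hl
      rw [one_apply_ne (Ne.symm hl), zero_smul]
    · intro h; exact absurd (Finset.mem_univ _) h
  · rw [Finset.sum_eq_single b]
    · rw [single_apply_same]
    · intro l _ hl
      rw [single_apply_of_col_ne _ _ (Ne.symm hl), zero_smul]
    · intro h; exact absurd (Finset.mem_univ _) h

theorem elem_ne (hN : 2 ≤ N) {a b : Fin N} (h : a ≠ b) (t : k) {c : Fin N} (hc : c ≠ a)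
    (x : SLD (Fin N) D) : (dE k D hN (elem h t) * x).1.1 c = x.1.1 c := by
  rw [dE_row]
  have e : ∀ l, (elem h t).1 c l = (1 : Matrix (Fin N) (Fin N) k) c l + single a b t c l := fun l => rfl
  have e2 : ∀ l, single a b t c l = 0 := fun l => single_apply_of_row_ne (Ne.symm hc) _ _ _
  simp only [e, e2, add_zero]
  rw [Finset.sum_eq_single c]
  · rw [one_apply_eq, one_smul]
  · intro l _ hl
    rw [one_apply_ne (Ne.symm hl), zero_smul]
  · intro h; exact absurd (Finset.mem_univ _) h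

theorem tor_row {n : ℕ} (hN : 2 ≤ n + 1) {w : k} (hw : w ≠ 0) (j i : Fin (n + 1))
    (x : SLD (Fin (n + 1)) D) :
    (dE k D hN (tor n hw j) * x).1.1 i = dg n w j i • x.1.1 i := by
  rw [dE_row]
  have e : ∀ l, (tor n hw j).1 i l = diagonal (dg n w j) i l := fun l => rfl
  simp only [e]
  rw [Finset.sum_eq_single i]
  · rw [diagonal_apply_eq]
  · intro l _ hl
    rw [diagonal_apply_ne _ (Ne.symm hl), zero_smul]
  · intro h; exact absurd (Finset.mem_univ _) h

theorem tor_pow_rowD {n : ℕ} (hN : 2 ≤ n + 1) {w : k} (hw : w ≠ 0) (j i : Fin (n + 1)) (M : ℕ)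
    (x : SLD (Fin (n + 1)) D) :
    (dE k D hN (tor n hw j) ^ M * x).1.1 i = (dg n w j i) ^ M • x.1.1 i := by
  induction M generalizing x with
  | zero => simp
  | succ M ih => rw [pow_succ, mul_assoc, ih, tor_row, smul_smul, pow_succ]

omit [FiniteDimensional k D] [Algebra.IsCentral k D] [NormedAlgebra k D] [ProperSpace k]
  [NontriviallyNormedField k] in
theorem rowD_ne (x : SLD (Fin N) D) (a : Fin N) : x.1.1 a ≠ 0 := by
  intro h
  have h1 : (x.1.1 * (x.1⁻¹).1) a a = 1 := by rw [Units.mul_inv, one_apply_eq]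
  rw [mul_apply] at h1
  have h2 : ∀ l, x.1.1 a l = 0 := fun l => congrFun h l
  simp only [h2, zero_mul, Finset.sum_const_zero] at h1
  exact zero_ne_one h1

include k in
theorem continuous_rowD (hN : 2 ≤ N) (a : Fin N) : Continuous fun x : SLD (Fin N) D => x.1.1 a :=
  (continuous_apply a).comp (continuous_coe k (two_le hN))

/-- the row pair `(a, b)` of `SL_N(D)` -/
def sldRow (hN : 2 ≤ N) {a b : Fin N} (h : a ≠ b) : RowPair (SLD (Fin N) D) k (Fin N → D) where
  ρ₁ x := x.1.1 a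
  ρ₂ x := x.1.1 b
  cont₁ := continuous_rowD k D hN a
  cont₂ := continuous_rowD k D hN b
  ne x := lt_max_of_lt_left (norm_pos_iff.2 (rowD_ne D x a))
  up t := dE k D hN (elem h t)
  lo t := dE k D hN (elem h.symm t)
  cont_up := (continuous_dE k D hN).comp (continuous_elem h)
  cont_lo := (continuous_dE k D hN).comp (continuous_elem h.symm)
  up₁ t x := elem_same k D hN h t x
  up₂ t x := elem_ne k D hN h t h.symm x
  lo₁ t x := elem_ne k D hN h.symm t h x
  lo₂ t x := elem_same k D hN h.symm t x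

end dE

section chn

variable (k : Type) [NontriviallyNormedField k] [ProperSpace k]
variable (D : Type) [NormedDivisionRing D] [NormedAlgebra k D]
  [FiniteDimensional k D] [Algebra.IsCentral k D]

include k

/-- chains of `SL_{m+1}(D)` modulo a central subgroup -/
theorem chn_gen {m : ℕ} (hm : 1 ≤ m) {H : Type} [Group H] [TopologicalSpace H]
    (π : SLD (Fin (m + 1)) D →* H) (hq : IsQuotientMap π)
    (hker : ∀ z, π z = 1 → z ∈ Subgroup.center (SLD (Fin (m + 1)) D))
    (ht : ∀ b : ℕ → SLD (Fin (m + 1)) D, Tendsto b atTop (cocompact _) →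
      Tendsto (fun N => π (b N)) atTop (cocompact H)) : Chn H m := by
  have hN : 2 ≤ m + 1 := by omega
  obtain ⟨w, hw1⟩ := NormedField.exists_one_lt_norm k
  have hw : w ≠ 0 := norm_pos_iff.mp (lt_trans one_pos hw1)
  refine H387.Qt.chn_quo (π := π)
    (R := fun j : Fin m => sldRow k D hN (Fin.castSucc_lt_succ (i := j)).ne)
    (b := fun j M => dE k D hN (tor m hw j.castSucc) ^ M)
    (α := fun j M => (dg m w j.castSucc j.castSucc) ^ M)
    (β := fun j M => (dg m w j.castSucc j.succ) ^ M)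
    (fun j M x => tor_pow_rowD k D hN hw _ _ M x) (fun j M x => tor_pow_rowD k D hN hw _ _ M x)
    ?_ ?_ (fun i j _ N M => (((tor_comm m hw i.castSucc j.castSucc).map (dE k D hN)).pow_pow N M))
    ?_ ?_ hq ?_
  · intro j N
    show (dg m w j.castSucc j.castSucc) ^ N ≠ 0
    rw [dg_self]
    exact pow_ne_zero _ (pow_ne_zero _ hw)
  · intro j C
    obtain ⟨N₀, hN₀⟩ := pow_unbounded_of_one_lt C hw1
    refine ⟨N₀, fun N hN => ?_⟩
    show C * ‖(dg m w j.castSucc j.succ) ^ N‖ ≤ ‖(dg m w j.castSucc j.castSucc) ^ N‖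
    rw [dg_self, dg_gt m w (Fin.castSucc_lt_succ (i := j)), norm_pow, norm_pow, norm_pow,
      norm_inv, Fin.val_castSucc]
    have h1 : C ≤ ‖w‖ ^ N := hN₀.le.trans (pow_le_pow_right₀ hw1.le hN)
    have h2 : ‖w‖⁻¹ ^ N ≤ 1 := pow_le_one₀ (by positivity) (inv_le_one_of_one_le₀ hw1.le)
    have h3 : (‖w‖ ^ N) ≤ (‖w‖ ^ (m - (j : ℕ))) ^ N := by
      apply pow_le_pow_left₀ (by positivity)
      exact le_self_pow₀ hw1.le (by have := j.2; omega)
    have h4 : (0 : ℝ) ≤ ‖w‖⁻¹ ^ N := by positivity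
    have h5 : (0 : ℝ) ≤ ‖w‖ ^ N := by positivity
    calc C * ‖w‖⁻¹ ^ N ≤ ‖w‖ ^ N * ‖w‖⁻¹ ^ N := mul_le_mul_of_nonneg_right h1 h4
      _ ≤ ‖w‖ ^ N * 1 := mul_le_mul_of_nonneg_left h2 h5
      _ ≤ _ := by rw [mul_one]; exact h3
  · intro i j hij N x hx
    have h1 : i.castSucc < j.castSucc := hij
    have h2 : i.castSucc < j.succ := h1.trans (Fin.castSucc_lt_succ (i := j))
    have e : dg m w i.castSucc j.castSucc = dg m w i.castSucc j.succ := by
      rw [dg_gt m w h1, dg_gt m w h2]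
    have h3 : (j.castSucc : Fin (m + 1)) ≠ j.succ := (Fin.castSucc_lt_succ (i := j)).ne
    rcases hx with ⟨t, -, rfl⟩ | ⟨t, -, rfl⟩
    · exact ((tor_elem m hw i.castSucc h3 e t).map (dE k D hN)).pow_left N
    · exact ((tor_elem m hw i.castSucc h3.symm e.symm t).map (dE k D hN)).pow_left N
  · intro j z hz
    obtain ⟨a, ha, h⟩ := row_center k (two_le hN) (hker z hz)
    exact ⟨a, ha, fun x => h x _, fun x => h x _⟩
  · intro hr
    refine ht _ ?_
    have hcont : Continuous fun g : SLD (Fin (m + 1)) D => ‖g.1.1 0 0‖ :=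
      ((continuous_coe k (two_le hN)).matrix_elem _ _).norm
    rw [hasBasis_cocompact.tendsto_right_iff]
    intro K hK
    obtain ⟨C, hC⟩ := (hK.image hcont).bddAbove
    obtain ⟨N₀, hN₀⟩ := pow_unbounded_of_one_lt C hw1
    filter_upwards [eventually_ge_atTop N₀] with N hNN hmem
    have h1 := tor_pow_rowD k D hN hw (Fin.castSucc (⟨0, hr⟩ : Fin m)) 0 N 1
    rw [mul_one] at h1
    have h2 := congrFun h1 0
    have h3 := hC ⟨_, hmem, rfl⟩
    have e0 : (Fin.castSucc (⟨0, hr⟩ : Fin m)) = 0 := rfl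
    have e1 : (1 : SLD (Fin (m + 1)) D).1.1 = 1 := rfl
    simp only [h2] at h3
    rw [e0, dg_self, Pi.smul_apply, norm_smul, e1, one_apply_eq, norm_one, mul_one, norm_pow,
      norm_pow] at h3
    have h4 : ‖w‖ ^ N₀ ≤ ‖w‖ ^ N := pow_le_pow_right₀ hw1.le hNN
    have h5 : (‖w‖ ^ N) ≤ (‖w‖ ^ (m - ((0 : Fin (m + 1)) : ℕ))) ^ N := by
      apply pow_le_pow_left₀ (by positivity)
      exact le_self_pow₀ hw1.le (by simp; omega)
    linarith

/-- **`SL_{m+1}(D)` has chains of length `m`.** -/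
theorem chn_sld {m : ℕ} (hm : 1 ≤ m) : Chn (SLD (Fin (m + 1)) D) m :=
  chn_gen k D hm (MonoidHom.id _) IsQuotientMap.id (fun z hz => by
    have h : z = 1 := hz
    rw [h]
    exact Subgroup.one_mem _) fun b hb => hb

/-- **the central quotients of `SL_{m+1}(D)` have chains of length `m`.** -/
theorem chn_sld_quo {m : ℕ} (hm : 1 ≤ m) (Z : Subgroup (SLD (Fin (m + 1)) D)) [Z.Normal]
    (hZ : Z ≤ Subgroup.center (SLD (Fin (m + 1)) D)) : Chn (SLD (Fin (m + 1)) D ⧸ Z) m := by
  have hn : 2 ≤ Fintype.card (Fin (m + 1)) := two_le (by omega)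
  haveI := finite_center (D := D) k hn
  have hZc : IsCompact (Z : Set (SLD (Fin (m + 1)) D)) :=
    ((Set.toFinite (Subgroup.center (SLD (Fin (m + 1)) D) : Set (SLD (Fin (m + 1)) D))).subset
      hZ).isCompact
  exact chn_gen k D hm (QuotientGroup.mk' Z) (QuotientGroup.isQuotientMap_mk (N := Z))
    (fun z hz => hZ ((QuotientGroup.eq_one_iff z).1 hz)) fun b hb => H387.Qt.tendsto_quo Z hZc hb

end chn

end Vale.Agent.P092.H465.DA
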