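import Vale.Agent.P092.H465.DAF
import Vale.Agent.P092.H465.DCh
import Vale.Agent.P092.H289.DTd3
import Vale.Agent.P092.H183.Cl3

/-!
P092 (helper465), row CLASS-D: `SL_{m+1}(D)` and its central quotients, `D` a finite-dimensional central
division algebra over a local field, are factors of rank `m`.
-/

set_option linter.all false

open Matrix Topology Filter

namespace Vale.Agent.P092.H465.DA

open Vale.Agent.P092.H933 (LocK)
open Vale.Agent.P092.H264 (Chn)

variable (k : Type) [NontriviallyNormedField k] [ProperSpace k]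
variable (D : Type) [NormedDivisionRing D] [NormedAlgebra k D]
  [FiniteDimensional k D] [Algebra.IsCentral k D]

/-- `SL_n(D)` over an ultrametric field is totally disconnected. -/
theorem td_sld {n : Type} [Fintype n] [DecidableEq n] (hn : 2 ≤ Fintype.card n)
    [IsUltrametricDist k] : QC.Td (SLD n D) := by
  haveI : ProperSpace D := FiniteDimensional.proper k D
  haveI : IsUltrametricDist D := IsUltrametricDist.of_normedAlgebra k
  obtain ⟨h1, h2⟩ := H289.DT.vol_basis_sld (n := n) (D := D) hn k (isClosed_SLD k hn)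
  exact ⟨h1, H183.Cl.proper_of_hmg (hmg_SLD k hn), h2⟩

/-- **`SL_{m+1}(D)` is a factor of rank `m`.** -/
theorem qf_sld (hk : LocK k) {m : ℕ} (hm : 1 ≤ m) : QC.QF (SLD (Fin (m + 1)) D) m :=
  qf_sld_of hk hm (chn_sld k D hm) fun hu => td_sld k D (two_le (by omega))

/-- **The central quotients of `SL_{m+1}(D)` are factors of rank `m`.** -/
theorem qf_sld_quo (hk : LocK k) {m : ℕ} (hm : 1 ≤ m) (Z : Subgroup (SLD (Fin (m + 1)) D))
    [Z.Normal] (hZ : Z ≤ Subgroup.center (SLD (Fin (m + 1)) D)) :
    QC.QF (SLD (Fin (m + 1)) D ⧸ Z) m :=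
  H387.Qt.qf_quo (qf_sld k D hk hm) Z hZ (chn_sld_quo k D hm Z hZ)

end Vale.Agent.P092.H465.DA
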