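import Vale.Agent.P092.H387.Qt4

/-!
P092 (helper465), [CLASS-G]: the class of factors is closed under isomorphisms of topological groups.
-/

set_option linter.all false

open Set Topology Filter

namespace Vale.Agent.P092.H465

open Vale.Agent.P092.QC (Td QF)
open Vale.Agent.P092.H259 (PQ pq)
open Vale.Agent.P092.H264 (Chn)
open Vale.Agent.P092.H701 (HChain)

section congr

variable {G G' : Type} [Group G] [TopologicalSpace G] [Group G'] [TopologicalSpace G']

theorem top_congr [IsTopologicalGroup G] (e : G ≃ₜ* G') : IsTopologicalGroup G' := by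
  have hs : ∀ x : G', e (e.symm x) = x := e.apply_symm_apply
  have hc : Continuous e := e.continuous_toFun
  have hc' : Continuous e.symm := e.continuous_invFun
  exact
    { continuous_mul := by
        have h1 : Continuous fun p : G' × G' => e (e.symm p.1 * e.symm p.2) := by fun_prop
        refine h1.congr fun p => ?_
        rw [map_mul, hs, hs]
      continuous_inv := by
        have h1 : Continuous fun p : G' => e (e.symm p)⁻¹ := by fun_prop
        refine h1.congr fun p => ?_
        rw [map_inv, hs] }

theorem td_congr (e : G ≃ₜ* G') (h : Td G) : Td G' := by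
  have hs : ∀ x : G', e (e.symm x) = x := e.apply_symm_apply
  have hs' : ∀ x : G, e.symm (e x) = x := e.symm_apply_apply
  have hc : Continuous e := e.continuous_toFun
  have hc' : Continuous e.symm := e.continuous_invFun
  have ho : IsOpenMap e := e.toHomeomorph.isOpenMap
  obtain ⟨f, hf⟩ : ∃ f : G →* G', ∀ x, f x = e x := ⟨e.toMulEquiv.toMonoidHom, fun x => rfl⟩
  have hfe : (f : G → G') = e := funext hf
  have hsur : Function.Surjective f := fun y => ⟨e.symm y, by rw [hf, hs]⟩
  have hinj : Function.Injective f := fun x y hxy => by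
    rw [hf, hf] at hxy
    rw [← hs' x, hxy, hs']
  have hfc : Continuous f := by rw [hfe]; exact hc
  have hfo : IsOpenMap f := by rw [hfe]; exact ho
  have himg : ∀ L : Subgroup G, ((L.map f : Subgroup G') : Set G') = f '' (L : Set G) := fun L => rfl
  have hcomp : ∀ W : Subgroup G', IsCompact (W : Set G') → IsCompact ((W.comap f : Subgroup G) : Set G) := by
    intro W hW
    have h1 : ((W.comap f : Subgroup G) : Set G) = e ⁻¹' (W : Set G') := by
      rw [← hfe]; rfl
    rw [h1]
    exact e.toHomeomorph.isClosedEmbedding.isCompact_preimage hW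
  have hmc : ∀ W : Subgroup G', (W.comap f).map f = W := fun W =>
    Subgroup.map_comap_eq_self_of_surjective hsur W
  refine ⟨fun V hV => ?_, fun W hW hWt => ?_, ?_⟩
  · obtain ⟨L, h1, h2, h3⟩ := h.basis (f ⁻¹' V)
      (hfc.continuousAt.preimage_mem_nhds (by rwa [map_one]))
    refine ⟨L.map f, hfo _ h1, h2.image hfc, ?_⟩
    rintro _ ⟨x, hx, rfl⟩
    exact h3 hx
  · have h1 := h.proper (W.comap f) (hW.preimage hfc) fun h2 => by
      apply hWt
      rw [← hmc W, h2]
      exact Subgroup.map_top_of_surjective f hsur
    have h2 := h1.image hfc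
    have h3 : f '' ((W.comap f : Subgroup G) : Set G) = (W : Set G') := by
      rw [← himg, hmc]
    rwa [h3] at h2
  · obtain ⟨K, hK, hKc, hv⟩ := h.vol
    refine ⟨K.map f, hfo _ hK, hKc.image hfc, fun U W hU hW hWc hUW hUK => ?_⟩
    have hKK : (K.map f).comap f = K := Subgroup.comap_map_eq_self_of_injective hinj K
    have h1 := hv (U.comap f) (W.comap f) (hU.preimage hfc) (hW.preimage hfc) (hcomp W hWc)
      (Subgroup.comap_mono hUW) (by
        have := Subgroup.comap_mono (f := f) hUK
        rwa [hKK] at this)
    rw [Subgroup.relIndex_comap, hmc] at h1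
    have h2 : (U.comap f).relIndex K = U.relIndex (K.map f) := by
      rw [Subgroup.relIndex_comap]
    rwa [h2] at h1

theorem chn_congr [IsTopologicalGroup G] {r : ℕ} (e : G ≃ₜ* G') (h : Chn G r) : Chn G' r := by
  have hs : ∀ x : G', e (e.symm x) = x := e.apply_symm_apply
  have hs' : ∀ x : G, e.symm (e x) = x := e.symm_apply_apply
  have hc : Continuous e := e.continuous_toFun
  have hc' : Continuous e.symm := e.continuous_invFun
  letI : MeasurableSpace G := borel G
  letI : MeasurableSpace G' := borel G'
  haveI : BorelSpace G := ⟨rfl⟩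
  haveI : BorelSpace G' := ⟨rfl⟩
  obtain ⟨C, hC⟩ := h
  refine ⟨{ b := fun j N => e (C.b j N), K := fun j => e '' C.K j,
            compact := fun j => (C.compact j).image hc,
            comm_b := fun i j hij N M => by rw [← map_mul, C.comm_b i j hij, map_mul],
            comm_K := ?_, pp := ?_ }, fun hn => ?_⟩
  · rintro i j hij N _ ⟨x, hx, rfl⟩
    rw [← map_mul, C.comm_K i j hij N x hx, map_mul]
  · intro j p
    obtain ⟨N₀, h1⟩ := C.pp j p
    refine ⟨N₀, fun N hN => ?_⟩
    obtain ⟨κ, κ', Bm, Bp, a1, a2, a3, a4, a5, a6, a7⟩ := h1 N hN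
    refine ⟨fun l => e (κ l), fun l => e (κ' l), fun l => e.symm ⁻¹' Bm l, fun l => e.symm ⁻¹' Bp l,
      fun l => ⟨_, a1 l, rfl⟩, fun l => ⟨_, a2 l, rfl⟩, fun l => ?_, fun l => ?_, fun l l' hl => ?_,
      fun l l' hl => ?_, fun l x hx => ?_⟩
    · exact hc'.measurable (a3 l)
    · exact hc'.measurable (a4 l)
    · exact (a5 l l' hl).preimage _
    · exact (a6 l l' hl).preimage _
    · have h2 := a7 l (e.symm x) hx
      show e.symm (e (κ l) * e (C.b j N) * e (κ' l) * x) ∈ Bp l
      rw [map_mul, map_mul, map_mul, hs', hs', hs']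
      exact h2
  · have h5 : Tendsto e (cocompact G) (cocompact G') :=
      e.toHomeomorph.isClosedEmbedding.tendsto_cocompact
    exact h5.comp (hC hn)

/-- The quotients by the centre of isomorphic groups are isomorphic. -/
theorem pq_congr (e : G ≃ₜ* G') : Nonempty (PQ G ≃ₜ* PQ G') := by
  have hs : ∀ x : G', e (e.symm x) = x := e.apply_symm_apply
  have hs' : ∀ x : G, e.symm (e x) = x := e.symm_apply_apply
  have hc : Continuous e := e.continuous_toFun
  have hc' : Continuous e.symm := e.continuous_invFun
  have h1 : (Subgroup.center G).map e.toMulEquiv.toMonoidHom = Subgroup.center G' := by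
    ext y
    constructor
    · rintro ⟨x, hx, rfl⟩
      refine Subgroup.mem_center_iff.2 fun g => ?_
      show g * e x = e x * g
      rw [← hs g, ← map_mul, ← map_mul, Subgroup.mem_center_iff.1 hx]
    · intro hy
      refine ⟨e.symm y, Subgroup.mem_center_iff.2 fun g => ?_, hs y⟩
      rw [← hs' g, ← map_mul, ← map_mul, Subgroup.mem_center_iff.1 hy]
  let f : PQ G ≃* PQ G' := QuotientGroup.congr (Subgroup.center G) (Subgroup.center G')
    e.toMulEquiv h1
  have hf : ∀ x : G, f (x : PQ G) = ((e x : G') : PQ G') := fun x => rfl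
  have hf' : ∀ x : G', f.symm (x : PQ G') = ((e.symm x : G) : PQ G) := fun x => by
    rw [MulEquiv.symm_apply_eq, hf, hs]
  refine ⟨{ f with continuous_toFun := ?_, continuous_invFun := ?_ }⟩
  · refine (QuotientGroup.isQuotientMap_mk (N := Subgroup.center G)).continuous_iff.2 ?_
    have h2 : Continuous fun x : G => ((e x : G') : PQ G') :=
      (QuotientGroup.continuous_mk (N := Subgroup.center G')).comp hc
    exact h2
  · refine (QuotientGroup.isQuotientMap_mk (N := Subgroup.center G')).continuous_iff.2 ?_
    have h2 : Continuous fun x : G' => ((e.symm x : G) : PQ G) :=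
      (QuotientGroup.continuous_mk (N := Subgroup.center G)).comp hc'
    refine h2.congr fun x => ?_
    exact (hf' x).symm

/-- **The class of factors is closed under isomorphisms of topological groups.** -/
theorem qf_congr {r : ℕ} (e : G ≃ₜ* G') (h : QF G r) : QF G' r := by
  haveI := h.top
  haveI := h.lc
  haveI := h.sc
  haveI := h.t2
  haveI := h.fin
  obtain ⟨p⟩ := pq_congr e
  exact
    { top := top_congr e
      lc := e.toHomeomorph.symm.isClosedEmbedding.locallyCompactSpace
      sc := e.toHomeomorph.symm.isEmbedding.secondCountableTopology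
      t2 := e.toHomeomorph.symm.isEmbedding.t2Space
      fin := Finite.of_equiv _ (Subgroup.centerCongr e.toMulEquiv).toEquiv
      fac := H387.Qt.facS_congr h.fac p
      hmg := h.hmg.of_mulEquiv e
      chn := chn_congr e h.chn
      tgt := h.tgt.of_isClosedEmbedding e.symm.toMulEquiv.toMonoidHom
        e.toHomeomorph.symm.isClosedEmbedding
      pos := h.pos
      erg := h.erg.imp (fun hp => by
          haveI := hp
          exact e.toHomeomorph.surjective.denseRange.preconnectedSpace e.toHomeomorph.continuous)
        (td_congr e) }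

end congr

section quo

variable {S G : Type} [Group S] [TopologicalSpace S] [Group G] [TopologicalSpace G]

/-- A quotient map with central kernel. -/
theorem qf_of_quo {r : ℕ} (h : ∀ (Z : Subgroup S) [Z.Normal], Z ≤ Subgroup.center S → QF (S ⧸ Z) r)
    (f : S →* G) (hf : IsQuotientMap f) (hk : f.ker ≤ Subgroup.center S) : QF G r := by
  have h1 := h f.ker hk
  let φ : S ⧸ f.ker ≃* G := QuotientGroup.quotientKerEquivOfSurjective f hf.surjective
  have hφ : ∀ x : S, φ (x : S ⧸ f.ker) = f x := fun x => rfl
  have e : (S ⧸ f.ker) ≃ₜ* G :=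
    { φ with
      continuous_toFun := by
        refine (QuotientGroup.isQuotientMap_mk (N := f.ker)).continuous_iff.2 ?_
        exact hf.continuous
      continuous_invFun := by
        refine hf.continuous_iff.2 ?_
        have h2 : Continuous fun x : S => (x : S ⧸ f.ker) := QuotientGroup.continuous_mk
        refine h2.congr fun x => ?_
        show (x : S ⧸ f.ker) = φ.symm (f x)
        rw [MulEquiv.eq_symm_apply, hφ] }
  exact qf_congr e h1

end quo

end Vale.Agent.P092.H465
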