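import Vale.Agent.P092.H338.Ad9
import Vale.Agent.P092.H259.Ad.Final
import Vale.Agent.P092.H35.Rp.Sub
import Vale.Agent.P092.H259.Re.Real

/-!
P092 (helper465), end of [AD-9]: a group of automorphisms of a simple real Lie algebra, which contains the
exponentials of the ad-nilpotent elements, has an open normal subgroup of finite index which is a factor.
-/

set_option linter.all false

open Matrix Filter Topology Module

namespace Vale.Agent.P092.H465.LieR

open Vale.Agent.P092.H793.Re (Mat SLn RS)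
open Vale.Agent.P092.H259.Ad (Mod Ten br adm Iso Aut0 rho)
open Vale.Agent.P092.H213.Rp (Nil eu ex)

section alg

variable {L : Type} [LieRing L] [LieAlgebra ℝ L] {n : ℕ} {c : Ten n} {φ : L ≃ₗ[ℝ] (Fin n → ℝ)}

theorem pow_adm (h : Mod φ c) (x y : L) (k : ℕ) :
    (adm c (φ x)) ^ k *ᵥ φ y = φ (((LieAlgebra.ad ℝ L x) ^ k) y) := by
  induction k with
  | zero => simp
  | succ k ih =>
    rw [pow_succ', ← mulVec_mulVec, ih, H259.Ad.adm_mulVec, ← h]
    congr 1
    rw [pow_succ']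
    rfl

theorem mat_ext {A B : Mat n} (h : ∀ y : L, A *ᵥ φ y = B *ᵥ φ y) : A = B := by
  refine Matrix.toLin'.injective (LinearMap.ext fun v => ?_)
  rw [Matrix.toLin'_apply, Matrix.toLin'_apply]
  have h1 := h (φ.symm v)
  rwa [φ.apply_symm_apply] at h1

theorem adm_pow_zero (h : Mod φ c) {x : L} {k : ℕ} (hk : (LieAlgebra.ad ℝ L x) ^ k = 0) :
    (adm c (φ x)) ^ k = 0 :=
  mat_ext (φ := φ) fun y => by
    rw [pow_adm h, hk, zero_mulVec]
    exact map_zero φ

theorem ad_pow_zero (h : Mod φ c) {x : L} {k : ℕ} (hk : (adm c (φ x)) ^ k = 0) :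
    (LieAlgebra.ad ℝ L x) ^ k = 0 :=
  LinearMap.ext fun y => by
    apply φ.injective
    rw [← pow_adm h, hk, zero_mulVec]
    exact (map_zero φ).symm

/-- the exponentials -/
theorem exp_adm [Module.Finite ℝ L] (h : Mod φ c) {x : L} (hx : Nil ℝ x) (y : L) :
    NormedSpace.exp (adm c (φ x)) *ᵥ φ y = φ (eu ℝ x y) := by
  obtain ⟨k, hk⟩ := hx
  have h1 : eu ℝ x = ∑ i ∈ Finset.range k, ((i.factorial : ℝ)⁻¹) • (LieAlgebra.ad ℝ L x) ^ i :=
    H35.Rp.ex_eq hk
  rw [H338.Ov.exp_nil (adm_pow_zero h hk), h1, LinearMap.sum_apply, map_sum, Matrix.sum_mulVec]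
  refine Finset.sum_congr rfl fun i _ => ?_
  rw [smul_mulVec, pow_adm h, LinearMap.smul_apply, map_smul]

end alg

/-- **[AD-9]** -/
theorem real {G : Type} [Group G] [TopologicalSpace G] (h : H35.Rp.IsLie ℝ G) : H35.Rp.Sub G := by
  obtain ⟨L, i1, i2, n, b, ρ, hr⟩ := H35.Rp.isLie_ra h
  haveI := hr.simple
  haveI : Module.Finite ℝ L := Module.Finite.of_basis b
  haveI : FiniteDimensional ℝ L := Module.Finite.of_basis b
  obtain ⟨c, hc⟩ : ∃ c : Ten n, c = fun i j l => b.equivFun ⁅b i, b j⁆ l := ⟨_, rfl⟩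
  have hm : Mod b.equivFun c := hc ▸ H259.Ad.mod_basis b
  obtain ⟨g, c₀, hg, hi, -, -, hmin⟩ := H899.Ad.mini c hm.simp.lie hm.simp.nd
  have hu : IsUnit g.det := by
    rw [isUnit_iff_ne_zero]
    intro h0
    rw [h0, abs_zero] at hg
    exact zero_ne_one hg
  have h1 : g * g⁻¹ = 1 := Matrix.mul_nonsing_inv g hu
  have h2 : g⁻¹ * g = 1 := Matrix.nonsing_inv_mul g hu
  obtain ⟨φ, hφ, hφx⟩ := hm.iso hi h1 h2
  obtain ⟨γ, hγ⟩ : ∃ γ : G →* Mat n, ∀ a, γ a = g * LinearMap.toMatrix b b (ρ a) * g⁻¹ :=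
    ⟨{ toFun := fun a => g * LinearMap.toMatrix b b (ρ a) * g⁻¹
       map_one' := by
         rw [map_one]
         show g * LinearMap.toMatrix b b LinearMap.id * g⁻¹ = 1
         rw [LinearMap.toMatrix_id, mul_one, h1]
       map_mul' := fun x y => by
         rw [map_mul]
         show g * LinearMap.toMatrix b b (ρ x ∘ₗ ρ y) * g⁻¹ = _
         rw [LinearMap.toMatrix_comp b b b]
         calc g * (LinearMap.toMatrix b b (ρ x) * LinearMap.toMatrix b b (ρ y)) * g⁻¹
             = g * LinearMap.toMatrix b b (ρ x) * 1 * LinearMap.toMatrix b b (ρ y) * g⁻¹ := by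
               simp only [mul_assoc, one_mul]
           _ = g * LinearMap.toMatrix b b (ρ x) * (g⁻¹ * g) *
               LinearMap.toMatrix b b (ρ y) * g⁻¹ := by rw [h2]
           _ = _ := by simp only [mul_assoc] }, fun a => rfl⟩
  have hγv : ∀ a x, γ a *ᵥ φ x = φ (ρ a x) := by
    intro a x
    rw [hγ, hφx, hφx, mulVec_mulVec, mul_assoc, h2, mul_one, ← mulVec_mulVec]
    congr 1
    exact LinearMap.toMatrix_mulVec_repr b b (ρ a) x
  have hemb : IsEmbedding γ := by
    have h3 : IsEmbedding fun x : Mat n => g * x * g⁻¹ := by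
      refine IsEmbedding.of_leftInverse (f := fun x : Mat n => g⁻¹ * x * g) ?_ ?_ ?_
      · intro x
        show g⁻¹ * (g * x * g⁻¹) * g = x
        calc g⁻¹ * (g * x * g⁻¹) * g = (g⁻¹ * g) * x * (g⁻¹ * g) := by simp only [mul_assoc]
          _ = x := by rw [h2, one_mul, mul_one]
      · exact (continuous_const.matrix_mul continuous_id).matrix_mul continuous_const
      · exact (continuous_const.matrix_mul continuous_id).matrix_mul continuous_const
    have e : (γ : G → Mat n) = (fun x : Mat n => g * x * g⁻¹) ∘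
        fun a => LinearMap.toMatrix b b (ρ a) := funext hγ
    rw [e]
    exact h3.comp hr.emb
  have hiso : ∀ a, Iso (γ a) c₀ c₀ := by
    intro a x y
    rw [hφ.br_eq x y, hγv, hr.lie, hφ, ← hγv, ← hγv, φ.apply_symm_apply, φ.apply_symm_apply]
  obtain ⟨x₀, hx₀, hn₀⟩ := hr.iso
  have hx₀' : φ x₀ ≠ 0 := fun h => hx₀ (φ.injective (h.trans (map_zero φ).symm))
  have hnil : IsNilpotent (adm c₀ (φ x₀)) := by
    obtain ⟨k, hk⟩ := hn₀
    exact ⟨k, adm_pow_zero hφ hk⟩
  have hf : ∀ x, IsNilpotent (adm c₀ x) → ∃ a, γ a = NormedSpace.exp (adm c₀ x) := by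
    rintro x ⟨k, hk⟩
    obtain ⟨x, rfl⟩ := φ.surjective x
    have hx : Nil ℝ x := ⟨k, ad_pow_zero hφ hk⟩
    obtain ⟨a, ha⟩ := hr.full x hx
    refine ⟨a, mat_ext (φ := φ) fun y => ?_⟩
    rw [hγv, ha, exp_adm hφ hx]
  obtain ⟨hRS, M, hM1, hM2, hM3, ⟨e⟩⟩ :=
    H338.Ov.core H624.Ad.simB hφ.simp hmin hx₀' hnil hemb hiso hf
  haveI : IsTopologicalGroup G := H35.Rp.topGroup hemb
  exact ⟨inferInstance, M, hM1, hM2, hM3, H259.Re.qf_real (H259.Ad.rs_congr hRS e)⟩

/-- **Every group `IsLieG` has an open normal subgroup of finite index which is a factor.** -/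
theorem lieG {G : Type} [Group G] [TopologicalSpace G] (h : UN.IsLieG G) : H35.Rp.Sub G :=
  H35.Rp.lieG_sub (fun _ _ _ h => real h) h

end Vale.Agent.P092.H465.LieR
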