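import Vale.Agent.P092.H465.DA2
import Mathlib.GroupTheory.Abelianization.Defs

/-!
P092 (helper465), row CLASS-D: `SL_n(D)` is the commutator subgroup of `GL_n(D)`.
-/

set_option linter.all false

open Matrix

namespace Vale.Agent.P092.H465.DA

variable {n D : Type*} [Fintype n] [DecidableEq n] [DivisionRing D]

/-- exchange -/
theorem exch {p : Submodule Dᵐᵒᵖ (n → D)} {a b : n → D} (h : a ∈ p ⊔ ln b) (ha : a ∉ p) :
    b ∈ p ⊔ ln a := by
  obtain ⟨w, hw, v, hv, hwv⟩ := Submodule.mem_sup.1 h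
  obtain ⟨c, rfl⟩ := mem_ln.1 hv
  have hc : c ≠ 0 := by
    rintro rfl
    rw [MulOpposite.op_zero, zero_smul, add_zero] at hwv
    exact ha (hwv ▸ hw)
  have e : b = MulOpposite.op c⁻¹ • a + -(MulOpposite.op c⁻¹ • w) := by
    rw [← hwv, smul_add, smul_smul, ← MulOpposite.op_mul, mul_inv_cancel₀ hc, MulOpposite.op_one,
      one_smul]
    abel
  rw [e]
  refine Submodule.add_mem _ ?_ (Submodule.neg_mem _ ?_)
  · exact Submodule.smul_mem _ _ (Submodule.mem_sup_right (Submodule.mem_span_singleton_self _))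
  · exact Submodule.smul_mem _ _ (Submodule.mem_sup_left hw)

/-- moving `x` to `y` with a subspace fixed -/
theorem move_sub {p : Submodule Dᵐᵒᵖ (n → D)} {x y : n → D} (hx : x ∉ p) (hy : y ∉ p ⊔ ln x) :
    ∃ g ∈ SLD n D, g.1 *ᵥ x = y ∧ ∀ v ∈ p, g.1 *ᵥ v = v := by
  have h1 : x ∉ p ⊔ ln (y - x) := by
    intro h
    have h2 := exch h hx
    apply hy
    have h3 := Submodule.add_mem _ h2 (Submodule.mem_sup_right
      (Submodule.mem_span_singleton_self x) : x ∈ p ⊔ ln x)
    rwa [sub_add_cancel] at h3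
  obtain ⟨φ, h2, h3⟩ := exists_row h1
  have h4 : φ ⬝ᵥ (y - x) = 0 :=
    h2 _ (Submodule.mem_sup_right (Submodule.mem_span_singleton_self _))
  refine ⟨tv h4, tv_mem h4, ?_, fun v hv => ?_⟩
  · rw [tv_val, tm_mulVec, h3, MulOpposite.op_one, one_smul]
    abel
  · rw [tv_val, tm_mulVec, h2 v (Submodule.mem_sup_left hv), MulOpposite.op_zero, zero_smul,
      add_zero]

/-- moving `y` to `x` with a subspace fixed, in general position or not -/
theorem move_sub' {p : Submodule Dᵐᵒᵖ (n → D)} {x y : n → D} (hx : x ∉ p) (hy : y ∉ p)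
    (hne : p ⊔ ln x ≠ ⊤) : ∃ g ∈ SLD n D, g.1 *ᵥ y = x ∧ ∀ v ∈ p, g.1 *ᵥ v = v := by
  by_cases h : x ∈ p ⊔ ln y
  · obtain ⟨z, hz⟩ : ∃ z, z ∉ p ⊔ ln x := by
      by_contra hcon
      push Not at hcon
      exact hne (eq_top_iff.2 fun z _ => hcon z)
    have hzp : z ∉ p := fun h' => hz (Submodule.mem_sup_left h')
    have hyx : y ∈ p ⊔ ln x := exch h hx
    have hzy : z ∉ p ⊔ ln y := by
      intro h'
      apply hz
      have hle : p ⊔ ln y ≤ p ⊔ ln x :=
        sup_le le_sup_left ((Submodule.span_singleton_le_iff_mem _ _).2 hyx)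
      exact hle h'
    have hxz : x ∉ p ⊔ ln z := fun h' => hz (exch h' hx)
    obtain ⟨g, hg, hg1, hg2⟩ := move_sub hy hzy
    obtain ⟨g', hg', hg1', hg2'⟩ := move_sub hzp hxz
    refine ⟨g' * g, Subgroup.mul_mem _ hg' hg, ?_, fun v hv => ?_⟩
    · rw [Units.val_mul, ← mulVec_mulVec, hg1, hg1']
    · rw [Units.val_mul, ← mulVec_mulVec, hg2 v hv, hg2' v hv]
  · exact move_sub hy h

/-- every element can be made to fix a proper subspace -/
theorem fix_sub (g : (Matrix n n D)ˣ) (s : Finset (n → D))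
    (hs : Submodule.span Dᵐᵒᵖ (s : Set (n → D)) ≠ ⊤) :
    ∃ e ∈ SLD n D, ∀ v ∈ Submodule.span Dᵐᵒᵖ (s : Set (n → D)), (e * g).1 *ᵥ v = v := by
  classical
  induction s using Finset.induction_on with
  | empty =>
    refine ⟨1, Subgroup.one_mem _, fun v hv => ?_⟩
    rw [Finset.coe_empty, Submodule.span_empty, Submodule.mem_bot] at hv
    rw [hv, mulVec_zero]
  | insert x s hxs ih =>
    have hle : Submodule.span Dᵐᵒᵖ (s : Set (n → D)) ≤
        Submodule.span Dᵐᵒᵖ ((insert x s : Finset (n → D)) : Set (n → D)) :=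
      Submodule.span_mono (by
        intro v hv
        exact Finset.mem_coe.2 (Finset.mem_insert_of_mem (Finset.mem_coe.1 hv)))
    have hs' : Submodule.span Dᵐᵒᵖ (s : Set (n → D)) ≠ ⊤ := fun h => hs (top_le_iff.1 (h ▸ hle))
    obtain ⟨e, he, hfix⟩ := ih hs'
    obtain ⟨p, hp⟩ : ∃ p, p = Submodule.span Dᵐᵒᵖ (s : Set (n → D)) := ⟨_, rfl⟩
    have hins : Submodule.span Dᵐᵒᵖ ((insert x s : Finset (n → D)) : Set (n → D)) = p ⊔ ln x := by
      rw [hp, Finset.coe_insert, Submodule.span_insert, sup_comm]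
    rw [← hp] at hfix hs'
    rw [hins] at hs ⊢
    by_cases hx : x ∈ p
    · have e1 : p ⊔ ln x = p := sup_eq_left.2 ((Submodule.span_singleton_le_iff_mem _ _).2 hx)
      rw [e1]
      exact ⟨e, he, hfix⟩
    · have hy : (e * g).1 *ᵥ x ∉ p := by
        intro h
        have h1 := hfix _ h
        have h2 : (e * g).1 *ᵥ x = x := by
          have h3 := congrArg (fun w => ((e * g)⁻¹).1 *ᵥ w) h1
          simp only [inv_mulVec_mulVec] at h3
          exact h3
        rw [h2] at h
        exact hx h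
      obtain ⟨e', he', h1, h2⟩ := move_sub' hx hy hs
      refine ⟨e' * e, Subgroup.mul_mem _ he' he, fun v hv => ?_⟩
      have key : ∀ w, (e' * e * g).1 *ᵥ w = e'.1 *ᵥ ((e * g).1 *ᵥ w) := by
        intro w
        rw [mul_assoc, Units.val_mul, ← mulVec_mulVec]
      obtain ⟨w, hw, v', hv', rfl⟩ := Submodule.mem_sup.1 hv
      obtain ⟨c, rfl⟩ := mem_ln.1 hv'
      rw [key, mulVec_add, mulVec_add, mulVec_smul, mulVec_smul, h1, hfix w hw, h2 w hw]

/-- every element is a dilation in the coordinate `i` modulo the transvections -/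
theorem exists_dil (i : n) (g : (Matrix n n D)ˣ) : ∃ e ∈ SLD n D, ∃ c : D,
    (e * g).1 = 1 + vecMulVec (MulOpposite.op c • (Pi.single i 1 : n → D)) (Pi.single i 1) := by
  classical
  set s : Finset (n → D) := (Finset.univ.erase i).image fun l => (Pi.single l 1 : n → D) with hs
  have hne : Submodule.span Dᵐᵒᵖ (s : Set (n → D)) ≠ ⊤ := by
    intro h
    have hle : Submodule.span Dᵐᵒᵖ (s : Set (n → D)) ≤
        LinearMap.ker (LinearMap.proj (R := Dᵐᵒᵖ) (φ := fun _ : n => D) i) := by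
      rw [Submodule.span_le]
      intro v hv
      rw [Finset.mem_coe, hs, Finset.mem_image] at hv
      obtain ⟨l, hl, rfl⟩ := hv
      show (Pi.single l 1 : n → D) i = 0
      rw [Pi.single_eq_of_ne (Ne.symm (Finset.ne_of_mem_erase hl))]
    have h1 : (Pi.single i 1 : n → D) ∈ LinearMap.ker (LinearMap.proj (R := Dᵐᵒᵖ)
        (φ := fun _ : n => D) i) := hle (by rw [h]; trivial)
    have h2 : (Pi.single i 1 : n → D) i = 0 := h1
    rw [Pi.single_eq_same] at h2
    exact one_ne_zero h2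
  obtain ⟨e, he, hfix⟩ := fix_sub g s hne
  obtain ⟨v, hv⟩ : ∃ v : n → D, v = (e * g).1.col i - Pi.single i 1 := ⟨_, rfl⟩
  have hcol : (e * g).1 = 1 + vecMulVec v (Pi.single i 1) := by
    ext a l
    rw [Matrix.add_apply, vecMulVec_apply]
    by_cases hl : l = i
    · subst hl
      rw [Pi.single_eq_same, mul_one, hv, Pi.sub_apply, col_apply, Matrix.one_apply,
        Pi.single_apply]
      abel
    · rw [Pi.single_eq_of_ne hl, mul_zero, add_zero]
      have h1 := hfix (Pi.single l 1) (Submodule.subset_span (by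
        rw [Finset.mem_coe, hs, Finset.mem_image]
        exact ⟨l, Finset.mem_erase.2 ⟨hl, Finset.mem_univ _⟩, rfl⟩))
      rw [mulVec_single_one] at h1
      have h2 := congrFun h1 a
      rw [col_apply] at h2
      rw [h2, Matrix.one_apply, Pi.single_apply]
  have hc : 1 + v i ≠ 0 := by
    intro h
    -- the row `i` of `e g` vanishes
    have h1 : ∀ l, (e * g).1 i l = 0 := by
      intro l
      rw [hcol, Matrix.add_apply, vecMulVec_apply]
      by_cases hl : l = i
      · subst hl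
        rw [Pi.single_eq_same, mul_one, Matrix.one_apply_eq, h]
      · rw [Pi.single_eq_of_ne hl, mul_zero, add_zero, Matrix.one_apply_ne (Ne.symm hl)]
    have h2 : ((e * g).1 * ((e * g)⁻¹).1) i i = 1 := by rw [Units.mul_inv, one_apply_eq]
    rw [mul_apply] at h2
    simp only [h1, zero_mul, Finset.sum_const_zero] at h2
    exact zero_ne_one h2
  -- the transvection
  set v' : n → D := MulOpposite.op (1 + v i)⁻¹ • (v - MulOpposite.op (v i) • (Pi.single i 1 : n → D))
    with hv'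
  have h0 : (Pi.single i 1 : n → D) ⬝ᵥ v' = 0 := by
    rw [single_one_dotProduct, hv', op_smul_eq, Pi.sub_apply, op_smul_eq, Pi.single_eq_same, one_mul,
      sub_self, zero_mul]
  refine ⟨(tv h0)⁻¹ * e, Subgroup.mul_mem _ (Subgroup.inv_mem _ (tv_mem h0)) he, v i, ?_⟩
  have h1 : (tv h0 * ((tv h0)⁻¹ * e * g)).1 = (e * g).1 := by
    rw [mul_assoc, mul_inv_cancel_left]
  have h2 : tm v' (Pi.single i 1) *
      (1 + vecMulVec (MulOpposite.op (v i) • (Pi.single i 1 : n → D)) (Pi.single i 1)) =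
      1 + vecMulVec v (Pi.single i 1) := by
    rw [tm, add_mul, one_mul, mul_add, mul_one, vecMulVec_mul_vecMulVec]
    have e1 : (Pi.single i 1 : n → D) ⬝ᵥ (MulOpposite.op (v i) • (Pi.single i 1 : n → D)) = v i := by
      rw [single_one_dotProduct, op_smul_eq, Pi.single_eq_same, one_mul]
    rw [e1]
    ext a l
    simp only [Matrix.add_apply, vecMulVec_apply, Pi.smul_apply, op_smul_eq_mul, smul_eq_mul,
      hv', Pi.sub_apply]
    by_cases hl : l = i
    · subst hl
      rw [Pi.single_eq_same]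
      have e2 : (v a - (Pi.single l 1 : n → D) a * v l) * (1 + v l)⁻¹ * 1 +
          (v a - (Pi.single l 1 : n → D) a * v l) * (1 + v l)⁻¹ * (v l * 1) =
          v a - (Pi.single l 1 : n → D) a * v l := by
        rw [mul_one, mul_one, ← mul_one_add, mul_assoc, inv_mul_cancel₀ hc, mul_one]
      rw [mul_one, mul_one] at e2
      rw [mul_one, mul_one, mul_one, mul_one]
      rw [show ∀ x y z w : D, x + y + (z + w) = x + y + (z + w) from fun _ _ _ _ => rfl, e2]
      abel
    · rw [Pi.single_eq_of_ne hl]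
      simp
  have h3 : tm v' (Pi.single i 1) * ((tv h0)⁻¹ * e * g).1 = tm v' (Pi.single i 1) *
      (1 + vecMulVec (MulOpposite.op (v i) • (Pi.single i 1 : n → D)) (Pi.single i 1)) := by
    rw [h2, ← hcol, ← h1]
    rfl
  have h4 := congrArg (fun M => ((tv h0)⁻¹).1 * M) h3
  have h5 : ∀ M : Matrix n n D, ((tv h0)⁻¹).1 * (tm v' (Pi.single i 1) * M) = M := by
    intro M
    rw [← Matrix.mul_assoc]
    have : ((tv h0)⁻¹).1 * tm v' (Pi.single i 1) = 1 := Units.inv_mul (tv h0)
    rw [this, Matrix.one_mul]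
  simp only [h5] at h4
  exact h4

/-- commutators are products of transvections -/
theorem commutator_le (hn : 2 ≤ Fintype.card n) :
    ⁅(⊤ : Subgroup (Matrix n n D)ˣ), ⊤⁆ ≤ SLD n D := by
  obtain ⟨i, j, hij⟩ := Fintype.one_lt_card_iff.1 (by omega : 1 < Fintype.card n)
  rw [Subgroup.commutator_le]
  intro g _ h _
  obtain ⟨e, he, c, hc⟩ := exists_dil i g
  obtain ⟨e', he', c', hc'⟩ := exists_dil j h
  have hcomm : e * g * (e' * h) = e' * h * (e * g) := by
    refine Units.ext ?_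
    rw [Units.val_mul, Units.val_mul (e' * h), hc, hc']
    simp only [mul_add, add_mul, mul_one, one_mul, vecMulVec_mul_vecMulVec]
    have e1 : (Pi.single i 1 : n → D) ⬝ᵥ (MulOpposite.op c' • (Pi.single j 1 : n → D)) = 0 := by
      rw [single_one_dotProduct, op_smul_eq, Pi.single_eq_of_ne hij, zero_mul]
    have e2 : (Pi.single j 1 : n → D) ⬝ᵥ (MulOpposite.op c • (Pi.single i 1 : n → D)) = 0 := by
      rw [single_one_dotProduct, op_smul_eq, Pi.single_eq_of_ne (Ne.symm hij), zero_mul]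
    rw [e1, e2]
    simp only [zero_smul, vecMulVec_zero, add_zero]
    abel
  rw [← QuotientGroup.eq_one_iff]
  have q1 : ((e : (Matrix n n D)ˣ) : (Matrix n n D)ˣ ⧸ SLD n D) = 1 := (QuotientGroup.eq_one_iff e).2 he
  have q2 : ((e' : (Matrix n n D)ˣ) : (Matrix n n D)ˣ ⧸ SLD n D) = 1 :=
    (QuotientGroup.eq_one_iff e').2 he'
  have q3 := congrArg (fun x : (Matrix n n D)ˣ => (x : (Matrix n n D)ˣ ⧸ SLD n D)) hcomm
  simp only [QuotientGroup.mk_mul, q1, q2, one_mul] at q3
  rw [commutatorElement_def]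
  simp only [QuotientGroup.mk_mul, QuotientGroup.mk_inv]
  rw [q3]
  group

/-- **`SL_n(D)` is the commutator subgroup of `GL_n(D)`.** -/
theorem SLD_eq_commutator (hn : 2 ≤ Fintype.card n) (k : Type*) [Field k] [Algebra k D]
    (hk : ∃ r : k, r ≠ 0 ∧ r ^ 2 ≠ 1) :
    SLD n D = ⁅(⊤ : Subgroup (Matrix n n D)ˣ), ⊤⁆ := by
  refine le_antisymm (fun g hg => ?_) (commutator_le hn)
  have h1 := hom_eq_one hn k hk ((Abelianization.of (G := (Matrix n n D)ˣ)).comp (SLD n D).subtype)
  have h2 : Abelianization.of g = 1 := DFunLike.congr_fun h1 (⟨g, hg⟩ : SLD n D)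
  have h3 : g ∈ (Abelianization.of (G := (Matrix n n D)ˣ)).ker := h2
  rw [Abelianization.ker_of] at h3
  exact h3

end Vale.Agent.P092.H465.DA
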