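import Vale.Agent.P092.H213.Nd.Bd
import Vale.Agent.P092.VR.All
import Vale.Agent.P092.UN.Eqv

/-!
P092, project ND (helper465), [ND-C]: lattices in products of overgroups of factors, whose projections
have an open closure or are not discrete.
-/

set_option linter.all false

open MeasureTheory Filter Topology Set

namespace Vale.Agent.P092.Nd

open Vale.Agent.P092.H515.St (IsLattice)
open Vale.Agent.P092.SR.St (ICC SuperAll)
open Vale.Agent.P092.QC (QF)
open Vale.Agent.P092.H213.Nd (ND)
open Vale.Agent.P092.VR (Ov inc inc_inj lat_comap open_pos)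

/-- Push forward of a finite invariant measure. -/
theorem push {A B : Type} [Group A] [TopologicalSpace A] [Group B] [TopologicalSpace B]
    [IsTopologicalGroup B] (p : A →* B) (hp : Continuous p) (hs : Function.Surjective p) (Γ : Subgroup A)
    (H : Subgroup B) (hΓ : Γ ≤ H.comap p)
    (hν : ∃ ν : @Measure (A ⧸ Γ) (borel (A ⧸ Γ)), ν ≠ 0 ∧ ν Set.univ < ⊤ ∧
      ∀ (g : A) (s : Set (A ⧸ Γ)), MeasurableSet[borel (A ⧸ Γ)] s →
        ν ((fun x => g • x) ⁻¹' s) = ν s) :
    ∃ ν : @Measure (B ⧸ H) (borel (B ⧸ H)), ν ≠ 0 ∧ ν Set.univ < ⊤ ∧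
      ∀ (g : B) (s : Set (B ⧸ H)), MeasurableSet[borel (B ⧸ H)] s →
        ν ((fun x => g • x) ⁻¹' s) = ν s := by
  obtain ⟨ν, h0, hf, hinv⟩ := hν
  letI : MeasurableSpace (A ⧸ Γ) := borel _
  haveI : BorelSpace (A ⧸ Γ) := ⟨rfl⟩
  letI : MeasurableSpace (B ⧸ H) := borel _
  haveI : BorelSpace (B ⧸ H) := ⟨rfl⟩
  obtain ⟨π, hπ⟩ : ∃ π : A ⧸ Γ → B ⧸ H, ∀ x : A, π (x : A ⧸ Γ) = (p x : B ⧸ H) :=
    ⟨Quotient.map' p (by
      intro a b h
      rw [QuotientGroup.leftRel_apply] at h ⊢
      rw [← map_inv, ← map_mul]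
      exact hΓ h), fun x => rfl⟩
  have hc : Continuous π := by
    refine (QuotientGroup.isQuotientMap_mk Γ).continuous_iff.2 ?_
    exact (QuotientGroup.continuous_mk.comp hp).congr fun x => (hπ x).symm
  have hm : Measurable π := hc.measurable
  refine ⟨ν.map π, ?_, ?_, ?_⟩
  · rw [← Measure.measure_univ_ne_zero, Measure.map_apply hm MeasurableSet.univ, preimage_univ]
    exact Measure.measure_univ_ne_zero.2 h0
  · rw [Measure.map_apply hm MeasurableSet.univ, preimage_univ]
    exact hf
  · intro g s hs'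
    obtain ⟨g, rfl⟩ := hs g
    have hpre : MeasurableSet ((fun x : B ⧸ H => p g • x) ⁻¹' s) := by
      have h1 : Continuous fun x : B ⧸ H => p g • x := continuous_const_smul _
      exact h1.measurable hs'
    rw [Measure.map_apply hm hpre, Measure.map_apply hm hs', ← hinv g _ (hm hs')]
    congr 1
    ext x
    obtain ⟨x, rfl⟩ := QuotientGroup.mk_surjective x
    show p g • π (x : A ⧸ Γ) ∈ s ↔ π (g • (x : A ⧸ Γ)) ∈ s
    have h1 : π (g • (x : A ⧸ Γ)) = p g • π (x : A ⧸ Γ) := by
      show π ((g * x : A) : A ⧸ Γ) = _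
      rw [hπ, hπ, map_mul]
      rfl
    rw [h1]

/-- An open subgroup of finite covolume has finite index. -/
theorem fin_index {E : Type} [Group E] [TopologicalSpace E] [IsTopologicalGroup E]
    [SecondCountableTopology E] (H : Subgroup E) (hH : IsOpen (H : Set E))
    (hν : ∃ ν : @Measure (E ⧸ H) (borel (E ⧸ H)), ν ≠ 0 ∧ ν Set.univ < ⊤ ∧
      ∀ (g : E) (s : Set (E ⧸ H)), MeasurableSet[borel (E ⧸ H)] s →
        ν ((fun x => g • x) ⁻¹' s) = ν s) : H.FiniteIndex := by
  obtain ⟨ν, h0, hf, hinv⟩ := hν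
  letI : MeasurableSpace (E ⧸ H) := borel _
  haveI : BorelSpace (E ⧸ H) := ⟨rfl⟩
  haveI : DiscreteTopology (E ⧸ H) := QuotientGroup.discreteTopology hH
  have hop := open_pos ν h0 hinv
  have h1 : ∀ x : E ⧸ H, ν {x} = ν {((1 : E) : E ⧸ H)} := by
    intro x
    obtain ⟨x, rfl⟩ := QuotientGroup.mk_surjective x
    rw [← hinv x {(x : E ⧸ H)} (isOpen_discrete _).measurableSet]
    congr 1
    ext y
    simp only [mem_preimage, mem_singleton_iff]
    constructor
    · intro h
      rw [← inv_smul_smul x y, h]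
      show ((x⁻¹ * x : E) : E ⧸ H) = _
      rw [inv_mul_cancel]
    · rintro rfl
      show ((x * 1 : E) : E ⧸ H) = _
      rw [mul_one]
  have hc : ν {((1 : E) : E ⧸ H)} ≠ 0 := hop _ (isOpen_discrete _) (singleton_nonempty _)
  have hfin : Finite (E ⧸ H) := by
    by_contra hinf
    rw [not_finite_iff_infinite] at hinf
    obtain ⟨n, hn⟩ := ENNReal.exists_nat_mul_gt hc hf.ne
    obtain ⟨s, hs⟩ := Infinite.exists_subset_card_eq (E ⧸ H) n
    have h2 : ν (s : Set (E ⧸ H)) = n * ν {((1 : E) : E ⧸ H)} := by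
      rw [← sum_measure_singleton, Finset.sum_congr rfl fun x _ => h1 x, Finset.sum_const,
        hs, nsmul_eq_mul]
    have h3 := measure_mono (μ := ν) (subset_univ (s : Set (E ⧸ H)))
    rw [h2] at h3
    exact absurd hn (not_lt.2 h3)
  exact Subgroup.finiteIndex_of_finite_quotient

/-- A factor has no proper open subgroup of finite index. -/
theorem open_fin_top {M : Type} [Group M] [TopologicalSpace M] {r : ℕ} (h : QF M r)
    (U : Subgroup M) (hU : IsOpen (U : Set M)) (hf : U.FiniteIndex) : U = ⊤ := by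
  haveI := h.top
  by_contra hne
  have hc := H183.Cl.proper_of_hmg h.hmg U hU hne
  refine h.fac.nc ?_
  have hM : CompactSpace M := by
    haveI : Finite (M ⧸ U) := Subgroup.finite_quotient_of_finiteIndex
    refine ⟨?_⟩
    have e : (univ : Set M) = ⋃ x : M ⧸ U, (fun y => x.out * y) '' (U : Set M) := by
      symm
      rw [eq_univ_iff_forall]
      intro g
      refine mem_iUnion.2 ⟨(g : M ⧸ U), (g : M ⧸ U).out⁻¹ * g, ?_, by
        show (g : M ⧸ U).out * ((g : M ⧸ U).out⁻¹ * g) = g
        rw [mul_inv_cancel_left]⟩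
      have h1 : (((g : M ⧸ U).out : M) : M ⧸ U) = (g : M ⧸ U) := QuotientGroup.out_eq' _
      exact QuotientGroup.eq.1 h1
    rw [e]
    exact isCompact_iUnion fun x => hc.image (continuous_const.mul continuous_id)
  exact inferInstanceAs (CompactSpace (M ⧸ Subgroup.center M))

section main

variable {P : Type} [Fintype P] {M E : P → Type} [∀ i, Group (M i)]
  [∀ i, TopologicalSpace (M i)] [∀ i, Group (E i)] [∀ i, TopologicalSpace (E i)]
  {φ : ∀ i, M i →* E i} {r : P → ℕ}

/-- An open subgroup of finite index of an overgroup contains the factor. -/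
theorem range_le {M E : Type} [Group M] [TopologicalSpace M] [Group E] [TopologicalSpace E]
    {φ : M →* E} {r : ℕ} (h : Ov φ r) (H : Subgroup E) (hH : IsOpen (H : Set E))
    (hf : H.FiniteIndex) (x : M) : φ x ∈ H := by
  haveI := h.qf.top
  haveI := h.top
  haveI := H333.V.Ov.sc h
  haveI : Finite (E ⧸ H) := Subgroup.finite_quotient_of_finiteIndex
  haveI : Finite (M ⧸ H.comap φ) := Finite.of_injective _ (VR.qmap_inj φ H)
  have h1 : H.comap φ = ⊤ := open_fin_top h.qf _ (hH.preimage h.cont)
    Subgroup.finiteIndex_of_finite_quotient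
  have h2 : x ∈ H.comap φ := by rw [h1]; exact Subgroup.mem_top x
  exact h2

/-- The factor in an open subgroup of finite index of an overgroup. -/
theorem ov_sub {M E : Type} [Group M] [TopologicalSpace M] [Group E] [TopologicalSpace E]
    {φ : M →* E} {r : ℕ} (h : Ov φ r) (H : Subgroup E) (hx : ∀ x, φ x ∈ H) :
    Ov (φ.codRestrict H hx) r := by
  haveI := h.top
  haveI := h.normal
  haveI := h.fin
  have hr : (φ.codRestrict H hx).range = φ.range.subgroupOf H := by
    ext y
    rw [Subgroup.mem_subgroupOf]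
    constructor
    · rintro ⟨x, rfl⟩
      exact ⟨x, rfl⟩
    · rintro ⟨x, hx⟩
      exact ⟨x, Subtype.ext hx⟩
  exact
  { top := inferInstance
    qf := h.qf
    cont := h.cont.subtype_mk _
    inj := fun x y hxy => h.inj (congrArg Subtype.val hxy)
    opn := by
      intro U hU
      have e : (φ.codRestrict H hx) '' U = (Subtype.val : H → E) ⁻¹' (φ '' U) := by
        ext y
        constructor
        · rintro ⟨x, hx, rfl⟩
          exact ⟨x, hx, rfl⟩
        · rintro ⟨x, hx, hxy⟩
          exact ⟨x, hx, Subtype.ext hxy⟩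
      rw [e]
      exact (h.opn U hU).preimage continuous_subtype_val
    normal := by
      rw [hr]
      infer_instance
    fin := by
      rw [hr]
      infer_instance }

/-- **The final theorem for lattices in products of overgroups of factors, whose projections have an open
closure or are not discrete**, all amplifications. -/
theorem superAll_nd (h : ∀ i, Ov (φ i) (r i)) {Γ : Type} [Group Γ]
    (q : Γ →* ∀ i, E i) (hi : Function.Injective q) (hlat : IsLattice q.range)
    (hd : ∀ i, IsOpen (closure (Set.range fun g => q g i)) ∨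
      ND (E i) ∧ ¬ DiscreteTopology (Set.range fun g => q g i))
    (hicc : ICC Γ) : SuperAll Γ := by
  haveI := fun i => (h i).top
  haveI := fun i => H333.V.Ov.lc (h i)
  haveI := fun i => H333.V.Ov.sc (h i)
  haveI := fun i => H333.V.Ov.t2 (h i)
  obtain ⟨H, hHd⟩ : ∃ H : ∀ i, Subgroup (E i),
      ∀ i, H i = ((Pi.evalMonoidHom E i).comp q).range.topologicalClosure := ⟨_, fun i => rfl⟩
  have hle : ∀ i, ((Pi.evalMonoidHom E i).comp q).range ≤ H i := fun i => by
    rw [hHd]
    exact Subgroup.le_topologicalClosure _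
  have hcl : ∀ i, IsClosed (H i : Set (E i)) := fun i => by
    rw [hHd]
    exact Subgroup.isClosed_topologicalClosure _
  haveI : ∀ i, LocallyCompactSpace (H i) := fun i =>
    (hcl i).isClosedEmbedding_subtypeVal.locallyCompactSpace
  haveI : ∀ i, SecondCountableTopology (H i) := fun i =>
    (IsEmbedding.subtypeVal (p := fun x => x ∈ H i)).secondCountableTopology
  have hmem : ∀ i g, q g i ∈ H i := fun i g => hle i ⟨g, rfl⟩
  have hcoe : ∀ i, (H i : Set (E i)) = closure (Set.range fun g => q g i) := fun i => by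
    rw [hHd, Subgroup.topologicalClosure_coe, MonoidHom.coe_range]
    rfl
  have hν : ∀ i, ∃ ν : @Measure (E i ⧸ H i) (borel (E i ⧸ H i)), ν ≠ 0 ∧ ν Set.univ < ⊤ ∧
      ∀ (g : E i) (s : Set (E i ⧸ H i)), MeasurableSet[borel (E i ⧸ H i)] s →
        ν ((fun x => g • x) ⁻¹' s) = ν s := fun i =>
    push (Pi.evalMonoidHom E i) (continuous_apply i) (fun x => by
      classical
      exact ⟨Function.update 1 i x, Function.update_self i x 1⟩) q.range (H i) (by
      rintro _ ⟨g, rfl⟩
      exact hmem i g) hlat.covol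
  have ho : ∀ i, IsOpen (H i : Set (E i)) := by
    intro i
    rcases hd i with h1 | ⟨h1, h2⟩
    · rw [hcoe]
      exact h1
    · refine h1 (H i) (hcl i) (hν i) fun h3 => h2 ?_
      have h4 : ∀ x : ↥(Set.range fun g => q g i), (x : E i) ∈ H i := by
        rintro ⟨_, g, rfl⟩
        exact hmem i g
      exact DiscreteTopology.of_continuous_injective
        (f := fun x : ↥(Set.range fun g => q g i) => (⟨x.1, h4 x⟩ : H i))
        (Continuous.subtype_mk continuous_subtype_val h4)
        (fun x y hxy => Subtype.ext (congrArg (fun z : H i => (z : E i)) hxy))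
  have hf : ∀ i, (H i).FiniteIndex := fun i => fin_index (H i) (ho i) (hν i)
  have hx : ∀ i x, φ i x ∈ H i := fun i => range_le (h i) (H i) (ho i) (hf i)
  have hov : ∀ i, Ov ((φ i).codRestrict (H i) (hx i)) (r i) := fun i =>
    ov_sub (h i) (H i) (hx i)
  obtain ⟨q', hq'⟩ : ∃ q' : Γ →* ∀ i, H i, ∀ g i, (q' g i : E i) = q g i :=
    ⟨MonoidHom.pi fun i => ((Pi.evalMonoidHom E i).comp q).codRestrict (H i) (hmem i),
      fun g i => rfl⟩
  have hi' : Function.Injective q' := by
    intro a b hab
    refine hi (funext fun i => ?_)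
    rw [← hq', ← hq', hab]
  have hinc : ∀ g, inc (fun i => (H i).subtype) (q' g) = q g := fun g => funext fun i => hq' g i
  have hrange : q'.range = q.range.comap (inc fun i => (H i).subtype) := by
    ext x
    constructor
    · rintro ⟨g, rfl⟩
      exact ⟨g, (hinc g).symm⟩
    · rintro ⟨g, hg⟩
      refine ⟨g, inc_inj (fun i => (H i).subtype_injective) ?_⟩
      rw [hinc, hg]
  have hlat' : IsLattice q'.range := by
    rw [hrange]
    have h1 := lat_comap (inc fun i => (H i).subtype)
      (inc_inj fun i => (H i).subtype_injective)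
      (continuous_pi fun i => continuous_subtype_val.comp (continuous_apply i)) (by
        refine IsOpenMap.piMap (f := fun i => ((H i).subtype : H i → E i))
          (fun i => (ho i).isOpenMap_subtype_val) ?_
        rw [Filter.cofinite_eq_bot]
        exact Filter.eventually_bot) q.range
      (⟨hlat.disc, hlat.covol⟩ : H515.IsLattice q.range)
    exact ⟨h1.disc, h1.covol⟩
  refine VR.superAll_ovh hov q' hi' hlat' (fun i => ?_) hicc
  show Dense (Set.range fun g => q' g i)
  rw [Subtype.dense_iff]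
  intro x hx
  rw [hcoe] at hx
  refine closure_mono ?_ hx
  rintro _ ⟨g, rfl⟩
  exact ⟨q' g i, ⟨g, rfl⟩, hq' g i⟩

/-- The same for general overgroups, in compact letters. -/
theorem superAll_gen {Γ : Type} [Group Γ] (hicc : UN.ICC Γ) {I : Type} [Fintype I]
    {E : I → Type} [∀ j, Group (E j)] [∀ j, TopologicalSpace (E j)] (i : Γ →* ∀ j, E j)
    (hE : ∀ j, IsTopologicalGroup (E j) ∧ ∃ N : Subgroup (E j), N.Normal ∧ N.FiniteIndex ∧
      IsOpen (N : Set (E j)) ∧ ∃ r, QC.QF N r) (hi : Function.Injective i)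
    (hlat : UN.IsLattice i.range) (hd : ∀ j, IsOpen (closure (Set.range fun g => i g j)) ∨
      ND (E j) ∧ ¬ DiscreteTopology (Set.range fun g => i g j)) : UN.SuperAll Γ := by
  have h : ∀ j, ∃ (N : Subgroup (E j)) (r : ℕ), VR.Ov N.subtype r := fun j => by
    obtain ⟨ht, N, hn, hf, ho, r, hr⟩ := hE j
    exact ⟨N, r, VR.ov_subtype ht hn hf ho hr⟩
  choose N r hr using h
  exact UN.superAll_of (superAll_nd hr i hi ⟨hlat.disc, hlat.covol⟩ hd ((UN.icc_iff Γ).1 hicc))

end main

end Vale.Agent.P092.Nd
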