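import Vale.Agent.P092.H465.NeAbs
import Vale.Agent.P092.Q.Final
import Vale.Agent.P092.H515.RkFin

/-!
P092 (helper465), project Q: the block `Q.NeStmt` of `Q/Final.lean`.
-/

set_option linter.all false

open scoped InnerProductSpace Topology ENNReal
open Filter ContinuousLinearMap MeasureTheory

namespace Vale.Agent.P092.H465

open Vale.Agent.P092.H160 Vale.Agent.P092.H156 Vale.Agent.P092.SR Vale.Agent.P092.H776
open Vale.Agent.P092.H264 Vale.Agent.P092.H739
open Vale.Agent.P092.H701 (slChain)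
open Vale.Agent.P092.H971 (pj pjq)

/-- **[Q-NE]** for lattices in finite products of groups `SL`. -/
theorem ne_sl (I : Type) [Fintype I] (m : I → ℕ) (k : I → Type)
    [∀ i, NontriviallyNormedField (k i)] [∀ i, ProperSpace (k i)]
    [∀ i, MeasurableSpace (PSLk (m i + 1) (k i))] [∀ i, BorelSpace (PSLk (m i + 1) (k i))]
    (μ : ∀ i, Measure (PSLk (m i + 1) (k i)))
    [∀ i, (μ i).IsHaarMeasure] [∀ i, (μ i).IsMulRightInvariant] (hk : ∀ i, H933.LocK (k i))
    (hm : ∀ i, 0 < m i)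
    (Γ : Subgroup (∀ i, Matrix.SpecialLinearGroup (Fin (m i + 1)) (k i)))
    (hΓ : H515.IsLattice Γ) (hd : ∀ i, DenseRange (pj Γ i)) {Λ : Type} [Group Λ]
    {α : Γ →* (Ell2 Λ →L[ℂ] Ell2 Λ)} (hα : Frame α) (i : I) :
    ∃ j, NeL false (pjq Γ j) (pjq Γ i) α (μ j) := by
  classical
  let _ : ∀ i, MeasurableSpace (Matrix.SpecialLinearGroup (Fin (m i + 1)) (k i)) := fun i => borel _
  have _ : ∀ i, BorelSpace (Matrix.SpecialLinearGroup (Fin (m i + 1)) (k i)) := fun i => ⟨rfl⟩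
  have hL : ∀ i, LocallyCompactSpace (Matrix.SpecialLinearGroup (Fin (m i + 1)) (k i)) := fun i =>
    lc_SL (m i) (k i)
  have hS : ∀ i, SecondCountableTopology (Matrix.SpecialLinearGroup (Fin (m i + 1)) (k i)) :=
    fun i => sc_SL (m i) (k i)
  have hLP : ∀ i, LocallyCompactSpace (PSLk (m i + 1) (k i)) := fun i => inferInstance
  have hSP : ∀ i, SecondCountableTopology (PSLk (m i + 1) (k i)) := fun i => inferInstance
  have hTP : ∀ i, T2Space (PSLk (m i + 1) (k i)) := fun i => t2_PS (m i) (k i)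
  have hdis := hΓ.disc
  have hcΓ : Countable Γ := H790.countable_of_discrete Γ
  obtain ⟨j, hj⟩ := ne_abs hΓ hα hm (fun i => slChain (k i) (m i))
    (fun i => mau_sl (k i) (m i) (hm i)) (fun i => H933.tgt_sl_loc (hk i) (m i))
    (fun j => QuotientGroup.mk' (Subgroup.center (Matrix.SpecialLinearGroup (Fin (m j + 1)) (k j))))
    (fun j => continuous_quotient_mk') μ i
  have hfin : Finite (Subgroup.center (Matrix.SpecialLinearGroup (Fin (m i + 1)) (k i))) :=
    H793.finite_center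
  exact ⟨j, neL_quot hα (hd i) _ hj⟩

/-- The block `Q.NeStmt`. -/
theorem neStmt : Q.NeStmt := by
  intro I _ n k _ _ _ _ μ _ _ hk hn Γ hΓ hd hicc Λ _ _ α hΛ hα i
  obtain ⟨m, rfl⟩ : ∃ m : I → ℕ, n = fun i => m i + 1 :=
    ⟨fun i => n i - 1, funext fun i => (Nat.sub_add_cancel (le_trans one_le_two (hn i))).symm⟩
  exact ne_sl I m k μ (fun i => H515.locK (hk i)) (fun i => Nat.le_of_succ_le_succ (hn i)) Γ
    ⟨hΓ.disc, hΓ.covol⟩ hd hα i

end Vale.Agent.P092.H465
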