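import Vale.Agent.P092.Q.Final
import Vale.Agent.P092.Q.Mat
import Vale.Agent.P092.Q.Alg
import Vale.Agent.P092.Q.End
import Vale.Agent.P092.H448.Gal2
import Vale.Agent.P092.H448.ErgFinal
import Vale.Agent.P092.H720.C1
import Vale.Agent.P092.H978.C2c
import Vale.Agent.P092.H565.C3
import Vale.Agent.P092.H971.QGrp
import Vale.Agent.P092.H465.NeStmt

/-!
P092 (helper465), project Q: closure check, all blocks plugged in.
-/

namespace Vale.Agent.P092.H465

theorem blk : Q.Blk where
  mat := Q.matStmt
  two := Q.twoStmt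
  alg := Q.algStmt
  gal := Vale.Agent.P092.H448.Gal.galStmt
  c1 := H720.c1Stmt
  c2 := H978.c2Stmt
  c3 := H565.c3Stmt
  fin := Q.endStmt

/-- **Project Q**, without hypotheses. -/
theorem final (Γ : Type) [Group Γ] (h : Q.St.ProductLattice Γ) : SR.St.Super Γ :=
  blk.final H971.grpStmt H448.ergStmt neStmt Γ h

end Vale.Agent.P092.H465
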