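import Vale.Agent.P092.H160.Rep

/-!
P092 (helper465), project Q: from exact ergodicity (operators commuting with an open subgroup) to
ergodicity for operators which are only continuous in the two norm under the conjugation (totally
disconnected places).
-/

set_option linter.all false

open scoped InnerProductSpace
open Filter Topology ContinuousLinearMap

namespace Vale.Agent.P092.H465

open Vale.Agent.P092.H160

variable {X Γ E : Type} [Group X] [Group Γ] [NormedAddCommGroup E] [InnerProductSpace ℂ E]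
  [CompleteSpace E] {R : X →* (E →L[ℂ] E)} {ξ : E} {V : Γ →* (E →L[ℂ] E)}

/-- A bounded sequence in the commutant which converges on the cyclic vector converges strongly. -/
theorem exists_lim_op (h : RegRep R ξ) {y : ℕ → E →L[ℂ] E} (hy : ∀ n, Cmm R (y n)) {C : ℝ}
    (hC : ∀ n, ‖y n‖ ≤ C) {v : E} (hv : Tendsto (fun n => y n ξ) atTop (𝓝 v)) :
    ∃ S : E →L[ℂ] E, ∀ ζ, Tendsto (fun n => y n ζ) atTop (𝓝 (S ζ)) := by
  classical
  have hC0 : 0 ≤ C := (norm_nonneg _).trans (hC 0)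
  obtain ⟨W, hW⟩ : ∃ W : Submodule ℂ E, ∀ ζ, ζ ∈ W ↔ ∃ w, Tendsto (fun n => y n ζ) atTop (𝓝 w) := by
    refine ⟨{ carrier := {ζ | ∃ w, Tendsto (fun n => y n ζ) atTop (𝓝 w)}
              add_mem' := ?_, zero_mem' := ?_, smul_mem' := ?_ }, fun ζ => Iff.rfl⟩
    · rintro a b ⟨w, hw⟩ ⟨w', hw'⟩
      refine ⟨w + w', (hw.add hw').congr fun n => ?_⟩
      rw [map_add]
    · exact ⟨0, tendsto_const_nhds.congr fun n => (map_zero _).symm⟩
    · rintro c a ⟨w, hw⟩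
      refine ⟨c • w, (hw.const_smul c).congr fun n => ?_⟩
      rw [map_smul]
  have hWc : IsClosed (W : Set E) := by
    refine isClosed_of_closure_subset fun ζ hζ => ?_
    refine (hW ζ).mpr (cauchySeq_tendsto_of_complete ?_)
    rw [Metric.cauchySeq_iff]
    intro ε hε
    obtain ⟨ζ', hζ', hd⟩ := Metric.mem_closure_iff.mp hζ (ε / (3 * (C + 1))) (by positivity)
    obtain ⟨w, hw⟩ := (hW ζ').mp hζ'
    obtain ⟨N, hN⟩ := Metric.cauchySeq_iff.mp hw.cauchySeq (ε / 3) (by positivity)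
    refine ⟨N, fun m hm n hn => ?_⟩
    have h1 : ∀ k, dist (y k ζ) (y k ζ') ≤ ε / 3 := by
      intro k
      rw [dist_eq_norm, ← map_sub]
      refine ((y k).le_opNorm _).trans ?_
      rw [dist_eq_norm] at hd
      calc ‖y k‖ * ‖ζ - ζ'‖ ≤ (C + 1) * (ε / (3 * (C + 1))) := by
            gcongr
            exact (hC k).trans (by linarith)
        _ = ε / 3 := by field_simp
    have h2 := hN m hm n hn
    calc dist (y m ζ) (y n ζ) ≤ dist (y m ζ) (y m ζ') + dist (y m ζ') (y n ζ') +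
          dist (y n ζ') (y n ζ) := dist_triangle4 _ _ _ _
      _ < ε := by
          have := h1 m
          have := h1 n
          rw [dist_comm] at this
          linarith
  have hWtop : W = ⊤ := by
    have h1 : Wᗮ = ⊥ := by
      rw [Submodule.eq_bot_iff]
      intro u hu
      refine h.total u fun x => ?_
      refine Submodule.inner_right_of_mem_orthogonal ?_ hu
      refine (hW _).mpr ⟨R x v, ?_⟩
      have h2 := ((R x).continuous.tendsto v).comp hv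
      refine h2.congr fun n => ?_
      exact ((hy n).apply x ξ).symm
    have h2 : W.topologicalClosure = W := IsClosed.submodule_topologicalClosure_eq hWc
    rw [← h2]
    exact (Submodule.topologicalClosure_eq_top_iff).mpr h1
  have hall : ∀ ζ, ∃ w, Tendsto (fun n => y n ζ) atTop (𝓝 w) := fun ζ =>
    (hW ζ).mp (by rw [hWtop]; trivial)
  choose f hf using hall
  refine ⟨ContinuousLinearMap.ofTendstoOfBoundedRange f y (tendsto_pi_nhds.mpr hf) ?_, hf⟩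
  rw [isBounded_iff_forall_norm_le]
  refine ⟨C, ?_⟩
  rintro _ ⟨n, rfl⟩
  exact hC n

/-- **From exact ergodicity to almost invariance.** -/
theorem exact_to_cont (h : RegRep R ξ) (hV : ∀ g, adjoint (V g) = V g⁻¹)
    (hVR : ∀ g, Cmm R (V g)) (Θ : Subgroup Γ)
    (herg : ∀ y : E →L[ℂ] E, Cmm R y → (∀ θ ∈ Θ, y * V θ = V θ * y) →
      ∃ c : ℂ, y = c • (1 : E →L[ℂ] E))
    {T : E →L[ℂ] E} (hT : Cmm R T) {ε : ℝ}
    (hε : ∀ θ ∈ Θ, ‖(V θ * T * V θ⁻¹) ξ - T ξ‖ ≤ ε) : ∃ c : ℂ, ‖T ξ - c • ξ‖ ≤ ε := by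
  have hVi : ∀ g, V g * V g⁻¹ = 1 := fun g => by rw [← map_mul, mul_inv_cancel, map_one]
  have hVi' : ∀ g, V g⁻¹ * V g = 1 := fun g => by rw [← map_mul, inv_mul_cancel, map_one]
  have hVn : ∀ g u, ‖V g u‖ = ‖u‖ := by
    intro g u
    have h1 : ⟪V g u, V g u⟫_ℂ = ⟪u, u⟫_ℂ := by
      rw [← adjoint_inner_right, hV]
      exact congrArg (fun w => ⟪u, w⟫_ℂ) (congrArg (fun L : E →L[ℂ] E => L u) (hVi' g))
    rw [inner_self_eq_norm_sq_to_K, inner_self_eq_norm_sq_to_K] at h1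
    have h2 : ‖V g u‖ ^ 2 = ‖u‖ ^ 2 := by exact_mod_cast h1
    exact (pow_left_inj₀ (norm_nonneg _) (norm_nonneg _) two_ne_zero).mp h2
  have hVo : ∀ g, ‖V g‖ ≤ 1 := fun g =>
    ContinuousLinearMap.opNorm_le_bound _ zero_le_one fun u => by rw [hVn, one_mul]
  -- the convex set of operators
  obtain ⟨O, hO⟩ : ∃ O : Set (E →L[ℂ] E), ∀ y, y ∈ O ↔ (Cmm R y ∧ ‖y‖ ≤ ‖T‖ ∧
      ∀ θ ∈ Θ, ‖(V θ * y * V θ⁻¹) ξ - T ξ‖ ≤ ε) := ⟨{y | _}, fun y => Iff.rfl⟩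
  have hTO : T ∈ O := (hO T).mpr ⟨hT, le_rfl, hε⟩
  have hOV : ∀ y ∈ O, ∀ θ ∈ Θ, V θ * y * V θ⁻¹ ∈ O := by
    intro y hy θ hθ
    obtain ⟨h1, h2, h3⟩ := (hO y).mp hy
    refine (hO _).mpr ⟨((hVR θ).mul h1).mul (hVR θ⁻¹), ?_, fun θ' hθ' => ?_⟩
    · calc ‖V θ * y * V θ⁻¹‖ ≤ ‖V θ‖ * ‖y‖ * ‖V θ⁻¹‖ :=
            (norm_mul_le _ _).trans (by gcongr; exact norm_mul_le _ _)
        _ ≤ 1 * ‖y‖ * 1 := by
            gcongr
            · exact hVo θ
            · exact hVo θ⁻¹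
        _ ≤ ‖T‖ := by rw [one_mul, mul_one]; exact h2
    · have h4 := h3 (θ' * θ) (Θ.mul_mem hθ' hθ)
      rw [mul_inv_rev, map_mul, map_mul] at h4
      have h5 : V θ' * (V θ * y * V θ⁻¹) * V θ'⁻¹ = V θ' * V θ * y * (V θ⁻¹ * V θ'⁻¹) := by
        simp only [mul_assoc]
      rw [h5]
      exact h4
  have hOc : ∀ y ∈ O, ∀ y' ∈ O, ∀ a b : ℝ, 0 ≤ a → 0 ≤ b → a + b = 1 →
      (a : ℂ) • y + (b : ℂ) • y' ∈ O := by
    intro y hy y' hy' a b ha hb hab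
    obtain ⟨h1, h2, h3⟩ := (hO y).mp hy
    obtain ⟨h1', h2', h3'⟩ := (hO y').mp hy'
    have hna : ‖(a : ℂ)‖ = a := by rw [Complex.norm_real, Real.norm_of_nonneg ha]
    have hnb : ‖(b : ℂ)‖ = b := by rw [Complex.norm_real, Real.norm_of_nonneg hb]
    refine (hO _).mpr ⟨(h1.smul _).add (h1'.smul _), ?_, fun θ hθ => ?_⟩
    · calc ‖(a : ℂ) • y + (b : ℂ) • y'‖ ≤ ‖(a : ℂ) • y‖ + ‖(b : ℂ) • y'‖ := norm_add_le _ _
        _ ≤ a * ‖T‖ + b * ‖T‖ := by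
            rw [norm_smul, norm_smul, hna, hnb]
            gcongr
        _ = ‖T‖ := by rw [← add_mul, hab, one_mul]
    · have e1 : (V θ * ((a : ℂ) • y + (b : ℂ) • y') * V θ⁻¹) ξ - T ξ =
          (a : ℂ) • ((V θ * y * V θ⁻¹) ξ - T ξ) + (b : ℂ) • ((V θ * y' * V θ⁻¹) ξ - T ξ) := by
        have e2 : T ξ = (a : ℂ) • T ξ + (b : ℂ) • T ξ := by
          rw [← add_smul, ← Complex.ofReal_add, hab, Complex.ofReal_one, one_smul]
        rw [mul_add, add_mul, mul_smul_comm, mul_smul_comm, smul_mul_assoc, smul_mul_assoc,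
          add_apply, smul_apply, smul_apply, smul_sub, smul_sub]
        nth_rewrite 1 [e2]
        abel
      rw [e1]
      calc _ ≤ ‖(a : ℂ) • ((V θ * y * V θ⁻¹) ξ - T ξ)‖ +
            ‖(b : ℂ) • ((V θ * y' * V θ⁻¹) ξ - T ξ)‖ := norm_add_le _ _
        _ ≤ a * ε + b * ε := by
            rw [norm_smul, norm_smul, hna, hnb]
            gcongr
            · exact h3 θ hθ
            · exact h3' θ hθ
        _ = ε := by rw [← add_mul, hab, one_mul]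
  -- closedness of the set of vectors
  have hcl : ∀ (y : ℕ → E →L[ℂ] E) (v : E), (∀ n, y n ∈ O) →
      Tendsto (fun n => y n ξ) atTop (𝓝 v) → ∃ S ∈ O, S ξ = v := by
    intro y v hy hv
    obtain ⟨S, hS⟩ := exists_lim_op h (fun n => ((hO _).mp (hy n)).1)
      (fun n => ((hO _).mp (hy n)).2.1) hv
    refine ⟨S, (hO S).mpr ⟨fun x => ?_, ?_, fun θ hθ => ?_⟩, tendsto_nhds_unique (hS ξ) hv⟩
    · ext1 u
      change S (R x u) = R x (S u)
      have h1 := hS (R x u)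
      have h2 := ((R x).continuous.tendsto (S u)).comp (hS u)
      refine tendsto_nhds_unique h1 (h2.congr fun n => ?_)
      exact (((hO _).mp (hy n)).1.apply x u).symm
    · refine ContinuousLinearMap.opNorm_le_bound _ (norm_nonneg _) fun u => ?_
      refine le_of_tendsto' (hS u).norm fun n => ?_
      exact ((y n).le_opNorm u).trans (by gcongr; exact ((hO _).mp (hy n)).2.1)
    · have h1 : Tendsto (fun n => V θ (y n (V θ⁻¹ ξ)) - T ξ) atTop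
          (𝓝 (V θ (S (V θ⁻¹ ξ)) - T ξ)) :=
        (((V θ).continuous.tendsto _).comp (hS _)).sub_const _
      refine le_of_tendsto' h1.norm fun n => ?_
      exact ((hO _).mp (hy n)).2.2 θ hθ
  -- the element of minimal norm
  obtain ⟨K, hK⟩ : ∃ K : Set E, ∀ v, v ∈ K ↔ ∃ y ∈ O, y ξ = v := ⟨{v | _}, fun v => Iff.rfl⟩
  have hKne : K.Nonempty := ⟨T ξ, (hK _).mpr ⟨T, hTO, rfl⟩⟩
  have hKclosed : IsClosed K := by
    refine isClosed_of_closure_subset fun v hv => ?_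
    obtain ⟨u, hu, huv⟩ := mem_closure_iff_seq_limit.mp hv
    choose y hyO hy using fun n => (hK _).mp (hu n)
    obtain ⟨S, hSO, hS⟩ := hcl y v hyO (by simpa only [hy] using huv)
    exact (hK v).mpr ⟨S, hSO, hS⟩
  have hKconv : Convex ℝ K := by
    intro u hu v hv a b ha hb hab
    obtain ⟨y, hy, rfl⟩ := (hK u).mp hu
    obtain ⟨y', hy', rfl⟩ := (hK v).mp hv
    refine (hK _).mpr ⟨_, hOc y hy y' hy' a b ha hb hab, ?_⟩
    rw [add_apply, smul_apply, smul_apply]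
    rfl
  obtain ⟨v, hvK, hv⟩ : ∃ v ∈ K, ‖(0 : E) - v‖ = ⨅ w : K, ‖(0 : E) - w‖ := by
    letI : InnerProductSpace ℝ E := InnerProductSpace.complexToReal
    exact exists_norm_eq_iInf_of_complete_convex hKne hKclosed.isComplete hKconv 0
  have hmin : ∀ w ∈ K, ‖v‖ ≤ ‖w‖ := by
    intro w hw
    rw [zero_sub, norm_neg] at hv
    rw [hv]
    have h1 : ⨅ w : K, ‖(0 : E) - w‖ ≤ ‖(0 : E) - (⟨w, hw⟩ : K)‖ :=
      ciInf_le ⟨0, by rintro _ ⟨z, rfl⟩; exact norm_nonneg _⟩ _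
    rwa [zero_sub, norm_neg] at h1
  have huniq : ∀ w ∈ K, ‖w‖ = ‖v‖ → w = v := by
    intro w hw hwv
    have h1 : (1 / 2 : ℝ) • w + (1 / 2 : ℝ) • v ∈ K :=
      hKconv hw hvK (by norm_num) (by norm_num) (by norm_num)
    have h2 := hmin _ h1
    have h3 : (1 / 2 : ℝ) • w + (1 / 2 : ℝ) • v = (1 / 2 : ℝ) • (w + v) := by rw [smul_add]
    rw [h3, norm_smul, Real.norm_of_nonneg (by norm_num : (0 : ℝ) ≤ 1 / 2)] at h2
    have h4 := parallelogram_law_with_norm ℂ w v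
    rw [hwv] at h4
    have h5 : ‖w - v‖ = 0 := by
      have h6 : 0 ≤ ‖w - v‖ := norm_nonneg _
      have h7 : 0 ≤ ‖v‖ := norm_nonneg _
      nlinarith
    exact sub_eq_zero.mp (norm_eq_zero.mp h5)
  obtain ⟨y, hyO, hyv⟩ := (hK v).mp hvK
  obtain ⟨hy1, _, hy3⟩ := (hO y).mp hyO
  obtain ⟨c, hc⟩ := herg y hy1 (by
    intro θ hθ
    have h1 := hOV y hyO θ hθ
    have h1' := ((hO _).mp h1).1
    -- the norms agree
    have h2 : ‖(V θ * y * V θ⁻¹) ξ‖ = ‖y ξ‖ := by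
      change ‖V θ (y (V θ⁻¹ ξ))‖ = _
      rw [hVn]
      change ‖(y * V θ⁻¹) ξ‖ = _
      rw [← h.norm_adjoint (hy1.mul (hVR θ⁻¹))]
      have h3 : adjoint (y * V θ⁻¹) = V θ * adjoint y := by
        rw [← star_eq_adjoint, star_mul, star_eq_adjoint, star_eq_adjoint, hV, inv_inv]
      rw [h3]
      change ‖V θ (adjoint y ξ)‖ = _
      rw [hVn, h.norm_adjoint hy1]
    have h3 := huniq _ ((hK _).mpr ⟨_, h1, rfl⟩) (by rw [h2, hyv])
    have h4 : V θ * y * V θ⁻¹ = y := h.ext_cmm h1' hy1 (by rw [h3, hyv])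
    calc y * V θ = V θ * y * V θ⁻¹ * V θ := by rw [h4]
      _ = V θ * y * (V θ⁻¹ * V θ) := by rw [mul_assoc]
      _ = V θ * y := by rw [hVi', mul_one])
  refine ⟨c, ?_⟩
  have h1 := hy3 1 Θ.one_mem
  rw [inv_one, map_one, one_mul, mul_one, hc] at h1
  rw [norm_sub_rev]
  exact h1

/-- **Ergodicity for continuous operators**, totally disconnected places. -/
theorem erg_cont (h : RegRep R ξ) (hV : ∀ g, adjoint (V g) = V g⁻¹) (hVR : ∀ g, Cmm R (V g))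
    {T : E →L[ℂ] E} (hT : Cmm R T)
    (hΘ : ∀ ε : ℝ, 0 < ε → ∃ Θ : Subgroup Γ, (∀ y : E →L[ℂ] E, Cmm R y →
        (∀ θ ∈ Θ, y * V θ = V θ * y) → ∃ c : ℂ, y = c • (1 : E →L[ℂ] E)) ∧
      ∀ θ ∈ Θ, ‖(V θ * T * V θ⁻¹) ξ - T ξ‖ ≤ ε) : ∃ c : ℂ, T = c • (1 : E →L[ℂ] E) := by
  refine ⟨⟪ξ, T ξ⟫_ℂ, h.ext_cmm hT (Cmm.one.smul _) ?_⟩
  change T ξ = ⟪ξ, T ξ⟫_ℂ • ξ
  rw [← sub_eq_zero, ← norm_le_zero_iff]
  refine le_of_forall_pos_le_add fun ε hε => ?_
  rw [zero_add]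
  obtain ⟨Θ, h1, h2⟩ := hΘ ε hε
  obtain ⟨c, hc⟩ := exact_to_cont h hV hVR Θ h1 hT h2
  refine le_trans ?_ hc
  -- the projection is the best approximation
  have h3 : T ξ - c • ξ = (T ξ - ⟪ξ, T ξ⟫_ℂ • ξ) + (⟪ξ, T ξ⟫_ℂ - c) • ξ := by
    rw [sub_smul]; abel
  have h4 : ⟪T ξ - ⟪ξ, T ξ⟫_ℂ • ξ, (⟪ξ, T ξ⟫_ℂ - c) • ξ⟫_ℂ = 0 := by
    rw [inner_smul_right, inner_sub_left, inner_smul_left, inner_conj_symm,
      inner_self_eq_norm_sq_to_K, h.norm_one]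
    simp
  have h5 := norm_add_sq_eq_norm_sq_add_norm_sq_of_inner_eq_zero _ _ h4
  rw [← h3] at h5
  have h6 : ‖T ξ - ⟪ξ, T ξ⟫_ℂ • ξ‖ ^ 2 ≤ ‖T ξ - c • ξ‖ ^ 2 := by
    nlinarith [norm_nonneg ((⟪ξ, T ξ⟫_ℂ - c) • ξ)]
  exact (pow_le_pow_iff_left₀ (norm_nonneg _) (norm_nonneg _) two_ne_zero).mp h6

end Vale.Agent.P092.H465
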