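import Mathlib

/-!
P092 (helper465), row CLASS-D, part 1: the group `SL_n(D)` generated by the transvections of `D ^ n`,
`D` a division ring: algebra.
-/

set_option linter.all false

open Matrix

namespace Vale.Agent.P092.H465.DA

section ring

variable {n D : Type*} [Fintype n] [DecidableEq n] [DivisionRing D]

/-- the transvection `1 + u φ` -/
def tm (u φ : n → D) : Matrix n n D := 1 + vecMulVec u φ

theorem tm_mulVec (u φ x : n → D) : tm u φ *ᵥ x = x + MulOpposite.op (φ ⬝ᵥ x) • u := by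
  rw [tm, add_mulVec, one_mulVec, vecMulVec_mulVec]

theorem vecMul_tm (u φ χ : n → D) : χ ᵥ* tm u φ = χ + (χ ⬝ᵥ u) • φ := by
  rw [tm, vecMul_add, vecMul_one, vecMul_vecMulVec]

theorem tm_mul (u φ v ψ : n → D) (h : φ ⬝ᵥ v = 0) :
    tm u φ * tm v ψ = 1 + vecMulVec u φ + vecMulVec v ψ := by
  rw [tm, tm, mul_add, add_mul, add_mul, vecMulVec_mul_vecMulVec, h, zero_smul, vecMulVec_zero]
  simp only [mul_one, one_mul, add_zero]

theorem tm_mul_left (u v φ : n → D) (h : φ ⬝ᵥ v = 0) : tm u φ * tm v φ = tm (u + v) φ := by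
  rw [tm_mul u φ v φ h, tm, add_vecMulVec, add_assoc]

theorem tm_mul_right (u φ ψ : n → D) (h : φ ⬝ᵥ u = 0) : tm u φ * tm u ψ = tm u (φ + ψ) := by
  rw [tm_mul u φ u ψ h, tm, vecMulVec_add, add_assoc]

theorem tm_zero_left (φ : n → D) : tm 0 φ = 1 := by
  rw [tm, zero_vecMulVec, add_zero]

theorem tm_zero_right (u : n → D) : tm u 0 = 1 := by
  rw [tm, vecMulVec_zero, add_zero]

/-- the transvection as an element of `GL_n(D)` -/
def tv {u φ : n → D} (h : φ ⬝ᵥ u = 0) : (Matrix n n D)ˣ where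
  val := tm u φ
  inv := tm (-u) φ
  val_inv := by
    rw [tm_mul_left _ _ _ (by rw [dotProduct_neg, h, neg_zero]), add_neg_cancel, tm_zero_left]
  inv_val := by
    rw [tm_mul_left _ _ _ h, neg_add_cancel, tm_zero_left]

theorem tv_val {u φ : n → D} (h : φ ⬝ᵥ u = 0) : (tv h).1 = tm u φ := rfl

variable (n D) in
/-- `SL_n(D)`: the group generated by the transvections. -/
def SLD : Subgroup (Matrix n n D)ˣ :=
  Subgroup.closure {g | ∃ u φ : n → D, φ ⬝ᵥ u = 0 ∧ g.1 = 1 + vecMulVec u φ}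

theorem tv_mem {u φ : n → D} (h : φ ⬝ᵥ u = 0) : tv h ∈ SLD n D :=
  Subgroup.subset_closure ⟨u, φ, h, rfl⟩

/-- induction principle -/
theorem SLD_induction {p : (Matrix n n D)ˣ → Prop} (htv : ∀ (u φ : n → D) (h : φ ⬝ᵥ u = 0), p (tv h))
    (hone : p 1) (hmul : ∀ x y, p x → p y → p (x * y)) (hinv : ∀ x, p x → p x⁻¹)
    {g : (Matrix n n D)ˣ} (hg : g ∈ SLD n D) : p g := by
  induction hg using Subgroup.closure_induction with
  | mem x hx =>
    obtain ⟨u, φ, h, hx⟩ := hx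
    have : x = tv h := Units.ext hx
    rw [this]
    exact htv u φ h
  | one => exact hone
  | mul x y _ _ hx hy => exact hmul x y hx hy
  | inv x _ hx => exact hinv x hx

theorem SLD_le {H : Subgroup (Matrix n n D)ˣ}
    (h : ∀ (u φ : n → D) (h : φ ⬝ᵥ u = 0), tv h ∈ H) : SLD n D ≤ H := by
  intro g hg
  exact SLD_induction h H.one_mem (fun x y hx hy => H.mul_mem hx hy) (fun x hx => H.inv_mem hx) hg

theorem inv_mulVec_mulVec (g : (Matrix n n D)ˣ) (x : n → D) : (g⁻¹).1 *ᵥ (g.1 *ᵥ x) = x := by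
  rw [mulVec_mulVec, Units.inv_mul, one_mulVec]

theorem mulVec_inv_mulVec (g : (Matrix n n D)ˣ) (x : n → D) : g.1 *ᵥ ((g⁻¹).1 *ᵥ x) = x := by
  rw [mulVec_mulVec, Units.mul_inv, one_mulVec]

theorem vecMul_vecMul_inv (g : (Matrix n n D)ˣ) (x : n → D) : (x ᵥ* g.1) ᵥ* (g⁻¹).1 = x := by
  rw [vecMul_vecMul, Units.mul_inv, vecMul_one]

theorem vecMul_inv_vecMul (g : (Matrix n n D)ˣ) (x : n → D) : (x ᵥ* (g⁻¹).1) ᵥ* g.1 = x := by
  rw [vecMul_vecMul, Units.inv_mul, vecMul_one]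

theorem pair_conj (g : (Matrix n n D)ˣ) (u φ : n → D) : (φ ᵥ* (g⁻¹).1) ⬝ᵥ (g.1 *ᵥ u) = φ ⬝ᵥ u := by
  rw [← dotProduct_mulVec, inv_mulVec_mulVec]

theorem conj_tm (g : (Matrix n n D)ˣ) (u φ : n → D) :
    g.1 * tm u φ * (g⁻¹).1 = tm (g.1 *ᵥ u) (φ ᵥ* (g⁻¹).1) := by
  rw [tm, tm, mul_add, add_mul, mul_one, Units.mul_inv, mul_vecMulVec, vecMulVec_mul]

theorem conj_tv (g : (Matrix n n D)ˣ) {u φ : n → D} (h : φ ⬝ᵥ u = 0) :
    g * tv h * g⁻¹ = tv (show (φ ᵥ* (g⁻¹).1) ⬝ᵥ (g.1 *ᵥ u) = 0 by rw [pair_conj, h]) :=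
  Units.ext (conj_tm g u φ)

theorem conj_mem (g : (Matrix n n D)ˣ) {s : (Matrix n n D)ˣ} (hs : s ∈ SLD n D) :
    g * s * g⁻¹ ∈ SLD n D := by
  refine SLD_induction (p := fun s => g * s * g⁻¹ ∈ SLD n D) (fun u φ h => ?_) ?_
    (fun x y hx hy => ?_) (fun x hx => ?_) hs
  · rw [conj_tv]
    exact tv_mem _
  · rw [mul_one, mul_inv_cancel]
    exact Subgroup.one_mem _
  · have e : g * (x * y) * g⁻¹ = g * x * g⁻¹ * (g * y * g⁻¹) := by group
    rw [e]
    exact Subgroup.mul_mem _ hx hy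
  · have e : g * x⁻¹ * g⁻¹ = (g * x * g⁻¹)⁻¹ := by group
    rw [e]
    exact Subgroup.inv_mem _ hx

instance : (SLD n D).Normal := ⟨fun s hs g => conj_mem g hs⟩

/-! ### functionals -/

/-- the row vector of a functional on the right vector space `D ^ n` -/
theorem exists_row_of_dual (f : (n → D) →ₗ[Dᵐᵒᵖ] Dᵐᵒᵖ) :
    ∃ φ : n → D, ∀ v, f v = MulOpposite.op (φ ⬝ᵥ v) := by
  refine ⟨fun i => (f (Pi.single i 1)).unop, fun v => ?_⟩
  have hv : v = ∑ i, MulOpposite.op (v i) • (Pi.single i (1 : D) : n → D) := by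
    funext j
    rw [Finset.sum_apply]
    simp only [Pi.smul_apply, Pi.single_apply, op_smul_eq_mul]
    rw [Finset.sum_eq_single j (fun i _ hi => by rw [if_neg (Ne.symm hi), zero_mul])
      (fun h => absurd (Finset.mem_univ j) h), if_pos rfl, one_mul]
  conv_lhs => rw [hv]
  rw [map_sum]
  rw [dotProduct, show MulOpposite.op (∑ i, (f (Pi.single i 1)).unop * v i) =
    ∑ i, MulOpposite.op ((f (Pi.single i 1)).unop * v i) from
      map_sum (MulOpposite.opAddEquiv : D ≃+ Dᵐᵒᵖ) _ _]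
  refine Finset.sum_congr rfl fun i _ => ?_
  rw [map_smul, smul_eq_mul, MulOpposite.op_mul, MulOpposite.op_unop]

/-- separation -/
theorem exists_row {p : Submodule Dᵐᵒᵖ (n → D)} {x : n → D} (hx : x ∉ p) :
    ∃ φ : n → D, (∀ v ∈ p, φ ⬝ᵥ v = 0) ∧ φ ⬝ᵥ x = 1 := by
  obtain ⟨f, hf, hp⟩ := Submodule.exists_le_ker_of_notMem hx
  obtain ⟨φ, hφ⟩ := exists_row_of_dual f
  have h1 : φ ⬝ᵥ x ≠ 0 := by
    intro h
    rw [hφ, h] at hf
    exact hf rfl
  refine ⟨(φ ⬝ᵥ x)⁻¹ • φ, fun v hv => ?_, ?_⟩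
  · have h2 : f v = 0 := hp hv
    rw [hφ] at h2
    have h3 : φ ⬝ᵥ v = 0 := MulOpposite.op_injective h2
    rw [smul_dotProduct, h3, smul_zero]
  · rw [smul_dotProduct, smul_eq_mul, inv_mul_cancel₀ h1]

/-- the line of a vector -/
abbrev ln (u : n → D) : Submodule Dᵐᵒᵖ (n → D) := Submodule.span Dᵐᵒᵖ {u}

theorem mem_ln {u x : n → D} : x ∈ ln u ↔ ∃ c : D, x = MulOpposite.op c • u := by
  rw [Submodule.mem_span_singleton]
  constructor
  · rintro ⟨a, rfl⟩
    exact ⟨a.unop, by rw [MulOpposite.op_unop]⟩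
  · rintro ⟨c, rfl⟩
    exact ⟨_, rfl⟩

theorem exists_pair {u x : n → D} (hx : x ∉ ln u) : ∃ φ : n → D, φ ⬝ᵥ u = 0 ∧ φ ⬝ᵥ x = 1 := by
  obtain ⟨φ, h1, h2⟩ := exists_row hx
  exact ⟨φ, h1 u (Submodule.mem_span_singleton_self u), h2⟩

theorem exists_dual {u : n → D} (hu : u ≠ 0) : ∃ φ : n → D, φ ⬝ᵥ u = 1 := by
  obtain ⟨φ, -, h⟩ := exists_row (p := (⊥ : Submodule Dᵐᵒᵖ (n → D))) (x := u)
    (by rwa [Submodule.mem_bot])
  exact ⟨φ, h⟩

theorem op_smul_eq {c : D} {u : n → D} (i : n) : (MulOpposite.op c • u) i = u i * c := rfl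

/-- there is a vector outside of a line, for `2 ≤ card n` -/
theorem exists_not_mem_ln (hn : 2 ≤ Fintype.card n) (u : n → D) : ∃ x, x ∉ ln u := by
  by_contra hcon
  push Not at hcon
  obtain ⟨i, j, hij⟩ := Fintype.one_lt_card_iff.1 (by omega : 1 < Fintype.card n)
  obtain ⟨a, ha⟩ := mem_ln.1 (hcon (Pi.single i 1))
  obtain ⟨b, hb⟩ := mem_ln.1 (hcon (Pi.single j 1))
  have h1 := congrFun ha i
  have h2 := congrFun ha j
  have h3 := congrFun hb i
  have h4 := congrFun hb j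
  rw [Pi.single_eq_same, op_smul_eq] at h1 h4
  rw [Pi.single_eq_of_ne (Ne.symm hij), op_smul_eq] at h2
  rw [Pi.single_eq_of_ne hij, op_smul_eq] at h3
  have ha0 : a ≠ 0 := by rintro rfl; rw [mul_zero] at h1; exact one_ne_zero h1
  have hj0 : u j = 0 := by
    rcases mul_eq_zero.1 h2.symm with h | h
    · exact h
    · exact absurd h ha0
  rw [hj0, zero_mul] at h4
  exact one_ne_zero h4

/-- a nonzero vector is killed by a nonzero row -/
theorem exists_ker (hn : 2 ≤ Fintype.card n) (u : n → D) : ∃ φ : n → D, φ ≠ 0 ∧ φ ⬝ᵥ u = 0 := by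
  obtain ⟨x, hx⟩ := exists_not_mem_ln hn u
  obtain ⟨φ, h1, h2⟩ := exists_pair hx
  refine ⟨φ, ?_, h1⟩
  rintro rfl
  rw [zero_dotProduct] at h2
  exact zero_ne_one h2

/-- moving `x` to `y` when they are independent -/
theorem move_indep {x y : n → D} (h : y ∉ ln x) (hx : x ≠ 0) : ∃ g ∈ SLD n D, g.1 *ᵥ x = y := by
  have h1 : x ∉ ln (y - x) := by
    intro h1
    obtain ⟨c, hc⟩ := mem_ln.1 h1
    have hc0 : c ≠ 0 := by
      rintro rfl
      rw [MulOpposite.op_zero, zero_smul] at hc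
      exact hx hc
    apply h
    rw [mem_ln]
    refine ⟨(1 + c) * c⁻¹, ?_⟩
    funext i
    have h2 := congrFun hc i
    rw [op_smul_eq, Pi.sub_apply, sub_mul] at h2
    rw [op_smul_eq, ← mul_assoc, mul_add, mul_one]
    have h3 : y i * c = x i + x i * c := by rw [← sub_eq_iff_eq_add]; exact h2.symm
    rw [← h3, mul_assoc, mul_inv_cancel₀ hc0, mul_one]
  obtain ⟨φ, h2, h3⟩ := exists_pair h1
  refine ⟨tv h2, tv_mem h2, ?_⟩
  rw [tv_val, tm_mulVec, h3, MulOpposite.op_one, one_smul]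
  abel

/-- `SL_n(D)` is transitive on the nonzero vectors -/
theorem move (hn : 2 ≤ Fintype.card n) {x y : n → D} (hx : x ≠ 0) (hy : y ≠ 0) :
    ∃ g ∈ SLD n D, g.1 *ᵥ x = y := by
  by_cases h : y ∈ ln x
  · obtain ⟨z, hz⟩ := exists_not_mem_ln hn x
    have hz0 : z ≠ 0 := by rintro rfl; exact hz (Submodule.zero_mem _)
    obtain ⟨g, hg, hgx⟩ := move_indep hz hx
    have hyz : y ∉ ln z := by
      intro h1
      obtain ⟨c, hc⟩ := mem_ln.1 h1
      obtain ⟨d, hd⟩ := mem_ln.1 h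
      have hc0 : c ≠ 0 := by rintro rfl; rw [MulOpposite.op_zero, zero_smul] at hc; exact hy hc
      apply hz
      rw [mem_ln]
      refine ⟨d * c⁻¹, ?_⟩
      funext i
      have h2 := congrFun hc i
      have h3 := congrFun hd i
      rw [op_smul_eq] at h2 h3 ⊢
      rw [← mul_assoc, ← h3, h2, mul_assoc, mul_inv_cancel₀ hc0, mul_one]
    obtain ⟨g', hg', hgz⟩ := move_indep hyz hz0
    refine ⟨g' * g, Subgroup.mul_mem _ hg' hg, ?_⟩
    rw [Units.val_mul, ← mulVec_mulVec, hgx, hgz]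
  · exact move_indep h hx

/-- a matrix with `z u ∈ u D` for all `u` is central in `GL_n(D)` and scalar -/
theorem scalar_of (hn : 2 ≤ Fintype.card n) {z : Matrix n n D} (h : ∀ u, z *ᵥ u ∈ ln u) :
    ∃ c : D, (∀ d, c * d = d * c) ∧ z = Matrix.diagonal fun _ => c := by
  choose a ha using fun u => mem_ln.1 (h u)
  obtain ⟨i, j, hij⟩ := Fintype.one_lt_card_iff.1 (by omega : 1 < Fintype.card n)
  have key : ∀ p q : n, p ≠ q → ∀ d : D, a (Pi.single p 1) * d = d * a (Pi.single q 1) := by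
    intro p q hpq d
    have e1 : z *ᵥ ((Pi.single p d : n → D) + (Pi.single q 1 : n → D)) =
        z *ᵥ (Pi.single p d : n → D) + z *ᵥ (Pi.single q 1 : n → D) := mulVec_add _ _ _
    have e2 : (Pi.single p d : n → D) = MulOpposite.op d • Pi.single p 1 := by
      funext r
      rw [op_smul_eq]
      by_cases hr : r = p
      · subst hr; rw [Pi.single_eq_same, Pi.single_eq_same, one_mul]
      · rw [Pi.single_eq_of_ne hr, Pi.single_eq_of_ne hr, zero_mul]
    rw [ha, e2, mulVec_smul, ha (Pi.single p 1), ha (Pi.single q 1)] at e1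
    set b : D := a (MulOpposite.op d • (Pi.single p 1 : n → D) + (Pi.single q 1 : n → D)) with hb
    have h1 := congrFun e1 p
    have h2 := congrFun e1 q
    simp only [Pi.add_apply, op_smul_eq, Pi.smul_apply, Pi.single_eq_same] at h1 h2
    rw [Pi.single_eq_of_ne hpq] at h1
    rw [Pi.single_eq_of_ne (Ne.symm hpq)] at h2
    simp only [op_smul_eq_mul, smul_zero, zero_mul, mul_zero, zero_add, add_zero, one_mul] at h1 h2
    rw [h2] at h1
    exact h1.symm
  have hconst : ∀ p, a (Pi.single p 1) = a (Pi.single i 1) := by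
    intro p
    by_cases hp : p = i
    · rw [hp]
    · have := key p i hp 1
      rwa [mul_one, one_mul] at this
  refine ⟨a (Pi.single i 1), fun d => ?_, ?_⟩
  · have := key i j hij d
    rwa [hconst j] at this
  · ext p q
    have h1 := congrFun (ha (Pi.single q 1)) p
    rw [mulVec_single_one, op_smul_eq, hconst q] at h1
    rw [show z p q = z.col q p from rfl, h1, diagonal_apply]
    by_cases hpq : p = q
    · subst hpq; rw [if_pos rfl, Pi.single_eq_same, one_mul]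
    · rw [if_neg hpq, Pi.single_eq_of_ne hpq, zero_mul]

/-- an element of `GL_n(D)` commuting with one transvection preserves its line -/
theorem mem_ln_of_comm {g : (Matrix n n D)ˣ} {u φ : n → D} (h : φ ⬝ᵥ u = 0) (hφ : φ ≠ 0)
    (hc : g * tv h = tv h * g) : g.1 *ᵥ u ∈ ln u := by
  have h1 : g.1 * tm u φ = tm u φ * g.1 := congrArg Units.val hc
  rw [tm, mul_add, add_mul, mul_one, one_mul, mul_vecMulVec, vecMulVec_mul] at h1
  have h2 := add_left_cancel h1
  obtain ⟨j, hj⟩ : ∃ j, φ j ≠ 0 := by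
    by_contra hcon
    push Not at hcon
    exact hφ (funext hcon)
  rw [mem_ln]
  refine ⟨(φ ᵥ* g.1) j * (φ j)⁻¹, ?_⟩
  funext i
  have h3 : (g.1 *ᵥ u) i * φ j = u i * (φ ᵥ* g.1) j := by
    have := congrFun (congrFun h2 i) j
    rwa [vecMulVec_apply, vecMulVec_apply] at this
  rw [op_smul_eq, ← mul_assoc, ← h3, mul_assoc, mul_inv_cancel₀ hj, mul_one]

end ring

end Vale.Agent.P092.H465.DA
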