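import Vale.Agent.P092.H465.DA1
import Vale.Agent.P092.H933.HM1

/-!
P092 (helper465), row CLASS-D, part 2: the homomorphisms `SL_p(k) → SL_n(D)`; `SL_n(D)` is perfect and
simple modulo its centre.
-/

set_option linter.all false

open Matrix Matrix.SpecialLinearGroup

namespace Vale.Agent.P092.H465.DA

section emb

variable {n p D : Type*} [Fintype n] [DecidableEq n] [Fintype p] [DecidableEq p] [Ring D]

/-- `g ↦ 1 + B (g - 1) B'` -/
def embF (B : Matrix n p D) (B' : Matrix p n D) (h : B' * B = 1) : Matrix p p D →* Matrix n n D where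
  toFun g := 1 + B * (g - 1) * B'
  map_one' := by rw [sub_self, Matrix.mul_zero, Matrix.zero_mul, add_zero]
  map_mul' g g' := by
    have e : B * (g - 1) * B' * (B * (g' - 1) * B') = B * ((g - 1) * (g' - 1)) * B' := by
      calc B * (g - 1) * B' * (B * (g' - 1) * B')
          = B * (g - 1) * (B' * B) * (g' - 1) * B' := by simp only [Matrix.mul_assoc]
        _ = _ := by rw [Matrix.mul_assoc (B * (g - 1)) (B' * B), h, Matrix.one_mul]; simp only [Matrix.mul_assoc]
    have e2 : g * g' - 1 = (g - 1) + (g' - 1) + (g - 1) * (g' - 1) := by noncomm_ring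
    rw [add_mul, mul_add, mul_add, e, one_mul, one_mul, mul_one, e2, Matrix.mul_add,
      Matrix.mul_add, Matrix.add_mul, Matrix.add_mul]
    abel

theorem embF_apply (B : Matrix n p D) (B' : Matrix p n D) (h : B' * B = 1) (g : Matrix p p D) :
    embF B B' h g = 1 + B * (g - 1) * B' := rfl

variable {k : Type*} [CommRing k] [Algebra k D]

/-- the matrix with entries in `D` of an element of `SL_p(k)` -/
def toD : SpecialLinearGroup p k →* Matrix p p D where
  toFun g := g.1.map (algebraMap k D)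
  map_one' := by
    show (1 : Matrix p p k).map (algebraMap k D) = 1
    rw [Matrix.map_one _ (map_zero _) (map_one _)]
  map_mul' g h := by
    show (g.1 * h.1).map (algebraMap k D) = _
    rw [Matrix.map_mul]

/-- `SL_p(k) → GL_n(D)` -/
def slE (B : Matrix n p D) (B' : Matrix p n D) (h : B' * B = 1) :
    SpecialLinearGroup p k →* (Matrix n n D)ˣ :=
  MonoidHom.toHomUnits ((embF B B' h).comp toD)

theorem slE_val (B : Matrix n p D) (B' : Matrix p n D) (h : B' * B = 1) (g : SpecialLinearGroup p k) :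
    (slE B B' h g).1 = 1 + B * (g.1.map (algebraMap k D) - 1) * B' := rfl

theorem mul_single_mul (B : Matrix n p D) (B' : Matrix p n D) (i j : p) (c : D) :
    B * single i j c * B' = vecMulVec (MulOpposite.op c • B.col i) (B' j) := by
  ext a b
  rw [mul_apply, Finset.sum_eq_single j]
  · rw [mul_single_apply_same, vecMulVec_apply]
    rfl
  · intro q _ hq
    rw [mul_single_apply_of_ne _ _ _ _ _ hq, zero_mul]
  · intro h
    exact absurd (Finset.mem_univ j) h

end emb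

section div

variable {n p D : Type*} [Fintype n] [DecidableEq n] [Fintype p] [DecidableEq p] [DivisionRing D]
  {k : Type*} [Field k] [Algebra k D]

theorem slE_transvection (B : Matrix n p D) (B' : Matrix p n D) (h : B' * B = 1) {i j : p}
    (hij : i ≠ j) (c : k) : (slE B B' h (transvection hij c)).1 =
      tm (MulOpposite.op (algebraMap k D c) • B.col i) (B' j) := by
  rw [slE_val, tm, ← mul_single_mul]
  congr 3
  show (transvection hij c).1.map (algebraMap k D) - 1 = _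
  rw [transvection_coe]
  ext a b
  simp only [Matrix.sub_apply, Matrix.map_apply, Matrix.add_apply, map_add, Matrix.one_apply,
    Matrix.single_apply]
  split_ifs <;> simp

theorem slE_mem [Nontrivial p] (B : Matrix n p D) (B' : Matrix p n D) (h : B' * B = 1)
    (g : SpecialLinearGroup p k) : slE B B' h g ∈ SLD n D := by
  have h1 : (SLD n D).comap (slE (k := k) B B' h) = ⊤ := by
    refine H899.eq_top_of_e _ fun i j hij c => ?_
    rw [Subgroup.mem_comap]
    have h2 : B' j ⬝ᵥ (MulOpposite.op (algebraMap k D c) • B.col i) = 0 := by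
      have e : B' j ⬝ᵥ B.col i = (B' * B) j i := rfl
      rw [dotProduct_smul, e, h, one_apply_ne (Ne.symm hij), smul_zero]
    have h3 : slE B B' h (transvection hij c) = tv h2 := Units.ext (slE_transvection B B' h hij c)
    rw [h3]
    exact tv_mem h2
  have h2 : g ∈ (SLD n D).comap (slE (k := k) B B' h) := by rw [h1]; trivial
  exact h2

/-- A dual pair: `ψ u = 1`, `ψ w = 0`, `φ u = 0`, `φ w = 1`. -/
structure DP (u φ w ψ : n → D) : Prop where
  a : ψ ⬝ᵥ u = 1
  b : ψ ⬝ᵥ w = 0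
  c : φ ⬝ᵥ u = 0
  d : φ ⬝ᵥ w = 1

def DP.B (u w : n → D) : Matrix n (Fin 2) D := of fun i => ![u i, w i]

def DP.B' (φ ψ : n → D) : Matrix (Fin 2) n D := of ![ψ, φ]

theorem DP.h {u φ w ψ : n → D} (hp : DP u φ w ψ) : DP.B' φ ψ * DP.B u w = 1 := by
  ext i j
  have e : (DP.B' φ ψ * DP.B u w) i j = (DP.B' φ ψ i) ⬝ᵥ fun l => DP.B u w l j := rfl
  rw [e]
  fin_cases i <;> fin_cases j
  · exact hp.a
  · exact hp.b
  · exact hp.c
  · exact hp.d

/-- `SL_2(k) → SL_n(D)` of a dual pair -/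
def DP.sl {u φ w ψ : n → D} (hp : DP u φ w ψ) (k : Type*) [Field k] [Algebra k D] :
    SpecialLinearGroup (Fin 2) k →* (Matrix n n D)ˣ := slE (DP.B u w) (DP.B' φ ψ) hp.h

theorem DP.sl_mem {u φ w ψ : n → D} (hp : DP u φ w ψ) (g : SpecialLinearGroup (Fin 2) k) :
    hp.sl k g ∈ SLD n D := slE_mem _ _ _ _

theorem zero_ne_one2 : (0 : Fin 2) ≠ 1 := by decide

/-- the torus element `u ↦ u r`, `w ↦ w r⁻¹` -/
noncomputable def DP.dg {u φ w ψ : n → D} (hp : DP u φ w ψ) (r : k) (hr : r ≠ 0) : (Matrix n n D)ˣ :=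
  hp.sl k (diag2n zero_ne_one2 r hr)

theorem DP.dg_mem {u φ w ψ : n → D} (hp : DP u φ w ψ) (r : k) (hr : r ≠ 0) :
    hp.dg r hr ∈ SLD n D := hp.sl_mem _

theorem DP.dg_val {u φ w ψ : n → D} (hp : DP u φ w ψ) (r : k) (hr : r ≠ 0) :
    (hp.dg r hr).1 = 1 + vecMulVec (MulOpposite.op (algebraMap k D (r - 1)) • u) ψ +
      vecMulVec (MulOpposite.op (algebraMap k D (r⁻¹ - 1)) • w) φ := by
  have e1 : (diag2n zero_ne_one2 r hr).1.map (algebraMap k D) - 1 =
      single 0 0 (algebraMap k D (r - 1)) + single 1 1 (algebraMap k D (r⁻¹ - 1)) := by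
    rw [H899.diag2n_coe']
    ext a b
    simp only [Matrix.sub_apply, Matrix.map_apply, Matrix.add_apply, map_add, Matrix.one_apply,
      Matrix.single_apply]
    split_ifs <;> simp
    abel
  rw [DP.dg, DP.sl, slE_val, e1, Matrix.mul_add, Matrix.add_mul, mul_single_mul, mul_single_mul,
    add_assoc]
  rfl

theorem DP.dg_inv {u φ w ψ : n → D} (hp : DP u φ w ψ) (r : k) (hr : r ≠ 0) :
    (hp.dg r hr)⁻¹ = hp.dg r⁻¹ (inv_ne_zero hr) := by
  rw [inv_eq_iff_mul_eq_one]
  rw [DP.dg, DP.dg, ← map_mul]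
  have : diag2n zero_ne_one2 r hr * diag2n zero_ne_one2 r⁻¹ (inv_ne_zero hr) = 1 := by
    refine Subtype.ext ?_
    rw [Matrix.SpecialLinearGroup.coe_mul]
    show (diag2n zero_ne_one2 r hr).1 * (diag2n zero_ne_one2 r⁻¹ (inv_ne_zero hr)).1 = 1
    rw [H899.diag2n_coe', H899.diag2n_coe']
    ext a b
    fin_cases a <;> fin_cases b <;>
      simp [Matrix.mul_apply, Fin.sum_univ_two, Matrix.single_apply, hr]
  rw [this, map_one]

theorem DP.dg_mulVec {u φ w ψ : n → D} (hp : DP u φ w ψ) (r : k) (hr : r ≠ 0) (x : n → D) :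
    (hp.dg r hr).1 *ᵥ x = x + (r - 1) • MulOpposite.op (ψ ⬝ᵥ x) • u +
      (r⁻¹ - 1) • MulOpposite.op (φ ⬝ᵥ x) • w := by
  rw [hp.dg_val, add_mulVec, add_mulVec, one_mulVec, vecMulVec_mulVec, vecMulVec_mulVec]
  congr 1
  · congr 1
    funext i
    simp only [Pi.smul_apply, op_smul_eq_mul]
    rw [Algebra.smul_def, ← mul_assoc, Algebra.commutes (r - 1) (u i)]
  · funext i
    simp only [Pi.smul_apply, op_smul_eq_mul]
    rw [Algebra.smul_def, ← mul_assoc, Algebra.commutes (r⁻¹ - 1) (w i)]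

theorem DP.vecMul_dg {u φ w ψ : n → D} (hp : DP u φ w ψ) (r : k) (hr : r ≠ 0) (χ : n → D) :
    χ ᵥ* (hp.dg r hr).1 = χ + (r - 1) • (χ ⬝ᵥ u) • ψ + (r⁻¹ - 1) • (χ ⬝ᵥ w) • φ := by
  rw [hp.dg_val, vecMul_add, vecMul_add, vecMul_one, vecMul_vecMulVec, vecMul_vecMulVec]
  congr 1
  · congr 1
    rw [dotProduct_smul]
    funext i
    simp only [Pi.smul_apply, op_smul_eq_mul, smul_eq_mul]
    rw [Algebra.smul_def, ← Algebra.commutes, mul_assoc]
  · rw [dotProduct_smul]
    funext i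
    simp only [Pi.smul_apply, op_smul_eq_mul, smul_eq_mul]
    rw [Algebra.smul_def, ← Algebra.commutes, mul_assoc]

theorem DP.swap {u φ w ψ : n → D} (hp : DP u φ w ψ) : DP w ψ u φ :=
  ⟨hp.d, hp.c, hp.b, hp.a⟩

/-- scalar multiples of transvections -/
theorem pair_smul {u φ : n → D} (h : φ ⬝ᵥ u = 0) (c : D) : φ ⬝ᵥ (MulOpposite.op c • u) = 0 := by
  rw [dotProduct_smul, h, smul_zero]

/-- conjugation of the root group `u c φ` by the torus -/
theorem DP.conj_root {u φ w ψ : n → D} (hp : DP u φ w ψ) (r : k) (hr : r ≠ 0) (c : D) :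
    hp.dg r hr * tv (pair_smul hp.c c) * (hp.dg r hr)⁻¹ = tv (pair_smul hp.c (r ^ 2 • c)) := by
  rw [conj_tv]
  refine Units.ext ?_
  rw [tv_val, tv_val]
  rw [hp.dg_inv, hp.dg_mulVec, hp.vecMul_dg, dotProduct_smul, dotProduct_smul, hp.a, hp.c,
    hp.d, inv_inv]
  simp only [smul_zero, MulOpposite.op_zero, zero_smul, add_zero, one_smul]
  rw [tm, tm]
  congr 1
  ext i j
  simp only [vecMulVec_apply, Pi.add_apply, Pi.smul_apply, op_smul_eq_mul, smul_eq_mul,
    one_mul, mul_one]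
  simp only [Algebra.smul_def, one_mul, mul_one]
  have e1 : algebraMap k D (r - 1) = algebraMap k D r - 1 := by rw [map_sub, map_one]
  rw [e1, map_pow]
  have h1 := Algebra.commutes (A := D) r (u i)
  have h2 := Algebra.commutes (A := D) r c
  have e3 : u i * c + (algebraMap k D r - 1) * (u i * c) = algebraMap k D r * (u i * c) := by
    rw [sub_mul, one_mul]; abel
  have e4 : φ j + (algebraMap k D r - 1) * φ j = algebraMap k D r * φ j := by
    rw [sub_mul, one_mul]; abel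
  rw [e3, e4, pow_two]
  calc algebraMap k D r * (u i * c) * (algebraMap k D r * φ j)
      = (algebraMap k D r * u i) * c * algebraMap k D r * φ j := by simp only [mul_assoc]
    _ = u i * (algebraMap k D r * c) * algebraMap k D r * φ j := by rw [h1]; simp only [mul_assoc]
    _ = u i * (algebraMap k D r * (c * algebraMap k D r)) * φ j := by simp only [mul_assoc]
    _ = _ := by rw [← h2]; simp only [mul_assoc]

/-! ### perfectness -/

theorem exists_dp (hn : 2 ≤ Fintype.card n) {u φ : n → D} (hu : u ≠ 0) (hφ : φ ≠ 0)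
    (h : φ ⬝ᵥ u = 0) : ∃ w ψ, DP u φ w ψ := by
  -- `w` with `φ w = 1`
  obtain ⟨j, hj⟩ : ∃ j, φ j ≠ 0 := by
    by_contra hcon
    push Not at hcon
    exact hφ (funext hcon)
  have hw : φ ⬝ᵥ (Pi.single j (φ j)⁻¹ : n → D) = 1 := by
    rw [dotProduct_single, mul_inv_cancel₀ hj]
  obtain ⟨w, hw⟩ : ∃ w : n → D, φ ⬝ᵥ w = 1 := ⟨_, hw⟩
  have huw : u ∉ ln w := by
    intro h1
    obtain ⟨c, rfl⟩ := mem_ln.1 h1
    rw [dotProduct_smul, hw, op_smul_eq_mul, one_mul] at h
    rw [h, MulOpposite.op_zero, zero_smul] at hu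
    exact hu rfl
  obtain ⟨ψ, h1, h2⟩ := exists_pair huw
  exact ⟨w, ψ, h2, h1, h, hw⟩

/-- a homomorphism from `SL_n(D)` into a commutative group is trivial -/
theorem hom_eq_one (hn : 2 ≤ Fintype.card n) (k : Type*) [Field k] [Algebra k D]
    (hk : ∃ r : k, r ≠ 0 ∧ r ^ 2 ≠ 1) {A : Type*} [CommGroup A] (f : SLD n D →* A) : f = 1 := by
  obtain ⟨r, hr, hr2⟩ := hk
  have key : ∀ (u φ : n → D) (h : φ ⬝ᵥ u = 0), f ⟨tv h, tv_mem h⟩ = 1 := by
    intro u φ h
    by_cases hu : u = 0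
    · subst hu
      have e : (⟨tv h, tv_mem h⟩ : SLD n D) = 1 := Subtype.ext (Units.ext (tm_zero_left φ))
      rw [e, map_one]
    by_cases hφ : φ = 0
    · subst hφ
      have e : (⟨tv h, tv_mem h⟩ : SLD n D) = 1 := Subtype.ext (Units.ext (tm_zero_right u))
      rw [e, map_one]
    obtain ⟨w, ψ, hp⟩ := exists_dp hn hu hφ h
    have hs : algebraMap k D (r ^ 2 - 1) ≠ 0 := by
      rw [Ne, map_eq_zero_iff _ (FaithfulSMul.algebraMap_injective k D)]
      exact sub_ne_zero.2 hr2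
    set c : D := (algebraMap k D (r ^ 2 - 1))⁻¹ with hc
    have e : (⟨tv h, tv_mem h⟩ : SLD n D) =
        (⟨hp.dg r hr, hp.dg_mem r hr⟩ : SLD n D) * ⟨tv (pair_smul hp.c c), tv_mem _⟩ *
          (⟨hp.dg r hr, hp.dg_mem r hr⟩ : SLD n D)⁻¹ * (⟨tv (pair_smul hp.c c), tv_mem _⟩ : SLD n D)⁻¹ := by
      refine Subtype.ext ?_
      show tv h = hp.dg r hr * tv (pair_smul hp.c c) * (hp.dg r hr)⁻¹ * (tv (pair_smul hp.c c))⁻¹
      rw [hp.conj_root, eq_mul_inv_iff_mul_eq]
      refine Units.ext ?_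
      show tm u φ * tm (MulOpposite.op c • u) φ = tm (MulOpposite.op (r ^ 2 • c) • u) φ
      rw [tm_mul_left _ _ _ (pair_smul hp.c c)]
      congr 1
      funext i
      rw [Pi.add_apply, op_smul_eq, op_smul_eq]
      have h1 : r ^ 2 • c = 1 + c := by
        have h2 : (r ^ 2 - 1) • c = 1 := by
          rw [Algebra.smul_def, hc, mul_inv_cancel₀ hs]
        rw [sub_smul, one_smul] at h2
        rw [← h2]; abel
      rw [h1, mul_add, mul_one]
    rw [e, map_mul, map_mul, map_mul, map_inv, map_inv, mul_comm (f ⟨hp.dg r hr, _⟩),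
      mul_inv_cancel_right, mul_inv_cancel]
  refine MonoidHom.ext fun ⟨g, hg⟩ => ?_
  have h1 : SLD n D ≤ (f.ker).map (SLD n D).subtype := by
    refine SLD_le fun u φ h => ?_
    exact ⟨⟨tv h, tv_mem h⟩, key u φ h, rfl⟩
  obtain ⟨x, hx, hxg⟩ := h1 hg
  have : x = ⟨g, hg⟩ := Subtype.ext hxg
  rw [← this]
  exact hx

/-! ### simplicity -/

/-- the vector `w` is moved to `y` by an element fixing `x` and the line relation -/
theorem move_fix {x w y : n → D} (hw : w ∉ ln x) (hy : y ∉ ln x) :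
    ∃ g ∈ SLD n D, g.1 *ᵥ x = x ∧ g.1 *ᵥ w ∈ ln y := by
  by_cases h : y ∈ Submodule.span Dᵐᵒᵖ {x, w}
  · obtain ⟨a, b, hab⟩ := Submodule.mem_span_pair.1 h
    have hb : b.unop ≠ 0 := by
      intro hb
      have hb' : b = 0 := MulOpposite.unop_injective hb
      rw [hb', zero_smul, add_zero] at hab
      exact hy (by rw [← hab]; exact Submodule.smul_mem _ _ (Submodule.mem_span_singleton_self x))
    obtain ⟨φ, h1, h2⟩ := exists_pair hw
    have h3 : φ ⬝ᵥ (MulOpposite.op (a.unop * (b.unop)⁻¹) • x) = 0 := pair_smul h1 _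
    refine ⟨tv h3, tv_mem h3, ?_, ?_⟩
    · rw [tv_val, tm_mulVec, h1, MulOpposite.op_zero, zero_smul, add_zero]
    · rw [tv_val, tm_mulVec, h2, MulOpposite.op_one, one_smul, mem_ln]
      refine ⟨(b.unop)⁻¹, ?_⟩
      rw [← hab]
      funext i
      simp only [Pi.add_apply, Pi.smul_apply, op_smul_eq_mul]
      have e1 : a • x i = x i * a.unop := by
        conv_lhs => rw [← MulOpposite.op_unop a]
        rw [op_smul_eq_mul]
      have e2 : b • w i = w i * b.unop := by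
        conv_lhs => rw [← MulOpposite.op_unop b]
        rw [op_smul_eq_mul]
      rw [e1, e2, add_mul, mul_assoc, mul_assoc, mul_inv_cancel₀ hb, mul_one, add_comm]
  · have h1 : w ∉ Submodule.span Dᵐᵒᵖ {x, y - w} := by
      intro h1
      obtain ⟨a, b, hab⟩ := Submodule.mem_span_pair.1 h1
      by_cases hb : b = 0
      · rw [hb, zero_smul, add_zero] at hab
        exact hw (by rw [← hab]; exact Submodule.smul_mem _ _ (Submodule.mem_span_singleton_self x))
      · apply h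
        have e : y = b⁻¹ • (w - a • x) + w := by
          have : w - a • x = b • (y - w) := sub_eq_of_eq_add' hab.symm
          rw [this, smul_smul, inv_mul_cancel₀ hb, one_smul]
          abel
        rw [e]
        have hx' : x ∈ Submodule.span Dᵐᵒᵖ {x, w} := Submodule.subset_span (by simp)
        have hw' : w ∈ Submodule.span Dᵐᵒᵖ {x, w} := Submodule.subset_span (by simp)
        exact Submodule.add_mem _ (Submodule.smul_mem _ _ (Submodule.sub_mem _ hw'
          (Submodule.smul_mem _ _ hx'))) hw'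
    obtain ⟨φ, h2, h3⟩ := exists_row h1
    have h4 : φ ⬝ᵥ (y - w) = 0 := h2 _ (Submodule.subset_span (by simp))
    have h5 : φ ⬝ᵥ x = 0 := h2 _ (Submodule.subset_span (by simp))
    refine ⟨tv h4, tv_mem h4, ?_, ?_⟩
    · rw [tv_val, tm_mulVec, h5, MulOpposite.op_zero, zero_smul, add_zero]
    · rw [tv_val, tm_mulVec, h3, MulOpposite.op_one, one_smul]
      have : w + (y - w) = y := by abel
      rw [this]
      exact Submodule.mem_span_singleton_self y

theorem ln_ne {x : n → D} (h : x ∉ ln (0 : n → D)) : x ≠ 0 := by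
  rintro rfl
  exact h (Submodule.zero_mem _)

theorem not_mem_symm {x y : n → D} (hy : y ≠ 0) (h : x ∉ ln y) (hx : x ≠ 0) : y ∉ ln x := by
  intro h1
  obtain ⟨c, rfl⟩ := mem_ln.1 h1
  have hc : c ≠ 0 := by rintro rfl; rw [MulOpposite.op_zero, zero_smul] at hy; exact hy rfl
  apply h
  rw [mem_ln]
  refine ⟨c⁻¹, ?_⟩
  rw [smul_smul, ← MulOpposite.op_mul, mul_inv_cancel₀ hc, MulOpposite.op_one, one_smul]

/-- a normal subgroup which moves one line is transitive on lines -/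
theorem normal_trans {N : Subgroup (SLD n D)} (hN : N.Normal) {z : SLD n D} (hz : z ∈ N)
    (hn : 2 ≤ Fintype.card n)
    {u : n → D} (hu : z.1.1 *ᵥ u ∉ ln u) {x y : n → D} (hx : x ≠ 0) (hy : y ≠ 0) :
    ∃ g ∈ N, g.1.1 *ᵥ x ∈ ln y := by
  by_cases hxy : x ∈ ln y
  · exact ⟨1, N.one_mem, by rw [Subgroup.coe_one, Units.val_one, one_mulVec]; exact hxy⟩
  have hyx := not_mem_symm hy hxy hx
  have hu0 : u ≠ 0 := by
    rintro rfl
    rw [mulVec_zero] at hu
    exact hu (Submodule.zero_mem _)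
  obtain ⟨g, hg, hgu⟩ := move hn hu0 hx
  have hw : g.1 *ᵥ (z.1.1 *ᵥ u) ∉ ln x := by
    intro h1
    obtain ⟨c, hc⟩ := mem_ln.1 h1
    apply hu
    rw [mem_ln]
    refine ⟨c, ?_⟩
    have h2 : (g⁻¹).1 *ᵥ (g.1 *ᵥ (z.1.1 *ᵥ u)) = (g⁻¹).1 *ᵥ (MulOpposite.op c • x) := by rw [hc]
    rw [inv_mulVec_mulVec, ← hgu, mulVec_smul, inv_mulVec_mulVec] at h2
    exact h2
  obtain ⟨g', hg', hgx, hgw⟩ := move_fix hw hyx
  set h : SLD n D := ⟨g' * g, Subgroup.mul_mem _ hg' hg⟩ with hh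
  refine ⟨h * z * h⁻¹, hN.conj_mem z hz h, ?_⟩
  have hhu : h.1.1 *ᵥ u = x := by
    show (g' * g).1 *ᵥ u = x
    rw [Units.val_mul, ← mulVec_mulVec, hgu, hgx]
  have e : (h * z * h⁻¹).1.1 *ᵥ x = g'.1 *ᵥ (g.1 *ᵥ (z.1.1 *ᵥ u)) := by
    have e1 : (h⁻¹).1.1 *ᵥ x = u := by
      rw [← hhu]
      exact inv_mulVec_mulVec h.1 u
    show (h.1.1 * z.1.1 * (h⁻¹).1.1) *ᵥ x = _
    rw [← mulVec_mulVec, e1, ← mulVec_mulVec]
    show (g' * g).1 *ᵥ _ = _
    rw [Units.val_mul, ← mulVec_mulVec]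
  rw [e]
  exact hgw

/-- **Simplicity modulo the centre**: a normal subgroup of `SL_n(D)` with an element moving a line
is everything. -/
theorem normal_eq_top (hn : 2 ≤ Fintype.card n) (k : Type*) [Field k] [Algebra k D]
    (hk : ∃ r : k, r ≠ 0 ∧ r ^ 2 ≠ 1) {N : Subgroup (SLD n D)} (hN : N.Normal) {z : SLD n D}
    (hz : z ∈ N) {u : n → D} (hu : z.1.1 *ᵥ u ∉ ln u) : N = ⊤ := by
  have hu0 : u ≠ 0 := by
    rintro rfl
    rw [mulVec_zero] at hu
    exact hu (Submodule.zero_mem _)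
  -- everything is in `N T(u)`
  have key : ∀ (v φ : n → D) (h : φ ⬝ᵥ v = 0), ∃ ψ : n → D, ∃ h' : ψ ⬝ᵥ u = 0,
      QuotientGroup.mk' N ⟨tv h, tv_mem h⟩ = QuotientGroup.mk' N ⟨tv h', tv_mem h'⟩ := by
    intro v φ h
    by_cases hv : v = 0
    · subst hv
      refine ⟨0, zero_dotProduct _, ?_⟩
      congr 1
      refine Subtype.ext (Units.ext ?_)
      show tm 0 φ = tm u 0
      rw [tm_zero_left, tm_zero_right]
    obtain ⟨g, hg, hgv⟩ := normal_trans hN hz hn hu hv hu0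
    obtain ⟨c, hc⟩ := mem_ln.1 hgv
    have h1 : (c • (φ ᵥ* (g.1⁻¹).1)) ⬝ᵥ u = 0 := by
      rw [smul_dotProduct]
      have h2 : (φ ᵥ* (g.1⁻¹).1) ⬝ᵥ (g.1.1 *ᵥ v) = 0 := by rw [pair_conj, h]
      rw [hc, dotProduct_smul, op_smul_eq_mul] at h2
      rcases mul_eq_zero.1 h2 with h3 | h3
      · rw [h3, smul_zero]
      · rw [h3, zero_smul]
    refine ⟨_, h1, ?_⟩
    have h2 : (⟨tv h1, tv_mem h1⟩ : SLD n D) = g * ⟨tv h, tv_mem h⟩ * g⁻¹ := by
      refine Subtype.ext ?_
      show tv h1 = g.1 * tv h * (g.1)⁻¹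
      rw [conj_tv]
      refine Units.ext ?_
      show tm u (c • (φ ᵥ* (g.1⁻¹).1)) = tm (g.1.1 *ᵥ v) (φ ᵥ* (g.1⁻¹).1)
      rw [hc, tm, tm, vecMulVec_smul']
    rw [h2, map_mul, map_mul, map_inv]
    have h3 : QuotientGroup.mk' N g = 1 := (QuotientGroup.eq_one_iff g).2 hg
    rw [h3, one_mul, inv_one, mul_one]
  -- the quotient is commutative
  have hrange : ∀ q : SLD n D ⧸ N, ∃ ψ : n → D, ∃ h' : ψ ⬝ᵥ u = 0,
      q = QuotientGroup.mk' N ⟨tv h', tv_mem h'⟩ := by
    intro q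
    induction q using QuotientGroup.induction_on with
    | H x =>
      obtain ⟨x, hx⟩ := x
      have hp : ∃ hy : x ∈ SLD n D, ∃ ψ : n → D, ∃ h' : ψ ⬝ᵥ u = 0,
          QuotientGroup.mk' N ⟨x, hy⟩ = QuotientGroup.mk' N ⟨tv h', tv_mem h'⟩ := by
        refine SLD_induction (p := fun y => ∃ hy : y ∈ SLD n D, ∃ ψ : n → D, ∃ h' : ψ ⬝ᵥ u = 0,
          QuotientGroup.mk' N ⟨y, hy⟩ = QuotientGroup.mk' N ⟨tv h', tv_mem h'⟩) (fun v φ h =>
            ⟨tv_mem h, key v φ h⟩) ?_ ?_ ?_ hx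
        · refine ⟨Subgroup.one_mem _, 0, zero_dotProduct _, ?_⟩
          congr 1
          refine Subtype.ext (Units.ext ?_)
          show 1 = tm u 0
          rw [tm_zero_right]
        · rintro a b ⟨ha', ψ₁, h₁, e₁⟩ ⟨hb', ψ₂, h₂, e₂⟩
          refine ⟨Subgroup.mul_mem _ ha' hb', ψ₁ + ψ₂, by rw [add_dotProduct, h₁, h₂, add_zero], ?_⟩
          have e3 : (⟨a * b, Subgroup.mul_mem _ ha' hb'⟩ : SLD n D) = ⟨a, ha'⟩ * ⟨b, hb'⟩ := rfl
          rw [e3, map_mul, e₁, e₂, ← map_mul]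
          congr 1
          refine Subtype.ext (Units.ext ?_)
          show tm u ψ₁ * tm u ψ₂ = tm u (ψ₁ + ψ₂)
          rw [tm_mul_right _ _ _ h₁]
        · rintro a ⟨ha', ψ, h, e⟩
          refine ⟨Subgroup.inv_mem _ ha', -ψ, by rw [neg_dotProduct, h, neg_zero], ?_⟩
          have e3 : (⟨a⁻¹, Subgroup.inv_mem _ ha'⟩ : SLD n D) = (⟨a, ha'⟩ : SLD n D)⁻¹ := rfl
          rw [e3, map_inv, e, ← map_inv]
          congr 1
          refine Subtype.ext ?_
          rw [Subgroup.coe_inv, inv_eq_iff_mul_eq_one]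
          refine Units.ext ?_
          show tm u ψ * tm u (-ψ) = 1
          rw [tm_mul_right _ _ _ h, add_neg_cancel, tm_zero_right]
      obtain ⟨_, h⟩ := hp
      exact h
  have hcomm : ∀ a b : SLD n D ⧸ N, a * b = b * a := by
    intro a b
    obtain ⟨ψ₁, h₁, rfl⟩ := hrange a
    obtain ⟨ψ₂, h₂, rfl⟩ := hrange b
    rw [← map_mul, ← map_mul]
    congr 1
    refine Subtype.ext (Units.ext ?_)
    show tm u ψ₁ * tm u ψ₂ = tm u ψ₂ * tm u ψ₁
    rw [tm_mul_right _ _ _ h₁, tm_mul_right _ _ _ h₂, add_comm]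
  letI : CommGroup (SLD n D ⧸ N) := { (inferInstance : Group (SLD n D ⧸ N)) with mul_comm := hcomm }
  have h1 := hom_eq_one hn k hk (QuotientGroup.mk' N)
  rw [eq_top_iff]
  intro x _
  have h2 := DFunLike.congr_fun h1 x
  exact (QuotientGroup.eq_one_iff x).1 h2

end div

end Vale.Agent.P092.H465.DA
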