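import Vale.Agent.P092.H465.DA2

/-!
P092 (helper465), row CLASS-D, part 3: topology. `D` is a finite-dimensional normed division algebra
over a local field `k`; `rep : M_n(D) → M_N(k)`, `N = dim_k D ^ n`; the group `KN` of the elements of
norm one is closed in `M_n(D)`.
-/

set_option linter.all false

open Matrix Topology Filter

namespace Vale.Agent.P092.H465.DA

variable (k : Type*) [NontriviallyNormedField k] [ProperSpace k]
  (n D : Type*) [Fintype n] [DecidableEq n] [NormedDivisionRing D] [NormedAlgebra k D]
  [FiniteDimensional k D]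

/-- left multiplication by a matrix, as a `k`-linear map -/
def lmul : Matrix n n D →ₐ[k] Module.End k (n → D) where
  toFun M :=
    { toFun := fun x => M *ᵥ x
      map_add' := fun x y => mulVec_add M x y
      map_smul' := fun c x => mulVec_smul M c x }
  map_one' := LinearMap.ext fun x => one_mulVec x
  map_mul' M M' := LinearMap.ext fun x => (mulVec_mulVec x M M').symm
  map_zero' := LinearMap.ext fun x => zero_mulVec x
  map_add' M M' := LinearMap.ext fun x => add_mulVec M M' x
  commutes' c := by
    refine LinearMap.ext fun x => ?_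
    show (algebraMap k (Matrix n n D) c) *ᵥ x = c • x
    rw [Algebra.algebraMap_eq_smul_one, smul_mulVec, one_mulVec]

theorem lmul_apply (M : Matrix n n D) (x : n → D) : lmul k n D M x = M *ᵥ x := rfl

/-- the dimension of `D ^ n` -/
noncomputable def dm : ℕ := Module.finrank k (n → D)

/-- a basis of `D ^ n` -/
noncomputable def bs : Module.Basis (Fin (dm k n D)) k (n → D) := Module.finBasis k (n → D)

/-- **the representation `M_n(D) → M_N(k)`** -/
noncomputable def rep : Matrix n n D →ₐ[k] Matrix (Fin (dm k n D)) (Fin (dm k n D)) k :=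
  ((LinearMap.toMatrixAlgEquiv (bs k n D)).toAlgHom).comp (lmul k n D)

theorem rep_apply (M : Matrix n n D) :
    rep k n D M = LinearMap.toMatrix (bs k n D) (bs k n D) (lmul k n D M) := rfl

theorem lmul_injective : Function.Injective (lmul k n D) := by
  intro M M' h
  refine ext_col fun j => ?_
  have h1 := LinearMap.congr_fun h (Pi.single j 1)
  rw [lmul_apply, lmul_apply, mulVec_single_one, mulVec_single_one] at h1
  exact h1

theorem rep_injective : Function.Injective (rep k n D) :=
  (LinearMap.toMatrixAlgEquiv (bs k n D)).injective.comp (lmul_injective k n D)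

instance : FiniteDimensional k (Matrix n n D) :=
  inferInstanceAs (FiniteDimensional k (n → n → D))

theorem isClosedEmbedding_rep : IsClosedEmbedding (rep k n D) := by
  have h := LinearMap.isClosedEmbedding_of_injective
    (f := (rep k n D).toLinearMap) (LinearMap.ker_eq_bot.2 (rep_injective k n D))
  exact h

theorem continuous_rep : Continuous (rep k n D) := (isClosedEmbedding_rep k n D).continuous

/-- a continuous left inverse of `rep` -/
theorem exists_linv : ∃ L : Matrix (Fin (dm k n D)) (Fin (dm k n D)) k → Matrix n n D,
    Continuous L ∧ ∀ M, L (rep k n D M) = M := by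
  obtain ⟨L, hL⟩ := (rep k n D).toLinearMap.exists_leftInverse_of_injective
    (LinearMap.ker_eq_bot.2 (rep_injective k n D))
  exact ⟨L, L.continuous_of_finiteDimensional, fun M => LinearMap.congr_fun hL M⟩

/-- the norm of a matrix -/
noncomputable def nmk (M : Matrix n n D) : k := (rep k n D M).det

theorem nmk_mul (M M' : Matrix n n D) : nmk k n D (M * M') = nmk k n D M * nmk k n D M' := by
  rw [nmk, map_mul, det_mul]
  rfl

theorem nmk_one : nmk k n D 1 = 1 := by
  rw [nmk, map_one, det_one]

theorem continuous_nmk : Continuous (nmk k n D) := (continuous_rep k n D).matrix_det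

/-- matrices with nonzero norm are invertible -/
theorem isUnit_of_nmk {M : Matrix n n D} (h : nmk k n D M ≠ 0) : IsUnit M := by
  have h1 : IsUnit (rep k n D M) := (Matrix.isUnit_iff_isUnit_det _).2 (isUnit_iff_ne_zero.2 h)
  have h2 : IsUnit (lmul k n D M) := by
    have := h1.map (LinearMap.toMatrixAlgEquiv (bs k n D)).symm
    have e : (LinearMap.toMatrixAlgEquiv (bs k n D)).symm (rep k n D M) = lmul k n D M :=
      (LinearMap.toMatrixAlgEquiv (bs k n D)).symm_apply_apply _
    rwa [e] at this
  -- the inverse commutes with the right multiplications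
  obtain ⟨f, hf⟩ := h2
  have hinj : Function.Injective (lmul k n D M) := by
    rw [← hf]
    exact ((Module.End.isUnit_iff _).1 f.isUnit).1
  have hsurj : Function.Surjective (lmul k n D M) := by
    rw [← hf]
    exact ((Module.End.isUnit_iff _).1 f.isUnit).2
  choose g hg using hsurj
  set M' : Matrix n n D := of fun i j => g (Pi.single j 1) i with hM'
  have e1 : M * M' = 1 := by
    refine ext_col fun j => ?_
    have h3 : (M * M').col j = M *ᵥ (g (Pi.single j 1)) := by
      funext i
      rfl
    rw [h3]
    have h4 : M *ᵥ (g (Pi.single j 1)) = Pi.single j 1 := hg _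
    rw [h4]
    funext i
    rw [col_apply, one_apply, Pi.single_apply]
  have e2 : M' * M = 1 := by
    apply lmul_injective k n D
    refine LinearMap.ext fun x => hinj ?_
    rw [lmul_apply, lmul_apply, lmul_apply, lmul_apply, mulVec_mulVec, ← Matrix.mul_assoc, e1,
      one_mul, one_mulVec]
  exact ⟨⟨M, M', e1, e2⟩, rfl⟩

/-- the group of the elements of norm one -/
noncomputable def KN : Subgroup (Matrix n n D)ˣ where
  carrier := {g | nmk k n D g.1 = 1}
  mul_mem' {a b} ha hb := by
    show nmk k n D (a.1 * b.1) = 1
    rw [nmk_mul, show nmk k n D a.1 = 1 from ha, show nmk k n D b.1 = 1 from hb, mul_one]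
  one_mem' := nmk_one k n D
  inv_mem' {a} ha := by
    show nmk k n D (a⁻¹).1 = 1
    have h : nmk k n D (a.1 * (a⁻¹).1) = 1 := by rw [Units.mul_inv, nmk_one]
    rwa [nmk_mul, show nmk k n D a.1 = 1 from ha, one_mul] at h

theorem mem_KN {g : (Matrix n n D)ˣ} : g ∈ KN k n D ↔ nmk k n D g.1 = 1 := Iff.rfl

/-- `ker N` is closed in the matrices -/
theorem isClosedEmbedding_KN : IsClosedEmbedding fun g : KN k n D => g.1.1 := by
  obtain ⟨L, hL, hL1⟩ := exists_linv k n D
  have hc : Continuous fun g : KN k n D => g.1.1 := Units.continuous_val.comp continuous_subtype_val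
  refine ⟨⟨?_, fun a b h => Subtype.ext (Units.ext h)⟩, ?_⟩
  · -- inducing
    have hF : Continuous fun M : Matrix n n D =>
        (M, MulOpposite.op (L ((rep k n D M).adjugate))) := by
      refine continuous_id.prodMk (MulOpposite.continuous_op.comp (hL.comp ?_))
      exact (continuous_rep k n D).matrix_adjugate
    have hh : IsInducing ((fun M : Matrix n n D =>
        (M, MulOpposite.op (L ((rep k n D M).adjugate)))) ∘ fun g : KN k n D => g.1.1) := by
      have e : ((fun M : Matrix n n D => (M, MulOpposite.op (L ((rep k n D M).adjugate)))) ∘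
          fun g : KN k n D => g.1.1) = (Units.embedProduct (Matrix n n D)) ∘ Subtype.val := by
        funext g
        show (g.1.1, MulOpposite.op (L ((rep k n D g.1.1).adjugate))) =
          (g.1.1, MulOpposite.op (g.1⁻¹).1)
        have h1 : (rep k n D g.1.1).adjugate = rep k n D (g.1⁻¹).1 := by
          have h2 : rep k n D (g.1⁻¹).1 * rep k n D g.1.1 = 1 := by
            rw [← map_mul, Units.inv_mul, map_one]
          have h3 : rep k n D g.1.1 * (rep k n D g.1.1).adjugate = 1 := by
            rw [mul_adjugate, show (rep k n D g.1.1).det = 1 from g.2, one_smul]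
          calc (rep k n D g.1.1).adjugate
              = rep k n D (g.1⁻¹).1 * rep k n D g.1.1 * (rep k n D g.1.1).adjugate := by
                rw [h2, one_mul]
            _ = _ := by rw [mul_assoc, h3, mul_one]
        rw [h1, hL1]
      rw [e]
      exact Units.isInducing_embedProduct.comp IsInducing.subtypeVal
    exact hh.of_comp hc hF
  · -- closed range
    have e : Set.range (fun g : KN k n D => g.1.1) = {M | nmk k n D M = 1} := by
      ext M
      constructor
      · rintro ⟨g, rfl⟩
        exact g.2
      · intro hM
        obtain ⟨u, rfl⟩ := isUnit_of_nmk k n D (M := M) (by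
          rw [show nmk k n D M = 1 from hM]; exact one_ne_zero)
        exact ⟨⟨u, hM⟩, rfl⟩
    rw [e]
    exact isClosed_eq (continuous_nmk k n D) continuous_const

/-- `GL_n(D)` is a topological group (inversion of units), Hausdorff. -/
theorem exists_sq_ne : ∃ r : k, r ≠ 0 ∧ r ^ 2 ≠ 1 := H899.exists_sq_ne

/-- the norm of the elements of `SL_n(D)` -/
theorem SLD_le_KN (hn : 2 ≤ Fintype.card n) : SLD n D ≤ KN k n D := by
  set f : (Matrix n n D)ˣ →* kˣ := Units.map
    ({ toFun := nmk k n D, map_one' := nmk_one k n D, map_mul' := nmk_mul k n D } :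
      Matrix n n D →* k) with hf
  have h1 := hom_eq_one hn k (exists_sq_ne k) (f.comp (SLD n D).subtype)
  intro g hg
  have h2 := DFunLike.congr_fun h1 (⟨g, hg⟩ : SLD n D)
  have h3 : (f g).1 = 1 := congrArg Units.val h2
  exact h3

end Vale.Agent.P092.H465.DA
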