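import Vale.Agent.P092.H465.DA3

/-!
P092 (helper465), row CLASS-D, part 4: the rank one nilpotent matrices over a central division
algebra span a subspace of codimension at most one.
-/

set_option linter.all false

open Matrix Topology Filter

namespace Vale.Agent.P092.H465.DA

section codim

variable {n : Type*} [Fintype n] [DecidableEq n] {k D : Type*} [Field k] [DivisionRing D]
  [Algebra k D]

variable (k n D) in
/-- the span of the rank one nilpotents -/
def Nil : Submodule k (Matrix n n D) :=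
  Submodule.span k {M | ∃ u φ : n → D, φ ⬝ᵥ u = 0 ∧ M = vecMulVec u φ}

/-- `f` vanishes on the rank one nilpotents -/
def Van (f : Matrix n n D →ₗ[k] k) : Prop := ∀ u φ : n → D, φ ⬝ᵥ u = 0 → f (vecMulVec u φ) = 0

theorem van_iff {f : Matrix n n D →ₗ[k] k} : Van f ↔ Nil n k D ≤ LinearMap.ker f := by
  rw [Nil, Submodule.span_le]
  constructor
  · rintro h M ⟨u, φ, h1, rfl⟩
    exact h u φ h1
  · intro h u φ h1
    exact h ⟨u, φ, h1, rfl⟩

theorem Van.off {f : Matrix n n D →ₗ[k] k} (hf : Van f) {i j : n} (hij : i ≠ j) (x : D) :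
    f (single i j x) = 0 := by
  have h1 : (Pi.single j (1 : D) : n → D) ⬝ᵥ Pi.single i x = 0 := by
    rw [dotProduct_single, Pi.single_eq_of_ne hij, zero_mul]
  have h2 := hf _ _ h1
  have e : vecMulVec (Pi.single i x) (Pi.single j (1 : D)) = single i j x := by
    ext a b
    rw [vecMulVec_apply, single_apply]
    by_cases ha : i = a
    · subst ha
      by_cases hb : j = b
      · subst hb
        rw [Pi.single_eq_same, Pi.single_eq_same, mul_one, if_pos ⟨rfl, rfl⟩]
      · rw [Pi.single_eq_of_ne (Ne.symm hb), mul_zero, if_neg (fun h => hb h.2)]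
    · rw [Pi.single_eq_of_ne (Ne.symm ha), zero_mul, if_neg (fun h => ha h.1)]
  rwa [e] at h2

theorem Van.tr {f : Matrix n n D →ₗ[k] k} (hf : Van f) {i j : n} (hij : i ≠ j) (y z : D) :
    f (single i i (z * y)) = f (single j j (y * z)) := by
  have h1 : ((Pi.single i (z * y) : n → D) - Pi.single j z) ⬝ᵥ
      ((Pi.single i 1 : n → D) + Pi.single j y) = 0 := by
    rw [dotProduct_add, sub_dotProduct, sub_dotProduct, dotProduct_single, dotProduct_single,
      dotProduct_single, dotProduct_single, Pi.single_eq_same, Pi.single_eq_same,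
      Pi.single_eq_of_ne hij, Pi.single_eq_of_ne (Ne.symm hij)]
    simp
  have h2 := hf _ _ h1
  have e : vecMulVec ((Pi.single i 1 : n → D) + Pi.single j y)
      ((Pi.single i (z * y) : n → D) - Pi.single j z) =
      single i i (z * y) - single i j z + single j i (y * (z * y)) - single j j (y * z) := by
    ext a b
    simp only [vecMulVec_apply, Pi.add_apply, Pi.sub_apply, Matrix.sub_apply, Matrix.add_apply,
      single_apply, Pi.single_apply]
    by_cases ha : i = a
    · subst ha
      by_cases hb : i = b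
      · subst hb
        simp [hij, Ne.symm hij]
      · by_cases hb' : j = b
        · subst hb'
          simp [hij, Ne.symm hij]
        · simp [hb, hb', Ne.symm hb, Ne.symm hb', Ne.symm hij, hij]
    · by_cases ha' : j = a
      · subst ha'
        by_cases hb : i = b
        · subst hb
          simp [hij, Ne.symm hij]
        · by_cases hb' : j = b
          · subst hb'
            simp [hij, Ne.symm hij]
          · simp [hb, hb', Ne.symm hb, Ne.symm hb', Ne.symm hij, hij]
      · simp [ha, ha', Ne.symm ha, Ne.symm ha']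
  rw [e, map_sub, map_add, map_sub, hf.off hij, hf.off (Ne.symm hij), sub_zero, add_zero] at h2
  exact sub_eq_zero.1 h2

theorem Van.diag {f : Matrix n n D →ₗ[k] k} (hf : Van f) (i j : n) (z : D) :
    f (single i i z) = f (single j j z) := by
  by_cases h : i = j
  · rw [h]
  · have := hf.tr h 1 z
    rwa [mul_one, one_mul] at this

theorem Van.comm {f : Matrix n n D →ₗ[k] k} (hf : Van f) (hn : 2 ≤ Fintype.card n) (i : n)
    (y z : D) : f (single i i (z * y)) = f (single i i (y * z)) := by
  obtain ⟨j, hj⟩ := Fintype.exists_ne_of_one_lt_card (by omega : 1 < Fintype.card n) i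
  rw [hf.tr (Ne.symm hj) y z, hf.diag j i]

theorem Van.eq_sum {f : Matrix n n D →ₗ[k] k} (hf : Van f) (i : n) (M : Matrix n n D) :
    f M = ∑ j, f (single i i (M j j)) := by
  conv_lhs => rw [matrix_eq_sum_single M]
  rw [map_sum]
  refine Finset.sum_congr rfl fun j _ => ?_
  rw [map_sum, Finset.sum_eq_single j]
  · exact hf.diag _ _ _
  · intro b _ hb
    exact hf.off (Ne.symm hb) _
  · intro h
    exact absurd (Finset.mem_univ j) h

theorem Van.ne {f : Matrix n n D →ₗ[k] k} (hf : Van f) (hf0 : f ≠ 0) (i : n) :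
    ∃ d : D, f (single i i d) ≠ 0 := by
  by_contra hcon
  push Not at hcon
  apply hf0
  refine LinearMap.ext fun M => ?_
  rw [hf.eq_sum i M]
  simp only [hcon, Finset.sum_const_zero, LinearMap.zero_apply]

/-- the trace functionals are proportional -/
theorem Van.prop [FiniteDimensional k D] [Algebra.IsCentral k D] (hn : 2 ≤ Fintype.card n)
    {f g : Matrix n n D →ₗ[k] k}
    (hf : Van f) (hg : Van g) (hf0 : f ≠ 0) : ∃ c : k, ∀ M, g M = c * f M := by
  obtain ⟨i⟩ : Nonempty n := Fintype.card_pos_iff.1 (by omega)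
  set τ : D →ₗ[k] k := f ∘ₗ (singleLinearMap k i i) with hτ
  set τ' : D →ₗ[k] k := g ∘ₗ (singleLinearMap k i i) with hτ'
  have t1 : ∀ x, τ x = f (single i i x) := fun x => rfl
  have t2 : ∀ x, τ' x = g (single i i x) := fun x => rfl
  set B : D →ₗ[k] Module.Dual k D := (LinearMap.mul k D).compr₂ τ with hB
  have hBa : ∀ x y, B x y = τ (x * y) := fun x y => rfl
  have hinj : Function.Injective B := by
    rw [← LinearMap.ker_eq_bot, LinearMap.ker_eq_bot']
    intro x hx
    by_contra hx0
    obtain ⟨d, hd⟩ := hf.ne hf0 i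
    apply hd
    have := LinearMap.congr_fun hx (x⁻¹ * d)
    rw [hBa, mul_inv_cancel_left₀ hx0] at this
    exact this
  have hsurj : Function.Surjective B :=
    (LinearMap.injective_iff_surjective_of_finrank_eq_finrank
      (Subspace.dual_finrank_eq (K := k) (V := D)).symm).1 hinj
  obtain ⟨c, hc⟩ := hsurj τ'
  have hc' : ∀ y, τ' y = τ (c * y) := fun y => by rw [← hBa, hc]
  have hcomm : ∀ x, c * x = x * c := by
    intro x
    rw [← sub_eq_zero]
    apply hinj
    rw [map_zero]
    refine LinearMap.ext fun y => ?_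
    rw [hBa, sub_mul, map_sub, LinearMap.zero_apply, sub_eq_zero]
    calc τ (c * x * y) = τ' (x * y) := by rw [hc', mul_assoc]
      _ = τ' (y * x) := hg.comm hn i y x
      _ = τ (c * (y * x)) := hc' _
      _ = τ (c * y * x) := by rw [mul_assoc]
      _ = τ (x * (c * y)) := hf.comm hn i x (c * y)
      _ = _ := by rw [mul_assoc]
  have hcen : c ∈ Subalgebra.center k D := Subalgebra.mem_center_iff.2 fun x => (hcomm x).symm
  obtain ⟨a, ha⟩ := Algebra.mem_bot.1 (Algebra.IsCentral.out hcen)
  refine ⟨a, fun M => ?_⟩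
  rw [hg.eq_sum i M, hf.eq_sum i M, Finset.mul_sum]
  refine Finset.sum_congr rfl fun j _ => ?_
  rw [← t1, ← t2, hc', ← ha, ← Algebra.smul_def, map_smul, smul_eq_mul]

/-- **codimension at most one** -/
theorem exists_codim [FiniteDimensional k D] [Algebra.IsCentral k D] (hn : 2 ≤ Fintype.card n) :
    ∃ f : Matrix n n D →ₗ[k] k, f ≠ 0 ∧ ∀ c, f c ≠ 0 → ∀ M, ∃ t : k, M - t • c ∈ Nil n k D := by
  by_cases htop : Nil n k D = ⊤
  · obtain ⟨i⟩ : Nonempty n := Fintype.card_pos_iff.1 (by omega)
    have h1 : (1 : Matrix n n D) ≠ 0 := by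
      intro h
      have := congrFun (congrFun h i) i
      rw [one_apply_eq] at this
      exact one_ne_zero this
    obtain ⟨f, hf⟩ : ∃ f : Matrix n n D →ₗ[k] k, f 1 ≠ 0 := by
      obtain ⟨f, hf, -⟩ := Submodule.exists_le_ker_of_notMem
        (p := (⊥ : Submodule k (Matrix n n D))) (v := 1) (by rwa [Submodule.mem_bot])
      exact ⟨f, hf⟩
    refine ⟨f, fun h => hf (by rw [h]; rfl), fun c _ M => ⟨0, ?_⟩⟩
    rw [htop]
    trivial
  · obtain ⟨f, hf0, hf⟩ := Submodule.exists_le_ker_of_lt_top (Nil n k D) (lt_top_iff_ne_top.2 htop)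
    refine ⟨f, hf0, fun c hc M => ⟨(f c)⁻¹ * f M, ?_⟩⟩
    by_contra hcon
    obtain ⟨g, hg1, hg⟩ := Submodule.exists_le_ker_of_notMem hcon
    obtain ⟨a, ha⟩ := Van.prop hn (van_iff.2 hf) (van_iff.2 hg) hf0
    apply hg1
    rw [ha, map_sub, map_smul, smul_eq_mul]
    field_simp
    ring

/-- an invertible matrix outside of a hyperplane -/
theorem exists_unit {m : ℕ} [Infinite k] {A : Type*} [AddCommGroup A] [Module k A] {f : A →ₗ[k] k}
    (hf : f ≠ 0) (ρ : A →ₗ[k] Matrix (Fin m) (Fin m) k) {e : A} (he : ρ e = 1) :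
    ∃ c, f c ≠ 0 ∧ (ρ c).det ≠ 0 := by
  obtain ⟨c₀, hc₀⟩ : ∃ c, f c ≠ 0 := by
    by_contra hcon
    push Not at hcon
    exact hf (LinearMap.ext hcon)
  have h1 : ({s : k | (-ρ c₀).charpoly.eval s = 0}).Finite := by
    have : {s : k | (-ρ c₀).charpoly.eval s = 0} = (-ρ c₀).charpoly.rootSet k := by
      ext s
      rw [Polynomial.mem_rootSet_of_ne (charpoly_monic _).ne_zero]
      simp
    rw [this]
    exact Polynomial.rootSet_finite _ _
  have h2 : ({s : k | f c₀ + s * f e = 0}).Finite := by
    refine Set.Subsingleton.finite fun s hs t ht => ?_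
    have h3 : f e ≠ 0 := by
      intro h
      rw [Set.mem_setOf_eq, h, mul_zero, add_zero] at hs
      exact hc₀ hs
    have h4 : s * f e = t * f e := add_left_cancel ((show f c₀ + s * f e = 0 from hs).trans
      (show f c₀ + t * f e = 0 from ht).symm)
    exact mul_right_cancel₀ h3 h4
  obtain ⟨s, hs⟩ := (h1.union h2).infinite_compl.nonempty
  rw [Set.mem_compl_iff, Set.mem_union, not_or] at hs
  refine ⟨c₀ + s • e, ?_, ?_⟩
  · rw [map_add, map_smul, smul_eq_mul]
    exact hs.2
  · intro h
    apply hs.1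
    rw [Set.mem_setOf_eq, eval_charpoly, sub_neg_eq_add, ← h, map_add, map_smul, he, add_comm,
      Matrix.scalar_apply, ← Matrix.smul_one_eq_diagonal]

end codim

/-- the equation `det (1 + t A) = 1` has no small solution `t ≠ 0` -/
theorem exists_small {k : Type*} [NontriviallyNormedField k] {m : ℕ} (hm : 0 < m)
    {A : Matrix (Fin m) (Fin m) k} (hA : A.det ≠ 0) :
    ∃ δ > 0, ∀ t : k, ‖t‖ < δ → (1 + t • A).det = 1 → t = 0 := by
  set q : Polynomial k := (-A).charpoly - Polynomial.X ^ m with hq
  have hev : ∀ s, q.eval s = (s • (1 : Matrix (Fin m) (Fin m) k) + A).det - s ^ m := by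
    intro s
    rw [hq, Polynomial.eval_sub, eval_charpoly, sub_neg_eq_add, Polynomial.eval_pow,
      Polynomial.eval_X, Matrix.scalar_apply, ← Matrix.smul_one_eq_diagonal]
  have hq0 : q ≠ 0 := by
    intro h
    have := hev 0
    rw [h, Polynomial.eval_zero, zero_smul, zero_add, zero_pow hm.ne', sub_zero] at this
    exact hA this.symm
  have hfin : (q.rootSet k).Finite := Polynomial.rootSet_finite _ _
  obtain ⟨R, hR⟩ := hfin.isBounded.exists_norm_le
  refine ⟨(|R| + 1)⁻¹, by positivity, fun t ht h1 => ?_⟩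
  by_contra ht0
  have h2 : t⁻¹ ∈ q.rootSet k := by
    rw [Polynomial.mem_rootSet_of_ne hq0, Polynomial.aeval_def, Polynomial.eval₂_eq_eval_map,
      Algebra.algebraMap_self, Polynomial.map_id, hev]
    have e : t⁻¹ • (1 : Matrix (Fin m) (Fin m) k) + A = t⁻¹ • (1 + t • A) := by
      rw [smul_add, smul_smul, inv_mul_cancel₀ ht0, one_smul]
    rw [e, det_smul, h1, mul_one, Fintype.card_fin, sub_self]
  have h3 := hR _ h2
  rw [norm_inv] at h3
  have h4 : 0 < ‖t‖ := norm_pos_iff.2 ht0
  have h5 : (|R| + 1) < ‖t‖⁻¹ := by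
    rw [lt_inv_comm₀ (by positivity) h4]
    exact ht
  have := le_abs_self R
  linarith

end Vale.Agent.P092.H465.DA
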