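import Vale.Agent.P092.H465.DA4

/-!
P092 (helper465), row CLASS-D, part 5: `SL_n(D)` is open in the group of the elements of norm one
(inverse function theorem in `M_n(D)`), hence closed.
-/

set_option linter.all false

open Matrix Topology Filter

namespace Vale.Agent.P092.H465.DA

section ift

variable {k : Type*} [NontriviallyNormedField k] {𝔸 : Type*} [NormedRing 𝔸] [NormedAlgebra k 𝔸]

/-- the map `(x, t) ↦ ∏ (1 + x_i b_i) (1 + t c)` -/
noncomputable def PF {r : ℕ} (b : Fin r → 𝔸) (c : 𝔸) (z : (Fin r → k) × k) : 𝔸 :=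
  ((List.finRange r).map (fun i => 1 + z.1 i • b i)).prod * (1 + z.2 • c)

theorem PF_zero {r : ℕ} (b : Fin r → 𝔸) (c : 𝔸) : PF (k := k) b c 0 = 1 := by
  simp [PF]

theorem hasDeriv_PF {r : ℕ} (b : Fin r → 𝔸) (c : 𝔸) :
    ∃ F' : ((Fin r → k) × k) →L[k] 𝔸, HasStrictFDerivAt (PF b c) F' 0 ∧
      ∀ z, F' z = ∑ i, z.1 i • b i + z.2 • c := by
  have e0 : (fun i => (1 : 𝔸) + (0 : (Fin r → k) × k).1 i • b i) = fun _ => 1 := by
    funext i; simp
  have h1 := hasStrictFDerivAt_list_prod_finRange' (𝕜 := k) (x := fun _ : Fin r => (1 : 𝔸))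
  have h2 : HasStrictFDerivAt (fun z : (Fin r → k) × k => fun i => (1 : 𝔸) + z.1 i • b i)
      (ContinuousLinearMap.pi fun i => (((ContinuousLinearMap.proj (R := k) (φ := fun _ : Fin r => k) i).comp
        (ContinuousLinearMap.fst k (Fin r → k) k)).smulRight (b i))) 0 := by
    rw [hasStrictFDerivAt_pi]
    intro i
    have h3 : HasStrictFDerivAt (fun z : (Fin r → k) × k => z.1 i)
        ((ContinuousLinearMap.proj (R := k) (φ := fun _ : Fin r => k) i).comp
          (ContinuousLinearMap.fst k (Fin r → k) k)) 0 :=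
      ((ContinuousLinearMap.proj (R := k) (φ := fun _ : Fin r => k) i).comp
          (ContinuousLinearMap.fst k (Fin r → k) k)).hasStrictFDerivAt
    exact (h3.smul_const (b i)).const_add 1
  rw [← e0] at h1
  have h4 := h1.comp 0 h2
  have h5 : HasStrictFDerivAt (fun z : (Fin r → k) × k => (1 : 𝔸) + z.2 • c)
      ((ContinuousLinearMap.snd k (Fin r → k) k).smulRight c) 0 := by
    have h6 : HasStrictFDerivAt (fun z : (Fin r → k) × k => z.2)
        (ContinuousLinearMap.snd k (Fin r → k) k) 0 :=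
      (ContinuousLinearMap.snd k (Fin r → k) k).hasStrictFDerivAt
    exact (h6.smul_const c).const_add 1
  have h6 := h4.mul' h5
  refine ⟨_, h6, fun z => ?_⟩
  have e1 : ∀ l : List (Fin r), (l.map fun i => (1 : 𝔸) + (0 : (Fin r → k) × k).1 i • b i).prod = 1 := by
    intro l
    rw [e0]
    simp
  simp only [_root_.add_apply, _root_.smul_apply, ContinuousLinearMap.comp_apply, e1]
  have e2 : (1 : 𝔸) + (0 : (Fin r → k) × k).2 • c = 1 := by simp
  rw [e2]
  simp only [ContinuousLinearMap.sum_apply, _root_.smul_apply, MulOpposite.op_one, one_smul]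
  rw [add_comm]
  congr 1

/-- the inverse function theorem for `PF` -/
theorem exists_PF [CompleteSpace k] [CompleteSpace 𝔸] {r : ℕ} (b : Fin r → 𝔸) (c : 𝔸)
    (h : ∀ M : 𝔸, ∃ (x : Fin r → k) (t : k), M = ∑ i, x i • b i + t • c) {δ : ℝ} (hδ : 0 < δ) :
    ∀ᶠ M : 𝔸 in 𝓝 1, ∃ z : (Fin r → k) × k, ‖z.2‖ < δ ∧ M = PF b c z := by
  obtain ⟨F', h1, h2⟩ := hasDeriv_PF (k := k) b c
  have h3 : F'.range = ⊤ := by
    rw [LinearMap.range_eq_top]
    intro M
    obtain ⟨x, t, hM⟩ := h M
    refine ⟨(x, t), ?_⟩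
    rw [hM]
    exact h2 (x, t)
  have h4 := h1.map_nhds_eq_of_surj h3
  rw [PF_zero] at h4
  rw [← h4]
  have h5 : ∀ᶠ z : (Fin r → k) × k in 𝓝 0, ‖z.2‖ < δ := by
    have : Continuous fun z : (Fin r → k) × k => ‖z.2‖ := by fun_prop
    refine this.continuousAt.eventually_lt_const ?_
    show ‖(0 : (Fin r → k) × k).2‖ < δ
    rw [Prod.snd_zero, norm_zero]
    exact hδ
  rw [Filter.eventually_map]
  exact h5.mono fun z hz => ⟨z, hz, rfl⟩

/-- the same in an algebra isomorphic to a complete normed algebra -/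
theorem near_alg [CompleteSpace k] [CompleteSpace 𝔸] {A : Type*} [Ring A] [Algebra k A]
    [TopologicalSpace A] (e : A ≃ₐ[k] 𝔸) (he : Continuous e) {r : ℕ} (a : Fin r → A) (c : A)
    (h : ∀ M : A, ∃ (x : Fin r → k) (t : k), M = ∑ i, x i • a i + t • c) {δ : ℝ} (hδ : 0 < δ) :
    ∀ᶠ M : A in 𝓝 1, ∃ z : (Fin r → k) × k, ‖z.2‖ < δ ∧
      M = ((List.finRange r).map (fun i => 1 + z.1 i • a i)).prod * (1 + z.2 • c) := by
  have h1 : ∀ M : 𝔸, ∃ (x : Fin r → k) (t : k), M = ∑ i, x i • e (a i) + t • e c := by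
    intro M
    obtain ⟨M, rfl⟩ := e.surjective M
    obtain ⟨x, t, hx⟩ := h M
    refine ⟨x, t, ?_⟩
    rw [hx, map_add, map_sum, map_smul]
    simp only [map_smul]
  have h2 := exists_PF (k := k) (fun i => e (a i)) (e c) h1 hδ
  have h3 : Tendsto e (𝓝 1) (𝓝 1) := by
    have := he.tendsto 1
    rwa [map_one] at this
  refine (h3.eventually h2).mono fun M hM => ?_
  obtain ⟨z, hz, hM⟩ := hM
  refine ⟨z, hz, ?_⟩
  apply e.injective
  rw [hM, map_mul, map_list_prod, List.map_map, PF, map_add, map_one, map_smul]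
  congr 3
  funext i
  simp only [Function.comp_apply, map_add, map_one, map_smul]

theorem complete_sub [CompleteSpace k] (S : Subalgebra k 𝔸)
    [FiniteDimensional k (Subalgebra.toSubmodule S)] : CompleteSpace S :=
  (Submodule.complete_of_finiteDimensional (Subalgebra.toSubmodule S)).completeSpace_coe

end ift

section closed

variable (k : Type*) [NontriviallyNormedField k] [ProperSpace k]
  (n D : Type*) [Fintype n] [DecidableEq n] [NormedDivisionRing D] [NormedAlgebra k D]
  [FiniteDimensional k D]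

/-- left multiplication as a continuous operator -/
noncomputable def lc : Matrix n n D →ₐ[k] ((n → D) →L[k] (n → D)) :=
  ((Module.End.toContinuousLinearMap (𝕜 := k) (n → D)).toAlgHom).comp (lmul k n D)

theorem lc_injective : Function.Injective (lc k n D) :=
  (Module.End.toContinuousLinearMap (𝕜 := k) (n → D)).injective.comp (lmul_injective k n D)

/-- the normed algebra of matrices -/
noncomputable abbrev MA : Subalgebra k ((n → D) →L[k] (n → D)) := (lc k n D).range

noncomputable def eMA : Matrix n n D ≃ₐ[k] MA k n D := AlgEquiv.ofInjective (lc k n D) (lc_injective k n D)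

theorem continuous_eMA : Continuous (eMA k n D) := by
  have h : Continuous (lc k n D).toLinearMap := (lc k n D).toLinearMap.continuous_of_finiteDimensional
  exact continuous_induced_rng.2 h

variable {k n D}

theorem exists_list_prod {r : ℕ} {a : Fin r → Matrix n n D}
    (ha : ∀ i, ∃ u φ : n → D, φ ⬝ᵥ u = 0 ∧ a i = vecMulVec u φ) (x : Fin r → k)
    (l : List (Fin r)) : ∃ s ∈ SLD n D, s.1 = (l.map fun i => (1 : Matrix n n D) + x i • a i).prod := by
  induction l with
  | nil => exact ⟨1, Subgroup.one_mem _, rfl⟩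
  | cons i l ih =>
    obtain ⟨s, hs, hs1⟩ := ih
    obtain ⟨u, φ, h, hu⟩ := ha i
    have h' : φ ⬝ᵥ (x i • u) = 0 := by rw [dotProduct_smul, h, smul_zero]
    refine ⟨tv h' * s, Subgroup.mul_mem _ (tv_mem h') hs, ?_⟩
    rw [List.map_cons, List.prod_cons, ← hs1, Units.val_mul, tv_val, tm, hu, smul_vecMulVec]

theorem near_one {c : Matrix n n D} (hc : ∀ M, ∃ t : k, M - t • c ∈ Nil n k D) {δ : ℝ}
    (hδ : 0 < δ) :
    ∀ᶠ M : Matrix n n D in 𝓝 1, ∃ s ∈ SLD n D, ∃ t : k, ‖t‖ < δ ∧ M = s.1 * (1 + t • c) := by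
  obtain ⟨a, ha, hspan, -⟩ := Submodule.exists_fun_fin_finrank_span_eq k
    {M : Matrix n n D | ∃ u φ : n → D, φ ⬝ᵥ u = 0 ∧ M = vecMulVec u φ}
  haveI : CompleteSpace k := inferInstance
  haveI h0 : FiniteDimensional k (Subalgebra.toSubmodule (MA k n D)) :=
    (eMA k n D).toLinearEquiv.finiteDimensional
  haveI h0' := complete_sub (k := k) (𝔸 := (n → D) →L[k] (n → D)) (MA k n D)
  have h1 : ∀ M : Matrix n n D, ∃ (x : Fin _ → k) (t : k), M = ∑ i, x i • a i + t • c := by
    intro M
    obtain ⟨t, ht⟩ := hc M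
    rw [Nil, ← hspan, Submodule.mem_span_range_iff_exists_fun] at ht
    obtain ⟨x, hx⟩ := ht
    exact ⟨x, t, by rw [hx]; abel⟩
  refine (near_alg (k := k) (𝔸 := MA k n D) (eMA k n D) (continuous_eMA k n D) a c h1 hδ).mono fun M hM => ?_
  obtain ⟨z, hz, hM⟩ := hM
  obtain ⟨s, hs, hs1⟩ := exists_list_prod (k := k) ha z.1 (List.finRange _)
  exact ⟨s, hs, z.2, hz, by rw [hM, hs1]⟩

/-- **`SL_n(D)` is open in the group of the elements of norm one** -/
theorem isOpen_SLD [Algebra.IsCentral k D] (hn : 2 ≤ Fintype.card n) :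
    IsOpen (((SLD n D).subgroupOf (KN k n D) : Subgroup (KN k n D)) : Set (KN k n D)) := by
  obtain ⟨f, hf, hf1⟩ := exists_codim (k := k) (D := D) hn
  haveI : Infinite k := NontriviallyNormedField.infinite k
  obtain ⟨c, hc, hcd⟩ := exists_unit hf (rep k n D).toLinearMap (e := 1) (map_one (rep k n D))
  have hm : 0 < dm k n D := by
    haveI : Nonempty n := Fintype.card_pos_iff.1 (by omega)
    exact Module.finrank_pos
  obtain ⟨δ, hδ, h1⟩ := exists_small hm hcd
  refine Subgroup.isOpen_of_mem_nhds _ (g := 1) ?_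
  have h2 : Tendsto (fun g : KN k n D => g.1.1) (𝓝 1) (𝓝 1) :=
    (isClosedEmbedding_KN k n D).continuous.tendsto 1
  refine mem_of_superset (h2.eventually (near_one (hf1 c hc) hδ)) fun g hg => ?_
  obtain ⟨s, hs, t, ht, hg⟩ := hg
  have h3 : nmk k n D g.1.1 = 1 := g.2
  have h4 : nmk k n D s.1 = 1 := SLD_le_KN k n D hn hs
  rw [hg, nmk_mul, h4, one_mul, nmk, map_add, map_one, map_smul] at h3
  have h5 := h1 t ht h3
  rw [h5, zero_smul, add_zero, mul_one] at hg
  have h6 : g.1 = s := Units.ext hg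
  show g.1 ∈ SLD n D
  rw [h6]
  exact hs

/-- **`SL_n(D)` is closed in the matrices.** -/
theorem isClosedEmbedding_SLD (k : Type*) [NontriviallyNormedField k] [ProperSpace k]
    [NormedAlgebra k D] [FiniteDimensional k D] [Algebra.IsCentral k D]
    (hn : 2 ≤ Fintype.card n) : IsClosedEmbedding fun g : SLD n D => g.1.1 := by
  have h1 : IsClosed (((SLD n D).subgroupOf (KN k n D) : Subgroup (KN k n D)) :
      Set (KN k n D)) := Subgroup.isClosed_of_isOpen _ (isOpen_SLD hn)
  set ι : SLD n D → KN k n D := fun g => ⟨g.1, SLD_le_KN k n D hn g.2⟩ with hι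
  have h2 : IsClosedEmbedding ι := by
    refine ⟨⟨?_, fun a b h => Subtype.ext (congrArg (fun x : KN k n D => x.1) h)⟩, ?_⟩
    · refine IsInducing.of_comp (g := (Subtype.val : KN k n D → (Matrix n n D)ˣ)) ?_
        continuous_subtype_val IsInducing.subtypeVal
      exact continuous_subtype_val.subtype_mk _
    · have e : Set.range ι = (((SLD n D).subgroupOf (KN k n D) : Subgroup (KN k n D)) :
          Set (KN k n D)) := by
        ext g
        constructor
        · rintro ⟨s, rfl⟩
          exact s.2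
        · intro hg
          exact ⟨⟨g.1, hg⟩, rfl⟩
      rw [e]
      exact h1
  exact (isClosedEmbedding_KN k n D).comp h2

end closed

end Vale.Agent.P092.H465.DA
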