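import Vale.Agent.P092.H465.DA5
import Vale.Agent.P092.H15.HMAbs

/-!
P092 (helper465), row CLASS-D, part 6: the group form `HMG` of the Howe–Moore property for `SL_n(D)`.
-/

set_option linter.all false

open Matrix Topology Filter

namespace Vale.Agent.P092.H465.DA

open Vale.Agent.P092.H933 (Len)
open Vale.Agent.P092.H15 (HMG Ctr)

variable {n D : Type*} [Fintype n] [DecidableEq n] [NormedDivisionRing D]

/-- the transvection as an element of `SL_n(D)` -/
def ts {u φ : n → D} (h : φ ⬝ᵥ u = 0) : SLD n D := ⟨tv h, tv_mem h⟩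

theorem ts_val {u φ : n → D} (h : φ ⬝ᵥ u = 0) : (ts h).1.1 = tm u φ := rfl

/-- `f` vanishes on the root group `u D φ` -/
def Zr (f : SLD n D → ℝ) (u φ : n → D) : Prop :=
  ∀ h : φ ⬝ᵥ u = 0, ∀ c : D, f (ts (pair_smul h c)) = 0

theorem exists_two {α : Type*} [AddGroup α] {F G : α → D} (hF : ∀ x y, F (x + y) = F x + F y)
    (hG : ∀ x y, G (x + y) = G x + G y) {x y : α} (hx : F x ≠ 0) (hy : G y ≠ 0) :
    ∃ z, (z = x ∨ z = y ∨ z = x + y) ∧ F z ≠ 0 ∧ G z ≠ 0 := by
  by_cases h1 : G x = 0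
  · by_cases h2 : F y = 0
    · exact ⟨x + y, by simp, by rw [hF, h2, add_zero]; exact hx, by rw [hG, h1, zero_add]; exact hy⟩
    · exact ⟨y, by simp, h2, hy⟩
  · exact ⟨x, by simp, hx, h1⟩

theorem tendsto_tm {α : Type*} {l : Filter α} {u φ : α → n → D} {u₀ φ₀ : n → D}
    (hu : Tendsto u l (𝓝 u₀)) (hφ : Tendsto φ l (𝓝 φ₀)) :
    Tendsto (fun a => tm (u a) (φ a)) l (𝓝 (tm u₀ φ₀)) := by
  refine tendsto_pi_nhds.2 fun i => tendsto_pi_nhds.2 fun j => ?_
  exact (tendsto_const_nhds (x := (1 : Matrix n n D) i j)).add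
    ((tendsto_pi_nhds.1 hu i).mul (tendsto_pi_nhds.1 hφ j))

section loc

variable (k : Type*) [NontriviallyNormedField k] [ProperSpace k] [NormedAlgebra k D]
  [FiniteDimensional k D] [Algebra.IsCentral k D]

include k

theorem tendsto_iff (hn : 2 ≤ Fintype.card n) {α : Type*} {l : Filter α} {g : α → SLD n D}
    {x : SLD n D} : Tendsto g l (𝓝 x) ↔ Tendsto (fun a => (g a).1.1) l (𝓝 x.1.1) :=
  (isClosedEmbedding_SLD k hn).isInducing.tendsto_nhds_iff

theorem tendsto_ts (hn : 2 ≤ Fintype.card n) {α : Type*} {l : Filter α} {u φ : α → n → D}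
    {u₀ φ₀ : n → D} (h : ∀ a, φ a ⬝ᵥ u a = 0) (h₀ : φ₀ ⬝ᵥ u₀ = 0)
    (hu : Tendsto u l (𝓝 u₀)) (hφ : Tendsto φ l (𝓝 φ₀)) :
    Tendsto (fun a => ts (h a)) l (𝓝 (ts h₀)) :=
  (tendsto_iff k hn).2 (tendsto_tm hu hφ)

/-- `SL_2(k) → SL_n(D)` is continuous -/
theorem DP.continuous_sl (hn : 2 ≤ Fintype.card n) {u φ w ψ : n → D} (hp : DP u φ w ψ) :
    Continuous ((hp.sl k).codRestrict (SLD n D) hp.sl_mem) := by
  rw [(isClosedEmbedding_SLD (n := n) (D := D) k hn).isInducing.continuous_iff]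
  have e : ((fun g : SLD n D => g.1.1) ∘ ((hp.sl k).codRestrict (SLD n D) hp.sl_mem)) =
      fun g : SpecialLinearGroup (Fin 2) k =>
        1 + DP.B u w * (g.1.map (algebraMap k D) - 1) * DP.B' φ ψ := rfl
  rw [e]
  have h1 : Continuous fun g : SpecialLinearGroup (Fin 2) k => g.1.map (algebraMap k D) :=
    continuous_subtype_val.matrix_map (continuous_algebraMap k D)
  have h2 : Continuous fun g : SpecialLinearGroup (Fin 2) k =>
      DP.B u w * (g.1.map (algebraMap k D) - 1) :=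
    continuous_const.matrix_mul (h1.sub continuous_const)
  exact continuous_const.add (h2.matrix_mul continuous_const)

/-- **Mautner**: from one root group of a dual pair to the other -/
theorem Zr.opp (hn : 2 ≤ Fintype.card n) {f : SLD n D → ℝ} (hf : Len f) {u φ w ψ : n → D}
    (hp : DP w ψ u φ) (h : Zr f u φ) : Zr f w ψ := by
  have h1 : Len fun g : SpecialLinearGroup (Fin 2) k =>
      f ((hp.sl k).codRestrict (SLD n D) hp.sl_mem g) :=
    hf.comap _ (hp.continuous_sl k hn).continuousAt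
  have h2 : h1.ker = ⊤ := by
    refine h1.eq_top (Ne.symm zero_ne_one2) fun s => ?_
    rw [Len.mem_ker]
    have e : (hp.sl k).codRestrict (SLD n D) hp.sl_mem
        (SpecialLinearGroup.transvection (Ne.symm zero_ne_one2) s) =
        ts (pair_smul hp.b (algebraMap k D s)) := by
      refine Subtype.ext (Units.ext ?_)
      exact slE_transvection _ _ hp.h (Ne.symm zero_ne_one2) s
    rw [e]
    exact h hp.b _
  have hdg : ∀ (r : k) (hr : r ≠ 0), (⟨hp.dg r hr, hp.dg_mem r hr⟩ : SLD n D) ∈ hf.ker := by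
    intro r hr
    have h3 : SpecialLinearGroup.diag2n zero_ne_one2 r hr ∈ h1.ker := by rw [h2]; trivial
    exact h3
  obtain ⟨r, hr0, hr1⟩ := NormedField.exists_norm_lt_one k
  have hrne : r ≠ 0 := norm_pos_iff.1 hr0
  intro h4 c
  refine hf.mem_of_contract (d := fun N => ⟨hp.dg (r ^ N) (pow_ne_zero N hrne), hp.dg_mem _ _⟩)
    (fun N => hdg _ _) ?_
  rw [tendsto_iff k hn]
  have e : ∀ N : ℕ, ((⟨hp.dg (r ^ N) (pow_ne_zero N hrne), hp.dg_mem _ _⟩ : SLD n D) *
      ts (pair_smul h4 c) * (⟨hp.dg (r ^ N) (pow_ne_zero N hrne), hp.dg_mem _ _⟩ : SLD n D)⁻¹).1.1 =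
      tm (MulOpposite.op ((r ^ N) ^ 2 • c) • w) ψ := fun N =>
    congrArg Units.val (hp.conj_root (r ^ N) (pow_ne_zero N hrne) c)
  simp only [e]
  have h5 : Tendsto (fun N : ℕ => (MulOpposite.op ((r ^ N) ^ 2 • c) • w : n → D)) atTop (𝓝 0) := by
    have h6 : Tendsto (fun N : ℕ => (r ^ N) ^ 2 • c) atTop (𝓝 0) := by
      have h7 := (tendsto_pow_atTop_nhds_zero_of_norm_lt_one hr1).pow 2
      rw [zero_pow two_ne_zero] at h7
      have := h7.smul_const c
      rwa [zero_smul] at this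
    rw [tendsto_pi_nhds]
    intro i
    have := h6.const_mul (w i)
    rw [mul_zero] at this
    exact this
  have h9 := tendsto_tm h5 (tendsto_const_nhds (x := ψ))
  rw [show tm (0 : n → D) ψ = 1 from tm_zero_left ψ] at h9
  exact h9

/-- opposite pairs -/
theorem Zr.opp' (hn : 2 ≤ Fintype.card n) {f : SLD n D → ℝ} (hf : Len f) {u φ w ψ : n → D}
    (h1 : φ ⬝ᵥ u = 0) (h2 : ψ ⬝ᵥ w = 0) (h3 : φ ⬝ᵥ w ≠ 0) (h4 : ψ ⬝ᵥ u ≠ 0) (h : Zr f u φ) :
    Zr f w ψ := by
  set a := φ ⬝ᵥ w with ha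
  set b := ψ ⬝ᵥ u with hb
  have hp : DP (MulOpposite.op a⁻¹ • w) (b⁻¹ • ψ) u φ := by
    refine ⟨?_, h1, ?_, ?_⟩
    · rw [dotProduct_smul, op_smul_eq_mul, ← ha, mul_inv_cancel₀ h3]
    · rw [dotProduct_smul, smul_dotProduct, h2, smul_zero, smul_zero]
    · rw [smul_dotProduct, ← hb, smul_eq_mul, inv_mul_cancel₀ h4]
  have h5 := h.opp k hn hf hp
  intro h6 c
  have h7 := h5 hp.c (a * c * b)
  have e : ts (pair_smul hp.c (a * c * b)) = ts (pair_smul h6 c) := by
    refine Subtype.ext (Units.ext ?_)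
    show tm (MulOpposite.op (a * c * b) • MulOpposite.op a⁻¹ • w) (b⁻¹ • ψ) =
      tm (MulOpposite.op c • w) ψ
    rw [tm, tm, vecMulVec_smul', smul_smul, smul_smul, ← MulOpposite.op_mul, ← MulOpposite.op_mul]
    congr 4
    rw [← mul_assoc, ← mul_assoc, mul_inv_cancel_right₀ h4, inv_mul_cancel_left₀ h3]
  rwa [e] at h7

/-- **one root group is enough** -/
theorem Zr.all (hn : 2 ≤ Fintype.card n) {f : SLD n D → ℝ} (hf : Len f) {u φ : n → D}
    (hu : u ≠ 0) (hφ : φ ≠ 0) (h0 : φ ⬝ᵥ u = 0) (h : Zr f u φ) (g : SLD n D) : f g = 0 := by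
  have key : ∀ (x χ : n → D) (h : χ ⬝ᵥ x = 0), f (ts h) = 0 := by
    intro x χ hx
    by_cases hx0 : x = 0
    · subst hx0
      have e : ts hx = 1 := Subtype.ext (Units.ext (tm_zero_left χ))
      rw [e, hf.one]
    by_cases hχ0 : χ = 0
    · subst hχ0
      have e : ts hx = 1 := Subtype.ext (Units.ext (tm_zero_right x))
      rw [e, hf.one]
    have ex : ∀ φ : n → D, φ ≠ 0 → ∃ w : n → D, φ ⬝ᵥ w ≠ 0 := by
      intro φ hφ
      by_contra hcon
      push Not at hcon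
      apply hφ
      funext i
      have := hcon (Pi.single i 1)
      rwa [dotProduct_single, mul_one] at this
    obtain ⟨w₁, hw₁⟩ := ex φ hφ
    obtain ⟨w₂, hw₂⟩ := ex χ hχ0
    obtain ⟨w, -, hw1, hw2⟩ := exists_two (F := fun w => φ ⬝ᵥ w) (G := fun w => χ ⬝ᵥ w)
      (fun x y => dotProduct_add _ _ _) (fun x y => dotProduct_add _ _ _) hw₁ hw₂
    have nl : ∀ {v θ : n → D}, v ≠ 0 → θ ⬝ᵥ v = 0 → θ ⬝ᵥ w ≠ 0 → v ∉ ln w := by
      intro v θ hv h1 h2 h3
      obtain ⟨c, rfl⟩ := mem_ln.1 h3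
      rw [dotProduct_smul, op_smul_eq_mul] at h1
      rcases mul_eq_zero.1 h1 with h4 | h4
      · exact h2 h4
      · rw [h4, MulOpposite.op_zero, zero_smul] at hv
        exact hv rfl
    obtain ⟨ψ₁, ha1, hb1⟩ := exists_pair (nl hu h0 hw1)
    obtain ⟨ψ₂, ha2, hb2⟩ := exists_pair (nl hx0 hx hw2)
    obtain ⟨ψ, hψ, hψ1, hψ2⟩ := exists_two (F := fun ψ => ψ ⬝ᵥ u) (G := fun ψ => ψ ⬝ᵥ x)
      (x := ψ₁) (y := ψ₂)
      (fun x y => add_dotProduct _ _ _) (fun x y => add_dotProduct _ _ _)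
      (by simp only [hb1]; exact one_ne_zero) (by simp only [hb2]; exact one_ne_zero)
    have hψw : ψ ⬝ᵥ w = 0 := by
      rcases hψ with rfl | rfl | rfl
      · exact ha1
      · exact ha2
      · rw [add_dotProduct, ha1, ha2, add_zero]
    have h1 : Zr f w ψ := h.opp' k hn hf h0 hψw hw1 hψ1
    have h2 : Zr f x χ := h1.opp' k hn hf hψw hx hψ2 hw2
    have h3 := h2 hx 1
    have e : ts (pair_smul hx (1 : D)) = ts hx := by
      refine Subtype.ext (Units.ext ?_)
      show tm (MulOpposite.op 1 • x) χ = tm x χ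
      rw [MulOpposite.op_one, one_smul]
    rwa [e] at h3
  have h1 : SLD n D ≤ (hf.ker).map (SLD n D).subtype :=
    SLD_le fun u φ h => ⟨ts h, key u φ h, rfl⟩
  obtain ⟨x, hx, hxg⟩ := h1 g.2
  have : x = g := Subtype.ext hxg
  rw [← this]
  exact hx

/-! ### the root group fixed by a limit -/

theorem isCompact_bdd (hn : 2 ≤ Fintype.card n) (R : ℝ) :
    IsCompact {g : SLD n D | ∀ i j, ‖g.1.1 i j‖ ≤ R} := by
  haveI : ProperSpace D := FiniteDimensional.proper k D
  have h1 : IsCompact {M : Matrix n n D | ∀ i j, ‖M i j‖ ≤ R} := by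
    have : {M : Matrix n n D | ∀ i j, ‖M i j‖ ≤ R} =
        Set.pi Set.univ (fun _ : n => Set.pi Set.univ fun _ : n => Metric.closedBall (0 : D) R) := by
      ext f
      constructor
      · intro h i _ j _
        exact mem_closedBall_zero_iff.2 (h i j)
      · intro h i j
        exact mem_closedBall_zero_iff.1 (h i trivial j trivial)
    rw [this]
    exact isCompact_univ_pi fun _ => isCompact_univ_pi fun _ => isCompact_closedBall _ _
  exact (isClosedEmbedding_SLD (n := n) (D := D) k hn).isCompact_preimage h1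

omit k [NontriviallyNormedField k] [ProperSpace k] [NormedAlgebra k D] [FiniteDimensional k D]
  [Algebra.IsCentral k D] in
theorem norm_dot_le (x y : n → D) : ‖x ⬝ᵥ y‖ ≤ Fintype.card n * (‖x‖ * ‖y‖) := by
  rw [dotProduct]
  refine (norm_sum_le _ _).trans ?_
  calc ∑ i, ‖x i * y i‖ ≤ ∑ i : n, ‖x‖ * ‖y‖ := by
        refine Finset.sum_le_sum fun i _ => ?_
        rw [norm_mul]
        exact mul_le_mul (norm_le_pi_norm x i) (norm_le_pi_norm y i) (norm_nonneg _) (norm_nonneg _)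
    _ = _ := by rw [Finset.sum_const, nsmul_eq_mul, Finset.card_univ]

omit k [NontriviallyNormedField k] [ProperSpace k] [NormedAlgebra k D] [FiniteDimensional k D]
  [Algebra.IsCentral k D] in
theorem row_dot_col (g : (Matrix n n D)ˣ) (i j : n) :
    (g⁻¹).1 i ⬝ᵥ (g.1).col j = if i = j then 1 else 0 := by
  have e : (g⁻¹).1 i ⬝ᵥ (g.1).col j = ((g⁻¹).1 * g.1) i j := rfl
  rw [e, Units.inv_mul, one_apply]

/-- a pair of indices with a large product -/
theorem exists_pair_inf (hn : 2 ≤ Fintype.card n) {U : Ultrafilter (SLD n D)}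
    (hU : (U : Filter (SLD n D)) ≤ cocompact (SLD n D)) :
    ∃ i j : n, i ≠ j ∧ Tendsto (fun b : SLD n D => ‖b.1.1.col j‖ * ‖(b.1⁻¹).1 i‖) U atTop := by
  by_contra hcon
  push Not at hcon
  have h1 : ∀ i j : n, i ≠ j → ∃ R : ℝ, ∀ᶠ b : SLD n D in U,
      ‖b.1.1.col j‖ * ‖(b.1⁻¹).1 i‖ ≤ R := by
    intro i j hij
    have h2 := hcon i j hij
    rw [tendsto_atTop] at h2
    push Not at h2
    obtain ⟨R, hR⟩ := h2
    exact ⟨R, hR.mono fun b hb => hb.le⟩
  choose! R hR using h1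
  obtain ⟨R₀, hR0, hR1⟩ : ∃ R₀ : ℝ, 1 ≤ R₀ ∧ ∀ i j, i ≠ j → R i j ≤ R₀ := by
    refine ⟨1 + ∑ i, ∑ j, |R i j|, ?_, fun i j _ => ?_⟩
    · have : 0 ≤ ∑ i, ∑ j, |R i j| := Finset.sum_nonneg fun i _ => Finset.sum_nonneg fun j _ =>
        abs_nonneg _
      linarith
    · have h2 : |R i j| ≤ ∑ j, |R i j| :=
        Finset.single_le_sum (f := fun j => |R i j|) (fun _ _ => abs_nonneg _) (Finset.mem_univ j)
      have h3 : ∑ j, |R i j| ≤ ∑ i, ∑ j, |R i j| :=
        Finset.single_le_sum (f := fun i => ∑ j, |R i j|)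
          (fun _ _ => Finset.sum_nonneg fun j _ => abs_nonneg _) (Finset.mem_univ i)
      have := le_abs_self (R i j)
      linarith
  have h2 : ∀ᶠ b : SLD n D in U, ∀ i j, i ≠ j → ‖b.1.1.col j‖ * ‖(b.1⁻¹).1 i‖ ≤ R₀ := by
    rw [eventually_all]
    intro i
    rw [eventually_all]
    intro j
    by_cases hij : i = j
    · exact Eventually.of_forall fun b h => absurd hij h
    · exact (hR i j hij).mono fun b hb _ => hb.trans (hR1 i j hij)
  set ν : ℝ := ((Fintype.card n : ℕ) : ℝ) with hν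
  have hν1 : 1 ≤ ν := by
    rw [hν]
    exact_mod_cast (by omega : 1 ≤ Fintype.card n)
  have h3 : ∀ g : (Matrix n n D)ˣ, ∀ j, 1 ≤ ν * (‖(g⁻¹).1 j‖ * ‖g.1.col j‖) := by
    intro g j
    have := norm_dot_le ((g⁻¹).1 j) (g.1.col j)
    rwa [row_dot_col, if_pos rfl, norm_one] at this
  -- the inverse tends to `0`
  have h4 : ∀ ε > 0, ∀ᶠ b : SLD n D in U, ∀ i, ‖(b.1⁻¹).1 i‖ ≤ ε := by
    intro ε hε
    set R' : ℝ := max 1 (ν * R₀ ^ 2 / ε) with hR'
    have h5 : ∀ᶠ b : SLD n D in U, b ∉ {g : SLD n D | ∀ i j, ‖g.1.1 i j‖ ≤ R'} :=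
      hU (isCompact_bdd k hn R').compl_mem_cocompact
    filter_upwards [h2, h5] with b hb hb5 i
    push Not at hb5
    obtain ⟨a, j, hj⟩ := hb5
    have h6 : R' ≤ ‖b.1.1.col j‖ := hj.le.trans (norm_le_pi_norm (b.1.1.col j) a)
    have hR'1 : 1 ≤ R' := le_max_left _ _
    have hR'2 : ν * R₀ ^ 2 / ε ≤ R' := le_max_right _ _
    have hp : 0 < ‖b.1.1.col j‖ := lt_of_lt_of_le one_pos (hR'1.trans h6)
    have h7 : ν * R₀ ^ 2 ≤ ε * R' := by
      rw [div_le_iff₀ hε] at hR'2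
      linarith
    -- rows different from `j`
    have h8 : ∀ l, l ≠ j → R' * ‖(b.1⁻¹).1 l‖ ≤ R₀ := fun l hl =>
      (mul_le_mul_of_nonneg_right h6 (norm_nonneg _)).trans (hb l j hl)
    by_cases hij : i = j
    · subst hij
      obtain ⟨l, hl⟩ := Fintype.exists_ne_of_one_lt_card (by omega : 1 < Fintype.card n) i
      have h9 := h8 l hl
      have h10 := hb i l (Ne.symm hl)
      have h11 := h3 b.1 l
      -- `R' ≤ ν R₀ ‖col l‖`
      have h12 : R' ≤ ν * R₀ * ‖b.1.1.col l‖ := by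
        calc R' = R' * 1 := (mul_one _).symm
          _ ≤ R' * (ν * (‖(b.1⁻¹).1 l‖ * ‖b.1.1.col l‖)) :=
              mul_le_mul_of_nonneg_left h11 (by linarith)
          _ = ν * (R' * ‖(b.1⁻¹).1 l‖) * ‖b.1.1.col l‖ := by ring
          _ ≤ ν * R₀ * ‖b.1.1.col l‖ := by
              refine mul_le_mul_of_nonneg_right ?_ (norm_nonneg _)
              exact mul_le_mul_of_nonneg_left h9 (by linarith)
      have h13 : R' * ‖(b.1⁻¹).1 i‖ ≤ ν * R₀ ^ 2 := by
        calc R' * ‖(b.1⁻¹).1 i‖ ≤ ν * R₀ * ‖b.1.1.col l‖ * ‖(b.1⁻¹).1 i‖ :=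
              mul_le_mul_of_nonneg_right h12 (norm_nonneg _)
          _ = ν * R₀ * (‖b.1.1.col l‖ * ‖(b.1⁻¹).1 i‖) := by ring
          _ ≤ ν * R₀ * R₀ := mul_le_mul_of_nonneg_left h10 (by positivity)
          _ = _ := by ring
      have h14 : R' * ‖(b.1⁻¹).1 i‖ ≤ R' * ε := by linarith
      exact le_of_mul_le_mul_left h14 (by linarith)
    · have h9 := h8 i hij
      have h10 : R₀ ≤ ν * R₀ ^ 2 := by nlinarith
      have h14 : R' * ‖(b.1⁻¹).1 i‖ ≤ R' * ε := by linarith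
      exact le_of_mul_le_mul_left h14 (by linarith)
  have h5 : Tendsto (fun b : SLD n D => (b.1⁻¹).1) U (𝓝 0) := by
    refine tendsto_pi_nhds.2 fun i => ?_
    rw [Metric.tendsto_nhds]
    intro ε hε
    filter_upwards [h4 (ε / 2) (by positivity)] with b hb
    rw [dist_eq_norm]
    have h6 := hb i
    have e : ‖(b.1⁻¹).1 i - (0 : Matrix n n D) i‖ = ‖(b.1⁻¹).1 i‖ := by
      congr 1
      exact sub_zero _
    rw [e]
    linarith
  have h6 := (continuous_nmk k n D).tendsto 0 |>.comp h5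
  have h7 : nmk k n D (0 : Matrix n n D) = 0 := by
    haveI : Nonempty n := Fintype.card_pos_iff.1 (by omega)
    haveI : Nonempty (Fin (dm k n D)) := Fin.pos_iff_nonempty.1 Module.finrank_pos
    rw [nmk, map_zero, det_zero]
  rw [h7] at h6
  have h8 : Tendsto (fun b : SLD n D => (1 : k)) U (𝓝 0) := by
    refine h6.congr fun b => ?_
    exact SLD_le_KN k n D hn (Subgroup.inv_mem _ b.2)
  exact one_ne_zero (tendsto_nhds_unique tendsto_const_nhds h8)

omit k [NontriviallyNormedField k] [ProperSpace k] [NormedAlgebra k D] [FiniteDimensional k D]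
  [Algebra.IsCentral k D] in
theorem conj_ts (b : SLD n D) {u φ : n → D} (h : φ ⬝ᵥ u = 0) :
    (b⁻¹ * ts h * b).1.1 = tm ((b.1⁻¹).1 *ᵥ u) (φ ᵥ* b.1.1) := by
  have e3 := conj_tm (b.1⁻¹) u φ
  rw [inv_inv] at e3
  exact e3

/-- a nonzero vector is scaled into a shell -/
theorem exists_scale {c₀ : k} (hc₀ : 1 < ‖c₀‖) {x : n → D} (hx : x ≠ 0) :
    ∃ d : k, ‖d • x‖ ≤ 1 ∧ ‖c₀‖⁻¹ ≤ ‖d • x‖ := by
  obtain ⟨d, -, h1, h2, -⟩ := rescale_to_shell hc₀ one_pos hx
  exact ⟨d, h1.le, by rwa [one_div] at h2⟩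

/-- **the group form of the Howe–Moore property for `SL_n(D)`** -/
theorem hmg_SLD (hn : 2 ≤ Fintype.card n) : HMG (SLD n D) := by
  intro U hU f hf hc g
  haveI : ProperSpace D := FiniteDimensional.proper k D
  obtain ⟨i, j, hij, hinf⟩ := exists_pair_inf k hn hU
  obtain ⟨c₀, hc₀⟩ := NormedField.exists_one_lt_norm k
  have hcol : ∀ b : SLD n D, b.1.1.col j ≠ 0 := by
    intro b h
    have := row_dot_col b.1 j j
    rw [h, dotProduct_zero, if_pos rfl] at this
    exact zero_ne_one this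
  have hrow : ∀ b : SLD n D, (b.1⁻¹).1 i ≠ 0 := by
    intro b h
    have := row_dot_col b.1 i i
    rw [h, zero_dotProduct, if_pos rfl] at this
    exact zero_ne_one this
  choose d hd1 hd2 using fun b : SLD n D => exists_scale k hc₀ (hcol b)
  choose d' hd1' hd2' using fun b : SLD n D => exists_scale k hc₀ (hrow b)
  set u : SLD n D → n → D := fun b => d b • b.1.1.col j with hu
  set φ : SLD n D → n → D := fun b => d' b • (b.1⁻¹).1 i with hφ
  have hpair : ∀ b, φ b ⬝ᵥ u b = 0 := by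
    intro b
    show (d' b • (b.1⁻¹).1 i) ⬝ᵥ (d b • b.1.1.col j) = 0
    rw [dotProduct_smul, smul_dotProduct, row_dot_col, if_neg hij, smul_zero, smul_zero]
  obtain ⟨u₀, -, hu₀⟩ := (isCompact_closedBall (0 : n → D) 1).ultrafilter_le_nhds (U.map u)
    (Filter.tendsto_principal.2 (Filter.Eventually.of_forall fun b =>
      mem_closedBall_zero_iff.2 (hd1 b)))
  have hu₀ : Tendsto u U (𝓝 u₀) := hu₀
  obtain ⟨φ₀, -, hφ₀⟩ := (isCompact_closedBall (0 : n → D) 1).ultrafilter_le_nhds (U.map φ)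
    (Filter.tendsto_principal.2 (Filter.Eventually.of_forall fun b =>
      mem_closedBall_zero_iff.2 (hd1' b)))
  have hφ₀ : Tendsto φ U (𝓝 φ₀) := hφ₀
  have hpos : 0 < ‖c₀‖⁻¹ := inv_pos.2 (by linarith)
  have hu0 : u₀ ≠ 0 := by
    rintro rfl
    have := ge_of_tendsto' hu₀.norm hd2
    rw [norm_zero] at this
    linarith
  have hφ0 : φ₀ ≠ 0 := by
    rintro rfl
    have := ge_of_tendsto' hφ₀.norm hd2'
    rw [norm_zero] at this
    linarith
  have hdot : Continuous fun p : (n → D) × (n → D) => p.1 ⬝ᵥ p.2 :=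
    continuous_fst.dotProduct continuous_snd
  have h0 : φ₀ ⬝ᵥ u₀ = 0 := by
    have h1 := (hdot.tendsto (φ₀, u₀)).comp (hφ₀.prodMk_nhds hu₀)
    refine tendsto_nhds_unique h1 (tendsto_const_nhds.congr fun b => ?_)
    exact (hpair b).symm
  refine Zr.all k hn hf hu0 hφ0 h0 ?_ g
  intro h c
  refine hc _ ⟨fun b => ts (pair_smul (hpair b) c), ?_, ?_⟩
  · have h1 : Tendsto (fun b => (MulOpposite.op c • u b : n → D)) U
        (𝓝 (MulOpposite.op c • u₀)) := hu₀.const_smul _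
    exact tendsto_ts k hn (fun b => pair_smul (hpair b) c) (pair_smul h c) h1 hφ₀
  · rw [tendsto_iff k hn]
    -- the conjugate is `1 + d d' c E_ji`
    have e : ∀ b : SLD n D, (b⁻¹ * ts (pair_smul (hpair b) c) * b).1.1 =
        tm (MulOpposite.op c • (d b • (Pi.single j 1 : n → D))) (d' b • (Pi.single i 1 : n → D)) := by
      intro b
      have e1 : (b.1⁻¹).1 *ᵥ (MulOpposite.op c • u b) =
          MulOpposite.op c • (d b • (Pi.single j 1 : n → D)) := by
        rw [mulVec_smul]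
        congr 1
        show (b.1⁻¹).1 *ᵥ (d b • b.1.1.col j) = _
        rw [mulVec_smul]
        congr 1
        rw [← mulVec_single_one, inv_mulVec_mulVec]
      have e2 : (φ b) ᵥ* b.1.1 = d' b • (Pi.single i 1 : n → D) := by
        show (d' b • (b.1⁻¹).1 i) ᵥ* b.1.1 = _
        rw [smul_vecMul]
        congr 1
        have : (b.1⁻¹).1 i = (Pi.single i 1 : n → D) ᵥ* (b.1⁻¹).1 := by
          rw [single_one_vecMul]
          rfl
        rw [this, vecMul_inv_vecMul]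
      rw [conj_ts, e1, e2]
    simp only [e]
    -- it tends to `1`
    have h1 : Tendsto (fun b : SLD n D => ‖d b‖ * ‖d' b‖) U (𝓝 0) := by
      have h2 := tendsto_inv_atTop_zero.comp hinf
      refine squeeze_zero (fun b => by positivity) (fun b => ?_) h2
      have h3 : 0 < ‖b.1.1.col j‖ := norm_pos_iff.2 (hcol b)
      have h4 : 0 < ‖(b.1⁻¹).1 i‖ := norm_pos_iff.2 (hrow b)
      have h5 := hd1 b
      have h6 := hd1' b
      rw [norm_smul] at h5 h6
      show ‖d b‖ * ‖d' b‖ ≤ (‖b.1.1.col j‖ * ‖(b.1⁻¹).1 i‖)⁻¹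
      rw [mul_inv]
      refine mul_le_mul ?_ ?_ (norm_nonneg _) (by positivity)
      · rwa [← one_div, le_div_iff₀ h3]
      · rwa [← one_div, le_div_iff₀ h4]
    have h2 : Tendsto (fun b : SLD n D => vecMulVec
        (MulOpposite.op c • (d b • (Pi.single j 1 : n → D)))
          (d' b • (Pi.single i 1 : n → D))) U (𝓝 0) := by
      refine tendsto_pi_nhds.2 fun p => tendsto_pi_nhds.2 fun q => ?_
      have h3 : Tendsto (fun b : SLD n D => ‖c‖ * (‖d b‖ * ‖d' b‖)) U (𝓝 0) := by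
        have := h1.const_mul ‖c‖
        rwa [mul_zero] at this
      show Tendsto _ _ (𝓝 (0 : D))
      refine squeeze_zero_norm (fun b => ?_) h3
      rw [vecMulVec_apply, norm_mul]
      have h4 : ‖(MulOpposite.op c • (d b • (Pi.single j 1 : n → D))) p‖ ≤ ‖c‖ * ‖d b‖ := by
        rw [op_smul_eq, norm_mul, Pi.smul_apply, norm_smul]
        have : ‖(Pi.single j (1 : D) : n → D) p‖ ≤ 1 := by
          by_cases hp : p = j
          · subst hp; rw [Pi.single_eq_same, norm_one]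
          · rw [Pi.single_eq_of_ne hp, norm_zero]; exact zero_le_one
        calc ‖d b‖ * ‖(Pi.single j (1 : D) : n → D) p‖ * ‖c‖ ≤ ‖d b‖ * 1 * ‖c‖ := by gcongr
          _ = _ := by ring
      have h5 : ‖(d' b • (Pi.single i 1 : n → D)) q‖ ≤ ‖d' b‖ := by
        rw [Pi.smul_apply, norm_smul]
        have : ‖(Pi.single i (1 : D) : n → D) q‖ ≤ 1 := by
          by_cases hp : q = i
          · subst hp; rw [Pi.single_eq_same, norm_one]
          · rw [Pi.single_eq_of_ne hp, norm_zero]; exact zero_le_one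
        calc ‖d' b‖ * ‖(Pi.single i (1 : D) : n → D) q‖ ≤ ‖d' b‖ * 1 := by gcongr
          _ = _ := mul_one _
      calc _ ≤ ‖c‖ * ‖d b‖ * ‖d' b‖ := mul_le_mul h4 h5 (norm_nonneg _) (by positivity)
        _ = _ := by ring
    have h3 := h2.const_add (1 : Matrix n n D)
    rw [add_zero] at h3
    exact h3

end loc

end Vale.Agent.P092.H465.DA
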