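import Vale.Agent.P092.H465.DA6
import Vale.Agent.P092.H714.Cl5
import Vale.Agent.P092.PA.FacInst

/-!
P092 (helper465), row CLASS-D, part 7: the facts on the factor `SL_n(D)` modulo its centre.
-/

set_option linter.all false

open Matrix Topology Filter

namespace Vale.Agent.P092.H465.DA

open Vale.Agent.P092.H259 (Cf PQ pq)
open Vale.Agent.P092.H933 (Len)
open Vale.Agent.P092.H15 (HMG)

section alg

variable {n D : Type*} [Fintype n] [DecidableEq n] [DivisionRing D]

/-- an element preserving all lines is central -/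
theorem mem_center_of (hn : 2 ≤ Fintype.card n) {z : SLD n D} (h : ∀ u, z.1.1 *ᵥ u ∈ ln u) :
    z ∈ Subgroup.center (SLD n D) := by
  obtain ⟨c, hc, hz⟩ := scalar_of hn h
  refine Subgroup.mem_center_iff.2 fun g => ?_
  refine Subtype.ext (Units.ext ?_)
  show g.1.1 * z.1.1 = z.1.1 * g.1.1
  rw [hz]
  ext i j
  rw [mul_diagonal, diagonal_mul, hc]

theorem line_of_center (hn : 2 ≤ Fintype.card n) {z : SLD n D}
    (hz : z ∈ Subgroup.center (SLD n D)) (u : n → D) : z.1.1 *ᵥ u ∈ ln u := by
  by_cases hu : u = 0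
  · subst hu
    rw [mulVec_zero]
    exact Submodule.zero_mem _
  obtain ⟨φ, hφ, h⟩ := exists_ker hn u
  refine mem_ln_of_comm h hφ ?_
  have h1 := Subgroup.mem_center_iff.1 hz ⟨tv h, tv_mem h⟩
  exact (congrArg Subtype.val h1).symm

end alg

section loc

variable (k : Type*) [NontriviallyNormedField k] [ProperSpace k]
variable {n D : Type*} [Fintype n] [DecidableEq n] [NormedDivisionRing D] [NormedAlgebra k D]
  [FiniteDimensional k D]

theorem dm_pos (hn : 2 ≤ Fintype.card n) : 0 < dm k n D := by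
  haveI : Nonempty n := Fintype.card_pos_iff.1 (by omega)
  exact Module.finrank_pos

/-- the central elements are scalars `a` with `a ^ dm = 1` -/
theorem center_scalar [Algebra.IsCentral k D] (hn : 2 ≤ Fintype.card n) {z : SLD n D}
    (hz : z ∈ Subgroup.center (SLD n D)) :
    ∃ a : k, a ^ dm k n D = 1 ∧ z.1.1 = algebraMap k (Matrix n n D) a := by
  obtain ⟨c, hc, hzc⟩ := scalar_of hn (line_of_center hn hz)
  have h1 : c ∈ Subalgebra.center k D := Subalgebra.mem_center_iff.2 fun d => (hc d).symm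
  have h2 : c ∈ (⊥ : Subalgebra k D) := Algebra.IsCentral.out h1
  obtain ⟨a, ha⟩ := Algebra.mem_bot.1 h2
  have e : z.1.1 = algebraMap k (Matrix n n D) a := by
    rw [hzc, Matrix.algebraMap_eq_diagonal]
    congr 1
    funext i
    rw [Pi.algebraMap_apply, ha]
  refine ⟨a, ?_, e⟩
  have h3 : nmk k n D z.1.1 = 1 := SLD_le_KN k n D hn z.2
  rw [nmk, e, AlgHom.commutes, Matrix.algebraMap_eq_diagonal, det_diagonal] at h3
  simpa using h3

/-- the centre is finite -/
theorem finite_center [Algebra.IsCentral k D] (hn : 2 ≤ Fintype.card n) :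
    Finite (Subgroup.center (SLD n D)) := by
  classical
  have hm := dm_pos (D := D) k hn
  choose a ha1 ha2 using fun z : Subgroup.center (SLD n D) => center_scalar k hn z.2
  have hfin : {x : k | x ^ dm k n D = 1}.Finite := by
    refine (Polynomial.nthRoots (dm k n D) (1 : k)).toFinset.finite_toSet.subset fun x hx => ?_
    rw [Finset.mem_coe, Multiset.mem_toFinset, Polynomial.mem_nthRoots hm]
    exact hx
  haveI := hfin.to_subtype
  refine Finite.of_injective (fun z => (⟨a z, ha1 z⟩ : {x : k | x ^ dm k n D = 1})) ?_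
  intro z z' h
  have h1 : a z = a z' := congrArg Subtype.val h
  refine Subtype.ext (Subtype.ext (Units.ext ?_))
  rw [ha2, ha2, h1]

theorem center_norm [Algebra.IsCentral k D] (hn : 2 ≤ Fintype.card n) {z : SLD n D}
    (hz : z ∈ Subgroup.center (SLD n D)) :
    ∃ a : k, ‖a‖ = 1 ∧ ∀ x, z.1.1 *ᵥ x = a • x := by
  obtain ⟨a, h1, h2⟩ := center_scalar k hn hz
  refine ⟨a, ?_, fun x => ?_⟩
  · have h3 : ‖a‖ ^ dm k n D = 1 := by rw [← norm_pow, h1, norm_one]
    exact (pow_eq_one_iff_of_nonneg (norm_nonneg a) (dm_pos (D := D) k hn).ne').1 h3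
  · rw [h2, Algebra.algebraMap_eq_smul_one, smul_mulVec, one_mulVec]

variable [Algebra.IsCentral k D]

include k

/-- an element with an open centraliser is central -/
theorem cent (hn : 2 ≤ Fintype.card n) (g : SLD n D)
    (h : ((Subgroup.centralizer {g} : Subgroup (SLD n D)) : Set (SLD n D)) ∈ 𝓝 1) :
    g ∈ Subgroup.center (SLD n D) := by
  refine mem_center_of hn fun u => ?_
  by_cases hu : u = 0
  · subst hu
    rw [mulVec_zero]
    exact Submodule.zero_mem _
  obtain ⟨φ, hφ, h0⟩ := exists_ker hn u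
  obtain ⟨r, hr0, hr1⟩ := NormedField.exists_norm_lt_one k
  have hr : r ≠ 0 := norm_pos_iff.1 hr0
  have hN : ∀ N : ℕ, (r ^ N • φ) ⬝ᵥ u = 0 := fun N => by rw [smul_dotProduct, h0, smul_zero]
  have h1 : Tendsto (fun N : ℕ => r ^ N • φ) atTop (𝓝 0) := by
    have := (tendsto_pow_atTop_nhds_zero_of_norm_lt_one hr1).smul_const φ
    rwa [zero_smul] at this
  have h2 := tendsto_ts k hn hN (zero_dotProduct u) tendsto_const_nhds h1
  have h3 : ts (zero_dotProduct u) = (1 : SLD n D) := Subtype.ext (Units.ext (tm_zero_right u))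
  rw [h3] at h2
  obtain ⟨N, hNN⟩ := (h2.eventually h).exists
  have h4 := Subgroup.mem_centralizer_iff.1 hNN g rfl
  exact mem_ln_of_comm (hN N) (smul_ne_zero (pow_ne_zero N hr) hφ) (congrArg Subtype.val h4)

theorem continuous_coe (hn : 2 ≤ Fintype.card n) : Continuous fun g : SLD n D => g.1.1 :=
  (isClosedEmbedding_SLD k hn).continuous

/-- `SL_n(D)` is not compact -/
theorem nc (hn : 2 ≤ Fintype.card n) : ¬ CompactSpace (SLD n D) := by
  intro hcomp
  obtain ⟨i, j, hij⟩ := Fintype.one_lt_card_iff.1 (by omega : 1 < Fintype.card n)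
  have hc : Continuous fun g : SLD n D => ‖g.1.1 i j‖ :=
    ((continuous_coe k hn).matrix_elem i j).norm
  obtain ⟨C, hC⟩ := (isCompact_range hc).bddAbove
  obtain ⟨r, hr⟩ := NormedField.exists_lt_norm k C
  have h0 : (r • (Pi.single j 1 : n → D)) ⬝ᵥ (Pi.single i 1 : n → D) = 0 := by
    rw [dotProduct_single_one, Pi.smul_apply, Pi.single_eq_of_ne hij, smul_zero]
  have h1 := hC ⟨ts h0, rfl⟩
  have e : (ts h0).1.1 i j = r • (1 : D) := by
    rw [ts_val, tm, Matrix.add_apply, Matrix.one_apply_ne hij, vecMulVec_apply, Pi.smul_apply,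
      Pi.single_eq_same, Pi.single_eq_same, zero_add, one_mul]
  simp only [e] at h1
  rw [norm_smul, norm_one, mul_one] at h1
  linarith

end loc

section fac

variable (k : Type) [NontriviallyNormedField k] [ProperSpace k]
variable {n D : Type} [Fintype n] [DecidableEq n] [NormedDivisionRing D] [NormedAlgebra k D]
  [FiniteDimensional k D] [Algebra.IsCentral k D]

include k

/-- Recurrence. -/
theorem recu (hn : 2 ≤ Fintype.card n) : PA.Rec (PQ (SLD n D)) := by
  refine H714.Cl.rec_pq fun z hz => ?_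
  obtain ⟨u, hu⟩ : ∃ u, z.1.1 *ᵥ u ∉ ln u := by
    by_contra hcon
    push Not at hcon
    exact hz (mem_center_of hn hcon)
  have hu0 : u ≠ 0 := by
    rintro rfl
    rw [mulVec_zero] at hu
    exact hu (Submodule.zero_mem _)
  obtain ⟨φ, h0, h1⟩ := exists_pair hu
  have hφ : φ ≠ 0 := by
    rintro rfl
    rw [zero_dotProduct] at h1
    exact zero_ne_one h1
  obtain ⟨w, ψ, hp⟩ := exists_dp hn hu0 hφ h0
  obtain ⟨r, hr0, hr1⟩ := NormedField.exists_norm_lt_one k
  have hr : r ≠ 0 := norm_pos_iff.1 hr0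
  have hinv : (((hp.dg r hr)⁻¹).1 : Matrix n n D) *ᵥ u = r⁻¹ • u := by
    rw [hp.dg_inv, hp.dg_mulVec, hp.a, hp.c, MulOpposite.op_zero, zero_smul, smul_zero, add_zero,
      MulOpposite.op_one, one_smul, sub_smul, one_smul]
    abel
  have hφd : ∀ x : n → D, φ ⬝ᵥ ((hp.dg r hr).1 *ᵥ x) = r⁻¹ • (φ ⬝ᵥ x) := by
    intro x
    rw [hp.dg_mulVec, dotProduct_add, dotProduct_add, dotProduct_smul, dotProduct_smul,
      dotProduct_smul, dotProduct_smul, hp.c, hp.d, smul_zero, smul_zero, add_zero, op_smul_eq_mul,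
      one_mul, sub_smul, one_smul]
    abel
  refine ⟨fun g => ‖φ ⬝ᵥ (g.1.1 *ᵥ u)‖, ⟨hp.dg r hr, hp.dg_mem r hr⟩, ‖r⁻¹‖ * ‖r⁻¹‖, ?_, ?_, ?_, ?_,
    ?_⟩
  · have h2 : Continuous fun g : SLD n D => g.1.1 *ᵥ u :=
      (continuous_coe k hn).matrix_mulVec continuous_const
    exact (continuous_const.dotProduct h2).norm
  · have h2 : 1 < ‖r⁻¹‖ := by
      rw [norm_inv]
      exact (one_lt_inv₀ hr0).2 hr1
    nlinarith
  · intro g
    show ‖φ ⬝ᵥ (((hp.dg r hr).1 * g.1.1 * ((hp.dg r hr)⁻¹).1) *ᵥ u)‖ = _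
    rw [← mulVec_mulVec, hinv, ← mulVec_mulVec, hφd, mulVec_smul, dotProduct_smul, norm_smul,
      norm_smul, mul_assoc]
  · intro g c hc
    obtain ⟨a, ha1, ha⟩ := center_norm k hn hc
    show ‖φ ⬝ᵥ ((g.1.1 * c.1.1) *ᵥ u)‖ = _
    rw [← mulVec_mulVec, ha, mulVec_smul, dotProduct_smul, norm_smul, ha1, one_mul]
  · show 0 < ‖φ ⬝ᵥ (z.1.1 *ᵥ u)‖
    rw [h1, norm_one]
    exact one_pos

/-- `SL_n(D)` is locally compact -/
theorem lc_SLD (hn : 2 ≤ Fintype.card n) : LocallyCompactSpace (SLD n D) := by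
  haveI : ProperSpace D := FiniteDimensional.proper k D
  haveI : LocallyCompactSpace (Matrix n n D) := inferInstanceAs (LocallyCompactSpace (n → n → D))
  exact (isClosedEmbedding_SLD (n := n) (D := D) k hn).locallyCompactSpace

theorem sc_SLD (hn : 2 ≤ Fintype.card n) : SecondCountableTopology (SLD n D) := by
  haveI : ProperSpace D := FiniteDimensional.proper k D
  haveI : SecondCountableTopology D := secondCountable_of_proper
  haveI : SecondCountableTopology (Matrix n n D) :=
    inferInstanceAs (SecondCountableTopology (n → n → D))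
  exact (isClosedEmbedding_SLD (n := n) (D := D) k hn).isEmbedding.secondCountableTopology

theorem t2_SLD (hn : 2 ≤ Fintype.card n) : T2Space (SLD n D) :=
  (isClosedEmbedding_SLD (n := n) (D := D) k hn).isEmbedding.t2Space

/-- **the facts on the factor `SL_n(D)` modulo its centre** -/
theorem facS_SLD (hn : 2 ≤ Fintype.card n) : PA.FacS (PQ (SLD n D)) := by
  haveI := finite_center (D := D) k hn
  have hf : ((Subgroup.center (SLD n D) : Subgroup (SLD n D)) : Set (SLD n D)).Finite :=
    Set.toFinite _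
  haveI := t2_SLD (D := D) k hn
  haveI := lc_SLD (D := D) k hn
  haveI := sc_SLD (D := D) k hn
  haveI hcl : IsClosed ((Subgroup.center (SLD n D) : Subgroup (SLD n D)) : Set (SLD n D)) :=
    hf.isClosed
  have hsimple : ∀ N : Subgroup (SLD n D), N.Normal → N ≤ Subgroup.center (SLD n D) ∨ N = ⊤ := by
    intro N hN
    by_cases h : N ≤ Subgroup.center (SLD n D)
    · exact Or.inl h
    · obtain ⟨z, hz, hzc⟩ := SetLike.not_le_iff_exists.1 h
      obtain ⟨u, hu⟩ : ∃ u, z.1.1 *ᵥ u ∉ ln u := by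
        by_contra hcon
        push Not at hcon
        exact hzc (mem_center_of hn hcon)
      exact Or.inr (normal_eq_top hn k (exists_sq_ne k) hN hz hu)
  exact
  { top := inferInstance
    lc := inferInstance
    sc := inferInstance
    t2 := inferInstance
    nc := PA.nc_quot _ hf.isCompact (nc k hn)
    simple := PA.simple_quot hsimple
    cent := PA.cent_quot hf fun g hg => cent k hn g hg
    hom := PA.hom_quot (fun A _ f => hom_eq_one hn k (exists_sq_ne k) f) _
    recu := recu k hn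
    hm := PA.HM.quot (PA.hm_of_howeMoore (HMG.howeMoore (hmg_SLD k hn))) _ }

end fac

end Vale.Agent.P092.H465.DA
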