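import Vale.Agent.P092.H465.DA5
import Vale.Agent.P092.H971.Conn

/-!
P092 (helper465), row CLASS-D, part 8: `SL_n(D)` is closed in `GL_n(D)`, and connected over the
archimedean local fields.
-/

set_option linter.all false

open Matrix Topology Filter

namespace Vale.Agent.P092.H465.DA

section closed

variable (k : Type*) [NontriviallyNormedField k] [ProperSpace k]
variable {n D : Type*} [Fintype n] [DecidableEq n] [NormedDivisionRing D] [NormedAlgebra k D]
  [FiniteDimensional k D]

theorem isClosed_KN : IsClosed (KN k n D : Set (Matrix n n D)ˣ) := by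
  have e : (KN k n D : Set (Matrix n n D)ˣ) = (fun g : (Matrix n n D)ˣ => nmk k n D g.1) ⁻¹' {1} :=
    rfl
  rw [e]
  exact isClosed_singleton.preimage ((continuous_nmk k n D).comp Units.continuous_val)

theorem isClosed_SLD [Algebra.IsCentral k D] (hn : 2 ≤ Fintype.card n) :
    IsClosed (SLD n D : Set (Matrix n n D)ˣ) := by
  have h1 : IsClosed (((SLD n D).subgroupOf (KN k n D) : Subgroup (KN k n D)) :
      Set (KN k n D)) := Subgroup.isClosed_of_isOpen _ (isOpen_SLD hn)
  have h2 := (isClosed_KN k (n := n) (D := D)).isClosedEmbedding_subtypeVal.isClosedMap _ h1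
  have e : (SLD n D : Set (Matrix n n D)ˣ) = Subtype.val ''
      (((SLD n D).subgroupOf (KN k n D) : Subgroup (KN k n D)) : Set (KN k n D)) := by
    ext g
    constructor
    · intro hg
      exact ⟨⟨g, SLD_le_KN k n D hn hg⟩, hg, rfl⟩
    · rintro ⟨s, hs, rfl⟩
      exact hs
  rw [e]
  exact h2

end closed

section conn

variable {k : Type*} [NontriviallyNormedField k]
variable {n D : Type*} [Fintype n] [DecidableEq n] [NormedDivisionRing D] [NormedAlgebra k D]

/-- **`SL_n(D)` is connected** over `ℝ` and `ℂ`. -/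
theorem preconnected_SLD {ι : ℝ →+* k} (hι : Continuous ι) : PreconnectedSpace (SLD n D) := by
  refine H971.preconnected_closure ?_
  rintro g ⟨u, φ, h, hg⟩
  have h' : ∀ t : ℝ, (ι t • φ) ⬝ᵥ u = 0 := fun t => by rw [smul_dotProduct, h, smul_zero]
  have hc : Continuous fun t : ℝ => ι t • φ := hι.smul continuous_const
  have hT : ∀ v : n → D, Continuous fun t : ℝ => tm v (ι t • φ) := fun v =>
    continuous_const.add (continuous_const.matrix_vecMulVec hc)
  refine ⟨Set.range fun t : ℝ => tv (h' t), ?_, ⟨0, ?_⟩, ⟨1, ?_⟩, isPreconnected_range ?_⟩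
  · rintro _ ⟨t, rfl⟩
    exact tv_mem (h' t)
  · refine Units.ext ?_
    show tm u (ι 0 • φ) = 1
    rw [map_zero, zero_smul, tm_zero_right]
  · refine Units.ext ?_
    show tm u (ι 1 • φ) = g.1
    rw [map_one, one_smul, hg]
    rfl
  · rw [Units.continuous_iff]
    exact ⟨hT u, hT (-u)⟩

end conn

end Vale.Agent.P092.H465.DA
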