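import Vale.Agent.P092.H465.DA7
import Vale.Agent.P092.H465.DA8
import Vale.Agent.P092.H821.DTgt2
import Vale.Agent.P092.QC.Final

/-!
P092 (helper465), row CLASS-D: `SL_{m+1}(D)`, `D` a finite-dimensional central division algebra over a
local field, is a factor of rank `m`.
-/

set_option linter.all false

open Matrix Topology Filter

namespace Vale.Agent.P092.H465.DA

open Vale.Agent.P092.H933 (LocK)
open Vale.Agent.P092.H264 (Chn)

/-- **`SL_{m+1}(D)` is a factor of rank `m`.** -/
theorem qf_sld_of {k D : Type} [NontriviallyNormedField k] [ProperSpace k] (hk : LocK k)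
    [NormedDivisionRing D] [NormedAlgebra k D] [FiniteDimensional k D] [Algebra.IsCentral k D]
    {m : ℕ} (hm : 1 ≤ m) (hchn : Chn (SLD (Fin (m + 1)) D) m)
    (htd : IsUltrametricDist k → QC.Td (SLD (Fin (m + 1)) D)) :
    QC.QF (SLD (Fin (m + 1)) D) m := by
  have hn : 2 ≤ Fintype.card (Fin (m + 1)) := by rw [Fintype.card_fin]; omega
  refine ⟨inferInstance, lc_SLD k hn, sc_SLD k hn, t2_SLD k hn, finite_center k hn, facS_SLD k hn,
    hmg_SLD k hn, hchn, H821.tgt_sld k D hk hm (isClosed_SLD k hn), hm, ?_⟩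
  rcases H971.real_or_ultra hk with ⟨ι, hι⟩ | hu
  · exact Or.inl (preconnected_SLD hι)
  · exact Or.inr (htd hu)

end Vale.Agent.P092.H465.DA
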