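import Vale.Agent.P092.H465.DA7
import Vale.Agent.P092.H387.Qt4
import Vale.Agent.P092.H387.Qt5

/-!
P092 (helper465), row CLASS-D: the centre of `SL_n(D)` acts on the rows by scalars.
-/

set_option linter.all false

open Matrix Topology Filter

namespace Vale.Agent.P092.H465.DA

variable (k : Type*) [NontriviallyNormedField k] [ProperSpace k]
variable {n D : Type*} [Fintype n] [DecidableEq n] [NormedDivisionRing D] [NormedAlgebra k D]
  [FiniteDimensional k D] [Algebra.IsCentral k D]

/-- the centre acts on the rows by scalars -/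
theorem row_center (hn : 2 ≤ Fintype.card n) {z : SLD n D} (hz : z ∈ Subgroup.center (SLD n D)) :
    ∃ a : k, a ≠ 0 ∧ ∀ (x : SLD n D) (i : n), (x * z).1.1 i = a • x.1.1 i := by
  obtain ⟨a, h1, h2⟩ := center_scalar k hn hz
  refine ⟨a, ?_, fun x i => ?_⟩
  · rintro rfl
    rw [zero_pow (dm_pos (D := D) k hn).ne'] at h1
    exact zero_ne_one h1
  · show (x.1.1 * z.1.1) i = _
    rw [h2, ← Algebra.commutes, ← Algebra.smul_def]
    rfl

end Vale.Agent.P092.H465.DA
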