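import Vale.Agent.P092.H828.EndCore

/-!
P092 (helper465), project Q, end of the proof for arbitrary local fields: instead of a projection
only a nonzero bounded selfadjoint operator `T` is needed whose translates under the regular
representation `R` annihilate `T`, and whose `V`-conjugates commute with its `R`-conjugates.  Such a
`T` is automatically a multiple of a projection of rank one.
-/

set_option linter.all false

open scoped InnerProductSpace
open Filter Topology ContinuousLinearMap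

namespace Vale.Agent.P092.H465

open Vale.Agent.P092.H828

variable {E : Type*} [NormedAddCommGroup E] [InnerProductSpace ℂ E] [CompleteSpace E]
variable {X Γ : Type*} [Group X] [Group Γ] {R : X → (E →L[ℂ] E)} {ξ : E}

/-- A nonzero selfadjoint operator annihilated by its translates is a multiple of a projection of
rank one. -/
theorem rank_one_op (h : Reg R ξ) {T : E →L[ℂ] E} (hTa : adjoint T = T) (hT0 : T ≠ 0)
    (hTo : ∀ x, x ≠ 1 → T * (R x * T * R x⁻¹) = 0) :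
    ∃ (F : E →L[ℂ] E) (c : ℂ), c ≠ 0 ∧ T = c • F ∧ F * F = F ∧ adjoint F = F ∧ F ≠ 0 := by
  have hU : URep R := h.toURep
  have hTi : ∀ u v, ⟪T u, v⟫_ℂ = ⟪u, T v⟫_ℂ := fun u v => by
    rw [← adjoint_inner_right, hTa]
  have h0 : ∀ x, x ≠ 1 → ∀ v, T (R x (T v)) = 0 := by
    intro x hx v
    have h1 := congrArg (fun S : E →L[ℂ] E => S (R x v)) (hTo x hx)
    have h2 : T (R x (T (R x⁻¹ (R x v)))) = 0 := h1
    rwa [hU.inv_apply] at h2
  obtain ⟨v, hv⟩ : ∃ v, T v ≠ 0 := by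
    by_contra hn
    push Not at hn
    exact hT0 (ContinuousLinearMap.ext fun v => by rw [hn]; rfl)
  have hn : ‖T v‖ ≠ 0 := norm_ne_zero_iff.mpr hv
  obtain ⟨a, ha⟩ : ∃ a : ℂ, a = ((‖T v‖ : ℝ) : ℂ)⁻¹ := ⟨_, rfl⟩
  obtain ⟨ζ, hζ⟩ : ∃ ζ, ζ = a • T v := ⟨_, rfl⟩
  have hζ1 : ‖ζ‖ = 1 := by
    rw [hζ, ha, norm_smul, norm_inv, Complex.norm_real, norm_norm, inv_mul_cancel₀ hn]
  have hζx : ∀ x, x ≠ 1 → T (R x ζ) = 0 := fun x hx => by
    rw [hζ, map_smul, map_smul, h0 x hx, smul_zero]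
  have hw : ∀ x, x ≠ 1 → ⟪ζ, R x ζ⟫_ℂ = 0 := by
    intro x hx
    have h1 : ⟪ζ, R x ζ⟫_ℂ = (starRingEnd ℂ) a * ⟪v, T (R x ζ)⟫_ℂ := by
      rw [← hTi]
      nth_rewrite 1 [hζ]
      rw [inner_smul_left]
    rw [h1, hζx x hx, inner_zero_right, mul_zero]
  -- every value of `T` is a multiple of `ζ`
  have hval : ∀ u, T u = ⟪ζ, T u⟫_ℂ • ζ := by
    intro u
    rw [← sub_eq_zero]
    refine total_of_wander h hζ1 hw _ fun x => ?_
    by_cases hx : x = 1
    · rw [hx, hU.one_apply, inner_sub_right, inner_smul_right, inner_self_eq_norm_sq_to_K, hζ1]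
      simp
    · have h2 : ⟪R x ζ, ζ⟫_ℂ = 0 := by rw [← inner_conj_symm, hw x hx, map_zero]
      rw [inner_sub_right, inner_smul_right, ← hTi, hζx x hx, h2, inner_zero_left, mul_zero,
        sub_zero]
  obtain ⟨c, hc⟩ : ∃ c, c = ⟪ζ, T ζ⟫_ℂ := ⟨_, rfl⟩
  have hTζ : T ζ = c • ζ := by rw [hc]; exact hval ζ
  have hcc : (starRingEnd ℂ) c = c := by rw [hc, inner_conj_symm, hTi]
  obtain ⟨F, hF⟩ : ∃ F : E →L[ℂ] E, ∀ u, F u = ⟪ζ, u⟫_ℂ • ζ :=
    ⟨(innerSL ℂ ζ).smulRight ζ, fun u => rfl⟩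
  have hTF : T = c • F := by
    ext1 u
    rw [smul_apply, hF, hval u, ← hTi, hTζ, inner_smul_left, hcc, mul_smul]
  have hc0 : c ≠ 0 := by
    intro h1
    rw [h1, zero_smul] at hTF
    exact hT0 hTF
  refine ⟨F, c, hc0, hTF, ?_, ?_, ?_⟩
  · ext1 u
    change F (F u) = F u
    rw [hF (F u), hF u, inner_smul_right, inner_self_eq_norm_sq_to_K, hζ1]
    simp
  · have h1 : adjoint T = (starRingEnd ℂ) c • adjoint F := by
      rw [hTF]
      exact map_smulₛₗ _ _ _
    rw [hTa, hcc, hTF] at h1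
    exact (smul_right_injective _ hc0 h1).symm
  · intro h1
    rw [h1, smul_zero] at hTF
    exact hT0 hTF

/-- **[Q-END]** The end of the proof from one operator. -/
theorem end_op (h : Reg R ξ) {V : Γ → (E →L[ℂ] E)} (hV : URep V)
    (hVR : ∀ g x, V g * R x = R x * V g) {T : E →L[ℂ] E} (hTa : adjoint T = T) (hT0 : T ≠ 0)
    (hTo : ∀ x, x ≠ 1 → T * (R x * T * R x⁻¹) = 0)
    (hTc : ∀ g x, (V g * T * V g⁻¹) * (R x * T * R x⁻¹) =
      (R x * T * R x⁻¹) * (V g * T * V g⁻¹)) :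
    ∃ (w : E) (δ : Γ →* X) (χ : Γ →* ℂ), Reg R w ∧
      (∀ g, ‖χ g‖ = 1) ∧ ∀ g, V g w = χ g • R (δ g)⁻¹ w := by
  obtain ⟨F, c, hc, hTF, hFF, hFa, hF0⟩ := rank_one_op h hTa hT0 hTo
  have hcc : c * c ≠ 0 := mul_ne_zero hc hc
  obtain ⟨w, δ, χ, h1, _, h3, h4⟩ := end_core h hV hVR hFF hFa hF0
    (fun x hx => by
      have h1 := hTo x hx
      rw [hTF] at h1
      have h2 : (c * c) • (F * (R x * F * R x⁻¹)) = 0 := by
        rw [← h1]
        simp only [smul_mul_assoc, mul_smul_comm, smul_smul]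
      exact (smul_eq_zero.mp h2).resolve_left hcc)
    (fun g x => by
      have h1 := hTc g x
      rw [hTF] at h1
      have h2 : (c * c) • ((V g * F * V g⁻¹) * (R x * F * R x⁻¹)) =
          (c * c) • ((R x * F * R x⁻¹) * (V g * F * V g⁻¹)) := by
        simpa only [smul_mul_assoc, mul_smul_comm, smul_smul] using h1
      exact smul_right_injective _ hcc h2)
  exact ⟨w, δ, χ, h1, h3, h4⟩

end Vale.Agent.P092.H465
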