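import Vale.Agent.P092.H465.EndQ

/-!
P092 (helper465), project Q, end of the proof: commuting families of selfadjoint operators (no
projections).  `GoodOp R V PP BB N`: `PP` is a commuting family of selfadjoint operators, stable
under conjugation by `R` and `V`; `BB` is a nondegenerate part whose elements are annihilated by
their `R`-translates outside `N`.  Products of commuting good families are good; if `N = 1` the
representation `V` is monomial in a basis of translates.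
-/

set_option linter.all false

open scoped InnerProductSpace
open Filter Topology ContinuousLinearMap

namespace Vale.Agent.P092.H465

open Vale.Agent.P092.H828

variable {E : Type*} [NormedAddCommGroup E] [InnerProductSpace ℂ E] [CompleteSpace E]
variable {X Γ : Type*} [Group X] [Group Γ]

/-- A good family of selfadjoint operators. -/
structure GoodOp (R : X → (E →L[ℂ] E)) (V : Γ → (E →L[ℂ] E)) (PP BB : Set (E →L[ℂ] E))
    (N : Set X) : Prop where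
  sub : BB ⊆ PP
  adj : ∀ p ∈ PP, adjoint p = p
  comm : ∀ p ∈ PP, ∀ q ∈ PP, p * q = q * p
  cV : ∀ g, ∀ p ∈ PP, V g * p * V g⁻¹ ∈ PP
  cR : ∀ x, ∀ p ∈ PP, R x * p * R x⁻¹ ∈ PP
  nd : ∀ v, v ≠ 0 → ∃ p ∈ BB, p v ≠ 0
  orth : ∀ p ∈ BB, ∀ x, x ∉ N → p * (R x * p * R x⁻¹) = 0

theorem conj_mul {Y : Type*} [Group Y] {R : Y → (E →L[ℂ] E)} (h : URep R) (x : Y)
    (p q : E →L[ℂ] E) : R x * (p * q) * R x⁻¹ = (R x * p * R x⁻¹) * (R x * q * R x⁻¹) := by
  have h1 : R x⁻¹ * R x = 1 := by rw [← h.mul, inv_mul_cancel, h.one]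
  calc R x * (p * q) * R x⁻¹ = R x * p * 1 * q * R x⁻¹ := by
        simp only [mul_assoc, one_mul]
    _ = _ := by
        rw [← h1]
        simp only [mul_assoc]

/-- Products of commuting good families. -/
theorem GoodOp.mul {R : X → (E →L[ℂ] E)} {V : Γ → (E →L[ℂ] E)} (hR : URep R) (hV : URep V)
    {PP BB PP' BB' : Set (E →L[ℂ] E)} {N N' : Set X} (h : GoodOp R V PP BB N)
    (h' : GoodOp R V PP' BB' N') (hc : ∀ p ∈ PP, ∀ q ∈ PP', p * q = q * p) :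
    GoodOp R V {T | ∃ p ∈ PP, ∃ q ∈ PP', T = p * q} {T | ∃ p ∈ BB, ∃ q ∈ BB', T = p * q}
      (N ∩ N') where
  sub := by
    rintro T ⟨p, hp, q, hq, rfl⟩
    exact ⟨p, h.sub hp, q, h'.sub hq, rfl⟩
  adj := by
    rintro T ⟨p, hp, q, hq, rfl⟩
    rw [← star_eq_adjoint, star_mul, star_eq_adjoint, star_eq_adjoint, h.adj p hp, h'.adj q hq,
      hc p hp q hq]
  comm := by
    rintro T ⟨p, hp, q, hq, rfl⟩ S ⟨p', hp', q', hq', rfl⟩
    calc p * q * (p' * q') = p * (q * p') * q' := by simp only [mul_assoc]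
      _ = (p * p') * (q * q') := by rw [← hc p' hp' q hq]; simp only [mul_assoc]
      _ = (p' * p) * (q' * q) := by rw [h.comm p hp p' hp', h'.comm q hq q' hq']
      _ = p' * (p * q') * q := by simp only [mul_assoc]
      _ = p' * q' * (p * q) := by rw [hc p hp q' hq']; simp only [mul_assoc]
  cV := by
    rintro g T ⟨p, hp, q, hq, rfl⟩
    exact ⟨_, h.cV g p hp, _, h'.cV g q hq, conj_mul hV g p q⟩
  cR := by
    rintro x T ⟨p, hp, q, hq, rfl⟩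
    exact ⟨_, h.cR x p hp, _, h'.cR x q hq, conj_mul hR x p q⟩
  nd := by
    intro v hv
    obtain ⟨q, hq, hqv⟩ := h'.nd v hv
    obtain ⟨p, hp, hpv⟩ := h.nd _ hqv
    exact ⟨p * q, ⟨p, hp, q, hq, rfl⟩, hpv⟩
  orth := by
    rintro T ⟨p, hp, q, hq, rfl⟩ x hx
    have hp1 := h.sub hp
    have hq1 := h'.sub hq
    have hp2 := h.cR x p hp1
    have hq2 := h'.cR x q hq1
    rw [conj_mul hR]
    have e1 : p * q * ((R x * p * R x⁻¹) * (R x * q * R x⁻¹)) =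
        (p * (R x * p * R x⁻¹)) * (q * (R x * q * R x⁻¹)) := by
      generalize R x * p * R x⁻¹ = p' at hp2 ⊢
      generalize R x * q * R x⁻¹ = q' at hq2 ⊢
      calc p * q * (p' * q') = p * (q * p') * q' := by simp only [mul_assoc]
        _ = (p * p') * (q * q') := by rw [← hc p' hp2 q hq1]; simp only [mul_assoc]
    rw [e1]
    by_cases h1 : x ∈ N
    · have h2 : x ∉ N' := fun h2 => hx ⟨h1, h2⟩
      rw [h'.orth q hq x h2, mul_zero]
    · rw [h.orth p hp x h1, zero_mul]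

/-- A good family with `N ⊆ {1}`. -/
theorem GoodOp.end_thm {R : X → (E →L[ℂ] E)} {V : Γ → (E →L[ℂ] E)} {ξ : E} (hR : Reg R ξ)
    (hV : URep V) (hVR : ∀ g x, V g * R x = R x * V g) {PP BB : Set (E →L[ℂ] E)} {N : Set X}
    (h : GoodOp R V PP BB N) (hN : ∀ x ∈ N, x = 1) :
    ∃ (w : E) (δ : Γ →* X) (χ : Γ →* ℂ), Reg R w ∧
      (∀ g, ‖χ g‖ = 1) ∧ ∀ g, V g w = χ g • R (δ g)⁻¹ w := by
  have h0 : ξ ≠ 0 := by
    intro h1
    have := hR.norm_one
    rw [h1, norm_zero] at this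
    exact zero_ne_one this
  obtain ⟨T, hT, hTξ⟩ := h.nd ξ h0
  have hT1 := h.sub hT
  have hT0 : T ≠ 0 := fun h1 => hTξ (by rw [h1]; rfl)
  exact end_op hR hV hVR (h.adj T hT1) hT0
    (fun x hx => h.orth T hT x fun h1 => hx (hN x h1))
    (fun g x => h.comm _ (h.cV g T hT1) _ (h.cR x T hT1))

/-- A covariant family of operators over a topological group `H`: a commuting family `PP` of
selfadjoint operators, stable under the conjugations; for every neighbourhood `W` of the identity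
and every nonzero vector there is an element of the family which does not kill the vector and is
annihilated by its translates by the `x` with `r x ∉ W`. -/
structure CovOp {H : Type*} [Group H] [TopologicalSpace H] (R : X → (E →L[ℂ] E))
    (V : Γ → (E →L[ℂ] E)) (r : X → H) (PP : Set (E →L[ℂ] E)) : Prop where
  adj : ∀ p ∈ PP, adjoint p = p
  comm : ∀ p ∈ PP, ∀ q ∈ PP, p * q = q * p
  cV : ∀ g, ∀ p ∈ PP, V g * p * V g⁻¹ ∈ PP
  cR : ∀ x, ∀ p ∈ PP, R x * p * R x⁻¹ ∈ PP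
  nd : ∀ W ∈ 𝓝 (1 : H), ∀ v, v ≠ 0 → ∃ p ∈ PP, p v ≠ 0 ∧
    ∀ x, r x ∉ W → p * (R x * p * R x⁻¹) = 0

theorem CovOp.good {H : Type*} [Group H] [TopologicalSpace H] {R : X → (E →L[ℂ] E)}
    {V : Γ → (E →L[ℂ] E)} {r : X → H} {PP : Set (E →L[ℂ] E)} (h : CovOp R V r PP) {W : Set H}
    (hW : W ∈ 𝓝 (1 : H)) :
    GoodOp R V PP {p | p ∈ PP ∧ ∀ x, r x ∉ W → p * (R x * p * R x⁻¹) = 0} {x | r x ∈ W} where
  sub := fun p hp => hp.1
  adj := h.adj
  comm := h.comm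
  cV := h.cV
  cR := h.cR
  nd := fun v hv => by
    obtain ⟨p, h1, h2, h3⟩ := h.nd W hW v hv
    exact ⟨p, ⟨h1, h3⟩, h2⟩
  orth := fun p hp x hx => hp.2 x hx

/-- **[Q-END]** four commuting families (two legs, two places) over arbitrary topological groups. -/
theorem end_four_op {R : X → (E →L[ℂ] E)} {V : Γ → (E →L[ℂ] E)} {ξ : E} (hR : Reg R ξ)
    (hV : URep V) (hVR : ∀ g x, V g * R x = R x * V g)
    {H₁ H₂ H₃ H₄ : Type*} [Group H₁] [TopologicalSpace H₁] [Group H₂] [TopologicalSpace H₂]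
    [Group H₃] [TopologicalSpace H₃] [Group H₄] [TopologicalSpace H₄]
    {r₁ : X → H₁} {r₂ : X → H₂} {r₃ : X → H₃} {r₄ : X → H₄}
    {P₁ P₂ P₃ P₄ : Set (E →L[ℂ] E)}
    (h₁ : CovOp R V r₁ P₁) (h₂ : CovOp R V r₂ P₂) (h₃ : CovOp R V r₃ P₃) (h₄ : CovOp R V r₄ P₄)
    (h12 : ∀ p ∈ P₁, ∀ q ∈ P₂, p * q = q * p) (h13 : ∀ p ∈ P₁, ∀ q ∈ P₃, p * q = q * p)
    (h14 : ∀ p ∈ P₁, ∀ q ∈ P₄, p * q = q * p) (h23 : ∀ p ∈ P₂, ∀ q ∈ P₃, p * q = q * p)
    (h24 : ∀ p ∈ P₂, ∀ q ∈ P₄, p * q = q * p) (h34 : ∀ p ∈ P₃, ∀ q ∈ P₄, p * q = q * p)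
    {W₁ : Set H₁} {W₂ : Set H₂} {W₃ : Set H₃} {W₄ : Set H₄}
    (k₁ : W₁ ∈ 𝓝 (1 : H₁)) (k₂ : W₂ ∈ 𝓝 (1 : H₂)) (k₃ : W₃ ∈ 𝓝 (1 : H₃)) (k₄ : W₄ ∈ 𝓝 (1 : H₄))
    (hW : ∀ x, r₁ x ∈ W₁ → r₂ x ∈ W₂ → r₃ x ∈ W₃ → r₄ x ∈ W₄ → x = 1) :
    ∃ (w : E) (δ : Γ →* X) (χ : Γ →* ℂ), Reg R w ∧ (∀ g, ‖χ g‖ = 1) ∧
      ∀ g, V g w = χ g • R (δ g)⁻¹ w := by
  have hU : URep R := hR.toURep
  have g12 := (h₁.good k₁).mul hU hV (h₂.good k₂) h12
  have g34 := (h₃.good k₃).mul hU hV (h₄.good k₄) h34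
  have g := g12.mul hU hV g34 (by
    rintro p ⟨p1, a1, p2, a2, rfl⟩ q ⟨p3, a3, p4, a4, rfl⟩
    have c1 : Commute p1 (p3 * p4) := Commute.mul_right (h13 p1 a1 p3 a3) (h14 p1 a1 p4 a4)
    have c2 : Commute p2 (p3 * p4) := Commute.mul_right (h23 p2 a2 p3 a3) (h24 p2 a2 p4 a4)
    exact Commute.mul_left c1 c2)
  refine g.end_thm hR hV hVR ?_
  rintro x ⟨⟨a, b⟩, ⟨c, d⟩⟩
  exact hW x a b c d

end Vale.Agent.P092.H465
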