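import Vale.Agent.P092.H734.QDbl
import Vale.Agent.P092.H715.Alg
import Vale.Agent.P092.H156.Tr

/-!
P092 (helper465), project Q: the flip of smooth fields between the frames of a leg.
-/

set_option linter.all false

open scoped InnerProductSpace Topology ENNReal
open Filter ContinuousLinearMap MeasureTheory

namespace Vale.Agent.P092.H465

open Vale.Agent.P092.H160 Vale.Agent.P092.H156.Sm Vale.Agent.P092.H715.Q Vale.Agent.P092.H734.Q

section flip

variable {Γ X Y G H K : Type} [Group Γ] [Group X] [Group Y] [Group G] [Group H]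
  [TopologicalSpace G] [TopologicalSpace H] [IsTopologicalGroup G] [IsTopologicalGroup H]
  [MeasurableSpace G] [BorelSpace G] [SecondCountableTopology G]
  [NormedAddCommGroup K] [InnerProductSpace ℂ K] [CompleteSpace K]
  {V W : Γ →* (K →L[ℂ] K)} {f : X →* Γ} {ρ : X →* (K →L[ℂ] K)} {f' : Y →* Γ}
  {ρ' : Y →* (K →L[ℂ] K)} {ω : K}
  {p : Γ →* G} {κ : Γ →* H} {b : G → K →L[ℂ] K} {μ : Measure G} {J : K → K}

/-- The conjugate of a smooth field of a frame by the flip is a smooth field of the flipped frame,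
with the same target place and the same source place. -/
theorem smo_flip (hJ : AInv J) (D : Dbl V W f ρ f' ρ' ω) (hω : J ω = ω)
    (hVW : ∀ g v, J (V g v) = W g (J v)) (hWV : ∀ g v, J (W g v) = V g (J v))
    (hker : ∀ T : K →L[ℂ] K, (∀ y, f' y = 1 → T * ρ' y = ρ' y * T) →
      ∀ y, f' y = 1 → cjo hJ T * ρ' y = ρ' y * cjo hJ T)
    (hb : Smo (p.comp f) κ ρ V ω μ b) :
    Smo (p.comp f') κ ρ' W ω μ (fun x => cjo hJ (b x)) := by
  have hfd : Fd (p.comp f') ρ' (fun x => cjo hJ (b x)) := by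
    refine ⟨?_, ?_, ?_⟩
    · refine D.symm.equiv_of (G := G) (p := p) (b := fun x => cjo hJ (b x)) (fun g x => ?_)
        (fun n hn x => ?_)
      · beta_reduce
        rw [D.leg hb.toFd g x, cjo_mul, cjo_mul, cjo_eq hJ (hWV g), cjo_eq hJ (hWV g⁻¹)]
      · exact hker (b x) ((D.ker (b x)).1 fun m hm => D.com hb.toFd hm x) n hn
    · obtain ⟨C, hC⟩ := hb.bdd
      exact ⟨C, fun x => by rw [norm_cjo]; exact hC x⟩
    · intro ε hε
      obtain ⟨U, hU, h1⟩ := hb.rcont ε hε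
      refine ⟨U, hU, fun y hy x => ?_⟩
      rw [← cjo_sub, norm_cjo]
      exact h1 y hy x
  refine ⟨hfd, ?_, ?_⟩
  · intro ε hε
    obtain ⟨U, hU, h1⟩ := hb.acont ε hε
    refine ⟨U, hU, fun v hv x => ?_⟩
    have h2 : W v * cjo hJ (b x) * W v⁻¹ - cjo hJ (b x) = cjo hJ (V v * b x * V v⁻¹ - b x) := by
      rw [cjo_sub, cjo_mul, cjo_mul, cjo_eq hJ (hVW v), cjo_eq hJ (hVW v⁻¹)]
    rw [h2, norm_cjo]
    exact h1 v hv x
  · refine l2_of_nsq hfd.continuous ?_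
    have h1 : nsq ω μ (fun x => cjo hJ (b x)) = nsq ω μ b := by
      unfold nsq
      refine lintegral_congr fun x => ?_
      rw [← ofReal_norm_eq_enorm, norm_cjo_apply, hω, ofReal_norm_eq_enorm]
    rw [h1]
    exact nsq_lt_top hb.l2

theorem flip_ne (hJ : AInv J) (h0 : b ≠ 0) : (fun x => cjo hJ (b x)) ≠ 0 := by
  intro h
  apply h0
  funext x
  have h1 : cjo hJ (b x) = 0 := congrFun h x
  rw [← cjo_cjo hJ (b x), h1, cjo_zero]
  rfl

end flip

section model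

open Vale.Agent.P092.SR Vale.Agent.P092.H776

variable {Γ Λ G H : Type} [Group Γ] [Group Λ] [Group G] [Group H]
  [TopologicalSpace G] [TopologicalSpace H] [IsTopologicalGroup G] [IsTopologicalGroup H]
  [MeasurableSpace G] [BorelSpace G] [SecondCountableTopology G]
  {α : Γ →* (Ell2 Λ →L[ℂ] Ell2 Λ)} {p : Γ →* G} {κ : Γ →* H} {μ : Measure G}

/-- The flip of the first leg, in the model. -/
theorem ne_flip_one (hα : Frame α)
    (h : ∃ b, Smo (p.comp (MonoidHom.fst Γ Γ)) κ (RRR α) (VV α) (dl (1 : Λ × Λ)) μ b ∧ b ≠ 0) :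
    ∃ b, Smo (p.comp (MonoidHom.fst Γ Λ)) κ (RV₁ hα) (RR₁ α) (dl (1 : Λ × Λ)) μ b ∧ b ≠ 0 := by
  obtain ⟨b, hb, h0⟩ := h
  refine ⟨_, smo_flip ainv₁ (dbl_one hα) F₁_one (fun g v => F₁_V g v) (fun g v => F₁_R g v)
    ?_ hb, flip_ne ainv₁ h0⟩
  intro T hT y hy
  obtain ⟨g, c⟩ := y
  obtain rfl : g = 1 := hy
  have h1 := hT (1, c) rfl
  rw [RV₁_ap, map_one, one_mul] at h1 ⊢
  exact (comm_cjo ainv₁ (fun v => F₁_rr c v)).mpr h1

/-- The flip of the second leg, in the model. -/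
theorem ne_flip_two (hα : Frame α)
    (h : ∃ b, Smo (p.comp (MonoidHom.snd Γ Γ)) κ (RRR α) (VV α) (dl (1 : Λ × Λ)) μ b ∧ b ≠ 0) :
    ∃ b, Smo (p.comp (MonoidHom.fst Γ Λ)) κ (RV₂ hα) (RR₂ α) (dl (1 : Λ × Λ)) μ b ∧ b ≠ 0 := by
  obtain ⟨b, hb, h0⟩ := h
  refine ⟨_, smo_flip ainv₂ (dbl_two hα) F₂_one (fun g v => F₂_V hα g v)
    (fun g v => F₂_R hα g v) ?_ hb, flip_ne ainv₂ h0⟩
  intro T hT y hy
  obtain ⟨g, c⟩ := y
  obtain rfl : g = 1 := hy
  have h1 := hT (1, c) rfl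
  rw [RV₂_ap, map_one, one_mul] at h1 ⊢
  exact (comm_cjo ainv₂ (fun v => F₂_rr c v)).mpr h1

end model

end Vale.Agent.P092.H465
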