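import Vale.Agent.P092.H715.Two
import Vale.Agent.P092.H156.FO
import Vale.Agent.P092.Q.Defs

/-!
P092 (helper465), project Q, block [Q-MATCH] in the form of helper157 (#3727): a target-finite field
at `(κ₁, p)` and a source-finite field at `(κ₂, p)` do not both exist.  No Howe-Moore.
-/

set_option linter.all false

open scoped InnerProductSpace Topology ENNReal Pointwise
open Filter ContinuousLinearMap MeasureTheory
open Vale.Agent.P092.H160
open Vale.Agent.P092.H156.Sm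
open Vale.Agent.P092.H650

namespace Vale.Agent.P092.H465

/-- A uniformly continuous square integrable function vanishes at infinity. -/
theorem c0_of_l2 {H K : Type} [Group H] [TopologicalSpace H] [IsTopologicalGroup H]
    [LocallyCompactSpace H] [SecondCountableTopology H] [T2Space H] [MeasurableSpace H]
    [BorelSpace H] [NormedAddCommGroup K] {ν : Measure H} [ν.IsHaarMeasure] {F : H → K}
    (hc : Continuous F) (hu : ∀ ε > 0, ∃ U ∈ 𝓝 (1 : H), ∀ y ∈ U, ∀ x, ‖F (x * y) - F x‖ ≤ ε)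
    (hi : ∫⁻ x, ‖F x‖ₑ ^ 2 ∂ν < ⊤) : Tendsto F (cocompact H) (𝓝 0) := by
  -- the tails tend to zero
  have htail : ∀ δ : ℝ≥0∞, 0 < δ → ∃ C : Set H, IsCompact C ∧
      ∫⁻ x in Cᶜ, ‖F x‖ₑ ^ 2 ∂ν < δ := by
    intro δ hδ
    have h1 : Tendsto (fun n => ∫⁻ x in (compactCovering H n)ᶜ, ‖F x‖ₑ ^ 2 ∂ν) atTop (𝓝 0) := by
      have hm : ∀ n, MeasurableSet (compactCovering H n)ᶜ := fun n =>
        (isCompact_compactCovering H n).isClosed.measurableSet.compl
      simp_rw [← lintegral_indicator (hm _)]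
      have h2 := tendsto_lintegral_of_dominated_convergence (μ := ν)
        (F := fun n x => (compactCovering H n)ᶜ.indicator (fun x => ‖F x‖ₑ ^ 2) x)
        (f := fun _ => 0) (fun x => ‖F x‖ₑ ^ 2)
        (fun n => (((hc.enorm.measurable).pow_const 2).indicator (hm n)))
        (fun n => Eventually.of_forall fun x => Set.indicator_le_self _ _ _) hi.ne
        (Eventually.of_forall fun x => by
          obtain ⟨N, hN⟩ := exists_mem_compactCovering x
          refine tendsto_const_nhds.congr' ?_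
          filter_upwards [eventually_ge_atTop N] with n hn
          rw [Set.indicator_of_notMem]
          exact fun h => h (compactCovering_subset H hn hN))
      simpa using h2
    obtain ⟨n, hn⟩ := ((tendsto_order.1 h1).2 δ hδ).exists
    exact ⟨compactCovering H n, isCompact_compactCovering H n, hn⟩
  rw [Metric.tendsto_nhds]
  intro ε hε
  obtain ⟨U, hU, h1⟩ := hu (ε / 2) (by positivity)
  obtain ⟨L, hL, hLU, hLc⟩ := local_compact_nhds hU
  have hpos : 0 < ν L := MeasureTheory.Measure.measure_pos_of_mem_nhds ν hL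
  have hδ : 0 < ENNReal.ofReal (ε / 2) ^ 2 * ν L := by
    refine ENNReal.mul_pos (pow_ne_zero 2 ?_) hpos.ne'
    simpa using hε
  obtain ⟨C, hC, hCt⟩ := htail _ hδ
  filter_upwards [(hC.mul hLc.inv).compl_mem_cocompact] with h hh
  rw [dist_zero_right]
  by_contra hlt
  push Not at hlt
  have h2 : ∀ x, h⁻¹ * x ∈ L → x ∈ Cᶜ := by
    intro x hx hxC
    apply hh
    refine ⟨x, hxC, (h⁻¹ * x)⁻¹, Set.inv_mem_inv.2 hx, ?_⟩
    simp
  have h3 : ∀ x, h⁻¹ * x ∈ L → ENNReal.ofReal (ε / 2) ^ 2 ≤ ‖F x‖ₑ ^ 2 := by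
    intro x hx
    have h4 := h1 _ (hLU hx) h
    rw [mul_inv_cancel_left] at h4
    gcongr
    rw [← ofReal_norm_eq_enorm]
    refine ENNReal.ofReal_le_ofReal ?_
    have h5 : ‖F h‖ ≤ ‖F x‖ + ‖F x - F h‖ := by
      have := norm_sub_le (F x) (F x - F h)
      rwa [sub_sub_cancel] at this
    linarith
  have hLm : MeasurableSet ((fun x => h⁻¹ * x) ⁻¹' L) :=
    hLc.isClosed.measurableSet.preimage (continuous_const_mul h⁻¹).measurable
  have h4 : ENNReal.ofReal (ε / 2) ^ 2 * ν L ≤ ∫⁻ x in Cᶜ, ‖F x‖ₑ ^ 2 ∂ν := by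
    rw [← measure_preimage_mul ν h⁻¹ L, ← setLIntegral_const]
    refine (setLIntegral_mono' hLm fun x hx => h3 x hx).trans ?_
    exact lintegral_mono_set fun x hx => h2 x hx
  exact absurd (h4.trans_lt hCt) (lt_irrefl _)

theorem enorm_add_sq_le {K : Type} [NormedAddCommGroup K] (u v : K) :
    ‖u + v‖ₑ ^ 2 ≤ 2 * ‖u‖ₑ ^ 2 + 2 * ‖v‖ₑ ^ 2 := by
  have h1 : ‖u + v‖ ^ 2 ≤ 2 * ‖u‖ ^ 2 + 2 * ‖v‖ ^ 2 := by
    have h2 := norm_add_le u v
    nlinarith [norm_nonneg (u + v), norm_nonneg u, norm_nonneg v, sq_nonneg (‖u‖ - ‖v‖)]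
  have h3 := ENNReal.ofReal_le_ofReal h1
  rw [ENNReal.ofReal_add (by positivity) (by positivity), ENNReal.ofReal_mul (by norm_num),
    ENNReal.ofReal_mul (by norm_num), ENNReal.ofReal_pow (norm_nonneg _),
    ENNReal.ofReal_pow (norm_nonneg _), ENNReal.ofReal_pow (norm_nonneg _),
    ofReal_norm_eq_enorm, ofReal_norm_eq_enorm, ofReal_norm_eq_enorm, ENNReal.ofReal_ofNat] at h3
  exact h3

section mat

variable {Γ X Y G H₁ H₂ K : Type} [Group Γ] [Group X] [Group Y] [Group G] [Group H₁] [Group H₂]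
  [Countable X] [Countable Y]
  [TopologicalSpace G] [TopologicalSpace H₁] [TopologicalSpace H₂]
  [IsTopologicalGroup G] [IsTopologicalGroup H₁] [IsTopologicalGroup H₂]
  [MeasurableSpace G] [BorelSpace G] [SecondCountableTopology G]
  [LocallyCompactSpace H₂] [T2Space H₂]
  [MeasurableSpace H₂] [BorelSpace H₂] [SecondCountableTopology H₂]
  [NormedAddCommGroup K] [InnerProductSpace ℂ K] [CompleteSpace K]
  {V W : Γ →* (K →L[ℂ] K)} {f : X →* Γ} {ρ : X →* (K →L[ℂ] K)} {f' : Y →* Γ}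
  {ρ' : Y →* (K →L[ℂ] K)} {ω : K}
  {p : Γ →* G} {κ₁ : Γ →* H₁} {κ₂ : Γ →* H₂} {a b c : G → K →L[ℂ] K} {μ : Measure G}
  {ν : Measure H₂} [μ.IsMulLeftInvariant] [ν.IsHaarMeasure] [ν.IsMulRightInvariant]

open Vale.Agent.P092.H715.Q

/-- The conjugates of the values of a source-finite field tend to zero. -/
theorem tendsto_conj {c : H₂ → K →L[ℂ] K} (D : Dbl V W f ρ f' ρ' ω) (hp : DenseRange p)
    (hκ₂ : DenseRange κ₂)
    (hF : F1 (κ₂.comp f') p ρ' W ω ν) (hc : Smo (κ₂.comp f') p ρ' W ω ν c) {w : ℕ → Γ}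
    (hw : Tendsto (fun n => κ₂ (w n)) atTop (cocompact H₂)) (x : G) (ζ : K) :
    Tendsto (fun n => (V (w n) * fl p W c x * V (w n)⁻¹) ζ) atTop (𝓝 0) := by
  have hca : ACont κ₂ V (fl p W c) := acont_fl D.symm hp hc.toFd hc.acont
  have hs : Smo (κ₂.comp f') p ρ' W ω ν (al p W x c) := smo_al D.fr' hp hc x
  have h1 : ∀ n, (V (w n) * fl p W c x * V (w n)⁻¹) = al p W x c (κ₂ (w n)) := by
    intro n
    exact (al_coe D.fr hκ₂ hca (w n) x).symm.trans
      (al_fl D.symm hp hκ₂ hc.toFd hc.acont (κ₂ (w n)) x)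
  simp only [h1]
  have h3 : Tendsto (fun h => al p W x c h ζ) (cocompact H₂) (𝓝 0) := by
    refine c0_of_l2 (ν := ν) (hs.toFd.continuous_apply ζ) (fun ε hε => ?_) ?_
    · obtain ⟨U, hU, h4⟩ := hs.toFd.rcont (ε / (‖ζ‖ + 1)) (by positivity)
      refine ⟨U, hU, fun y hy z => ?_⟩
      have h5 := h4 y hy z
      have h6 : al p W x c (z * y) ζ - al p W x c z ζ =
          (al p W x c (z * y) - al p W x c z) ζ := rfl
      rw [h6]
      refine (le_opNorm _ _).trans ((mul_le_mul_of_nonneg_right h5 (norm_nonneg _)).trans ?_)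
      rw [div_mul_eq_mul_div, div_le_iff₀ (by positivity)]
      nlinarith [norm_nonneg ζ]
    · rw [hF.lint hs ζ]
      exact ENNReal.mul_lt_top (nsq_lt_top hs.l2) (by simp)
  exact h3.comp hw

/-- The product of a source-finite field and a target-finite field for different source places
vanishes. -/
theorem mul_eq_zero_of_places {c : H₂ → K →L[ℂ] K} (D : Dbl V W f ρ f' ρ' ω) (hp : DenseRange p)
    (hκ₂ : DenseRange κ₂) [μ.IsOpenPosMeasure]
    (hF : F1 (κ₂.comp f') p ρ' W ω ν) (ha : Smo (p.comp f) κ₁ ρ V ω μ a)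
    (hc : Smo (κ₂.comp f') p ρ' W ω ν c) {w : ℕ → Γ}
    (hw₁ : Tendsto (fun n => κ₁ (w n)) atTop (𝓝 1))
    (hw₂ : Tendsto (fun n => κ₂ (w n)) atTop (cocompact H₂)) (x : G) : fl p W c x * a x = 0 := by
  set b : G → K →L[ℂ] K := fl p W c with hb
  have hfb : Fd (p.comp f) ρ b := fd_fl D.symm hp hc.toFd hc.acont
  obtain ⟨C, hC0, hC⟩ := hfb.exists_bdd
  have hF' := D.fr
  set B : ℕ → G → K →L[ℂ] K := fun n x => V (w n) * b x * V (w n)⁻¹ with hB
  have hBC : ∀ n x, ‖B n x‖ ≤ C := fun n x => (norm_cj D.fr (w n) b x).trans (hC x)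
  have hBf : ∀ n, Fd (p.comp f) ρ (B n) := fun n => hfb.conj D.fr (w n)
  -- the first term
  have h1 : Tendsto (fun n => nsq ω μ (fun x => B n x * a x)) atTop (𝓝 0) := by
    have h2 := tendsto_lintegral_of_dominated_convergence (μ := μ)
      (F := fun n x => ‖(B n x * a x) ω‖ₑ ^ 2) (f := fun _ => 0)
      (fun x => ENNReal.ofReal C ^ 2 * ‖a x ω‖ₑ ^ 2)
      (fun n => ((((hBf n).mul ha.toFd).continuous_apply ω).enorm.measurable).pow_const 2)
      (fun n => Eventually.of_forall fun x => ?_) ?_ (Eventually.of_forall fun x => ?_)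
    · simpa [nsq] using h2
    · change ‖B n x (a x ω)‖ₑ ^ 2 ≤ ENNReal.ofReal C ^ 2 * ‖a x ω‖ₑ ^ 2
      rw [← mul_pow]
      gcongr
      rw [← ofReal_norm_eq_enorm, ← ofReal_norm_eq_enorm, ← ENNReal.ofReal_mul hC0.le]
      exact ENNReal.ofReal_le_ofReal ((le_opNorm _ _).trans
        (mul_le_mul_of_nonneg_right (hBC n x) (norm_nonneg _)))
    · rw [lintegral_const_mul' _ _ (by simp)]
      exact (ENNReal.mul_lt_top (by simp) (nsq_lt_top ha.l2)).ne
    · have h3 := tendsto_conj D hp hκ₂ hF hc hw₂ x (a x ω)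
      have h4 := (((ENNReal.continuous_pow 2).comp continuous_enorm).tendsto (0 : K)).comp h3
      simp only [Function.comp_def, enorm_zero, ne_eq, OfNat.ofNat_ne_zero, not_false_eq_true,
        zero_pow] at h4
      exact h4
  -- the second term
  have h2 : Tendsto (fun n => nsq ω μ (fun x => V (w n) * a x * V (w n)⁻¹ - a x)) atTop (𝓝 0) := by
    rw [ENNReal.tendsto_nhds_zero]
    intro ε hε
    obtain ⟨δ, hδ, hδε⟩ : ∃ δ : ℝ, 0 < δ ∧ ENNReal.ofReal δ ≤ ε := by
      by_cases hT : ε = ⊤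
      · exact ⟨1, one_pos, by rw [hT]; exact le_top⟩
      · exact ⟨ε.toReal, ENNReal.toReal_pos hε.ne' hT, (ENNReal.ofReal_toReal hT).le⟩
    obtain ⟨U, hU, h3⟩ := conj_cont D.fr ha δ hδ
    filter_upwards [hw₁ hU] with n hn
    have h4 := h3 (w n) hn
    have hl : L2 ω μ (fun x => V (w n) * a x * V (w n)⁻¹ - a x) :=
      (L2.conj D.fr ha.toFd ha.l2 (w n)).sub ha.l2
    rw [← ENNReal.ofReal_toReal (nsq_lt_top hl).ne]
    exact (ENNReal.ofReal_le_ofReal h4).trans hδε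
  -- the comparison
  have h3 : ∀ n, nsq ω μ (fun x => b x * a x) ≤ 2 * nsq ω μ (fun x => B n x * a x) +
      2 * (ENNReal.ofReal C ^ 2 * nsq ω μ (fun x => V (w n) * a x * V (w n)⁻¹ - a x)) := by
    intro n
    rw [← nsq_conj D.fr (hfb.mul ha.toFd) (w n)]
    have h4 : ∀ x, V (w n) * (b x * a x) * V (w n)⁻¹ =
        B n x * a x + B n x * (V (w n) * a x * V (w n)⁻¹ - a x) := by
      intro x
      rw [← mul_add, add_sub_cancel]
      have h5 : V (w n) * (b x * a x) * V (w n)⁻¹ =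
          V (w n) * b x * (V (w n)⁻¹ * V (w n)) * a x * V (w n)⁻¹ := by
        rw [hF'.inv_mul, mul_one]
        simp only [mul_assoc]
      rw [h5]
      simp only [hB, mul_assoc]
    have h6 : nsq ω μ (fun x => B n x * (V (w n) * a x * V (w n)⁻¹ - a x)) ≤
        ENNReal.ofReal C ^ 2 * nsq ω μ (fun x => V (w n) * a x * V (w n)⁻¹ - a x) :=
      nsq_mul_left (hBC n)
    refine le_trans ?_ (add_le_add le_rfl (mul_le_mul' le_rfl h6))
    simp only [h4]
    unfold nsq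
    have hm1 : Measurable fun x => ‖(B n x * a x) ω‖ₑ ^ 2 :=
      ((((hBf n).mul ha.toFd).continuous_apply ω).enorm.measurable).pow_const 2
    rw [← lintegral_const_mul _ hm1, ← lintegral_const_mul' 2 _ (by simp),
      ← lintegral_add_left (hm1.const_mul 2)]
    refine lintegral_mono fun x => ?_
    change ‖(B n x * a x) ω + (B n x * (V (w n) * a x * V (w n)⁻¹ - a x)) ω‖ₑ ^ 2 ≤ _
    exact enorm_add_sq_le _ _
  have h4 : nsq ω μ (fun x => b x * a x) = 0 := by
    have h5 : Tendsto (fun n => 2 * nsq ω μ (fun x => B n x * a x) +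
      2 * (ENNReal.ofReal C ^ 2 * nsq ω μ (fun x => V (w n) * a x * V (w n)⁻¹ - a x))) atTop
        (𝓝 0) := by
      have e1 := ENNReal.Tendsto.const_mul (a := 2) h1 (Or.inr (by simp))
      have e2 := ENNReal.Tendsto.const_mul (a := ENNReal.ofReal C ^ 2) h2 (Or.inr (by simp))
      have e3 := ENNReal.Tendsto.const_mul (a := 2) e2 (Or.inr (by simp))
      have e4 := e1.add e3
      simpa using e4
    exact le_antisymm (ge_of_tendsto' h5 h3) bot_le
  exact congrFun (field_eq_zero D.fr.reg (hfb.mul ha.toFd)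
    (zero_of_nsq (hfb.mul ha.toFd) h4)) x

/-- **[Q-MATCH]** in the form of helper157. -/
theorem mat_core {c : H₂ → K →L[ℂ] K} (D : Dbl V W f ρ f' ρ' ω) (hp : DenseRange p)
    (hκ₂ : DenseRange κ₂) [μ.IsOpenPosMeasure] [μ.IsMulRightInvariant]
    (hF₁ : F1 (p.comp f) κ₁ ρ V ω μ)
    (hF : F1 (κ₂.comp f') p ρ' W ω ν) (ha : Smo (p.comp f) κ₁ ρ V ω μ a) (ha0 : a ≠ 0)
    (hc : Smo (κ₂.comp f') p ρ' W ω ν c) {w : ℕ → Γ}
    (hw₁ : Tendsto (fun n => κ₁ (w n)) atTop (𝓝 1))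
    (hw₂ : Tendsto (fun n => κ₂ (w n)) atTop (cocompact H₂)) : c = 0 := by
  have has := ha.adj D.fr
  have hn : nsq ω μ (fun x => adjoint (a x)) ≠ 0 := by
    rw [nsq_adj D.fr.reg ha.toFd.continuous ha.toFd.equiv]
    exact nsq_ne_zero D.fr.reg ha.toFd ha0
  have hb0 : fl p W c = fun _ => 0 := by
    funext x
    have h3 : adjoint (fl p W c x) = 0 := by
      refine ContinuousLinearMap.ext fun ζ => ?_
      refine hF₁.eq_zero has hn fun z => ?_
      have h4 := mul_eq_zero_of_places D hp hκ₂ hF (ha.rt (x⁻¹ * z)) hc hw₁ hw₂ x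
      rw [mul_inv_cancel_left] at h4
      have h5 : adjoint (a z) * adjoint (fl p W c x) = 0 := by rw [← adj_mul, h4, map_zero]
      exact congrArg (fun T : K →L[ℂ] K => T ζ) h5
    have h6 := congrArg adjoint h3
    rw [adj_adj, map_zero] at h6
    exact h6
  rw [← fl_fl D.symm hp hκ₂ hc.toFd hc.acont, hb0]
  exact fl_zero D hκ₂

end mat

/-- The block [Q-MATCH] of `Q/Defs.lean`. -/
theorem matStmt : Q.MatStmt := by
  intro Γ X Y K G H₁ H₂
  intros
  rename_i V W f ρ f' ρ' ω p κ₁ κ₂ μ _ _ ν _ _ D hp hκ₁ hκ₂ hE hF₁ hF₂ hA hB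
  obtain ⟨w, hw₁, hw₂⟩ := hE
  obtain ⟨a, ha, ha0⟩ := hA
  obtain ⟨c, hc, hc0⟩ := hB
  exact hc0 (mat_core D hp hκ₂ hF₁ hF₂ ha ha0 hc hw₁ hw₂)

end Vale.Agent.P092.H465
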