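import Vale.Agent.P092.H465.NoInvQ

/-!
P092 (helper465), project Q, §5: [MATCH] without totality of the frame (after helper175's
`match_core`): nonzero smooth fields for two different source places at the same target place cannot
both exist.  `ρ` is a representation of an arbitrary group `X`, `ι : X →* G` any homomorphism with
dense range.
-/

set_option linter.all false

open scoped InnerProductSpace Topology ENNReal Pointwise
open Filter ContinuousLinearMap MeasureTheory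
open Vale.Agent.P092.H160 Vale.Agent.P092.H156.Sm Vale.Agent.P092.H796 Vale.Agent.P092.H175
open Vale.Agent.P092.H933 (HoweMoore)

namespace Vale.Agent.P092.H465

section sp

variable {X Λ G H K : Type} [Group X] [Group Λ] [Group G] [Group H]
  [TopologicalSpace G] [TopologicalSpace H] [IsTopologicalGroup G] [IsTopologicalGroup H]
  [MeasurableSpace G]
  [NormedAddCommGroup K] [InnerProductSpace ℂ K] [CompleteSpace K]
  {ι : X →* G} {κ : Λ →* H} {ρ : X →* (K →L[ℂ] K)} {V : Λ →* (K →L[ℂ] K)} {ω : K}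
  {μ : Measure G} [BorelSpace G] [μ.IsMulLeftInvariant]
  [SecondCountableTopology G] [LocallyCompactSpace G] [T2Space G] [NoncompactSpace G]
  [IsLocallyFiniteMeasure μ]

/-- There is no fixed vector in the closure of the smooth vectors. -/
theorem no_fixed_erg (h : Frm ρ V ω) (hE : ErgI ι ρ V ω) (hd : DenseRange ι)
    (hF : F1' ι κ ρ V ω μ)
    {c : Λ →* (Lp K 2 μ →L[ℂ] Lp K 2 μ)} (hc : Cj ι ρ V ω c) {ξ : Lp K 2 μ}
    (hξ : ξ ∈ (smSp ι κ ρ V ω μ).topologicalClosure) (hfix : ∀ v, c v ξ = ξ) : ξ = 0 := by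
  have hω : ‖ω‖ = 1 := h.reg.norm_one
  obtain ⟨b, x, Wn, W, hb, hbx, hWn, hxξ, hW, hWω⟩ := exists_W_lim hF hω hξ
  have hap : ∀ ζ, Tendsto (fun n => Wn n ζ) atTop (𝓝 (W ζ)) := fun ζ =>
    ((ContinuousLinearMap.apply ℂ (Lp K 2 μ) ζ).continuous.tendsto W).comp hW
  have h1 : ∀ v ζ, W (V v ζ) =ᵐ[μ] fun x => V v (W ζ x) := by
    intro v ζ
    have h2 : (V v).compLpL 2 μ (W ζ) = W (V v ζ) := by
      have h3 : Tendsto (fun n => (V v).compLpL 2 μ (Wn n ζ)) atTop
          (𝓝 ((V v).compLpL 2 μ (W ζ))) := (((V v).compLpL 2 μ).continuous.tendsto _).comp (hap ζ)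
      have h4 : Tendsto (fun n => Wn n (V v ζ) - (V v).compLpL 2 μ (Wn n ζ)) atTop (𝓝 0) := by
        rw [tendsto_zero_iff_norm_tendsto_zero]
        have h5 : ∀ n, ‖Wn n (V v ζ) - (V v).compLpL 2 μ (Wn n ζ)‖ =
            ‖x n - c v (x n)‖ * ‖V v ζ‖ := by
          intro n
          refine norm_sub_W hF (hb n) (Smo.conj' h hc (hb n) v) hω (hbx n)
            (hc.fld v (b n) (hb n).toFd (x n) (hbx n)) (hWn n _) ?_
          refine ((V v).coeFn_compLpL (Wn n ζ)).trans ?_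
          filter_upwards [hWn n ζ] with y hy
          rw [hy]
          change _ = (V v) ((b n y) (V v⁻¹ (V v ζ)))
          rw [h.inv_apply]
        simp only [h5]
        have h6 : Tendsto (fun n => ‖x n - c v (x n)‖) atTop (𝓝 ‖ξ - c v ξ‖) :=
          (hxξ.sub (((c v).continuous.tendsto ξ).comp hxξ)).norm
        rw [hfix, sub_self, norm_zero] at h6
        have h7 := h6.mul_const ‖V v ζ‖
        rwa [zero_mul] at h7
      have h5 := (hap (V v ζ)).sub h3
      have h6 := tendsto_nhds_unique h4 h5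
      exact (sub_eq_zero.1 h6.symm).symm
    rw [← h2]
    exact (V v).coeFn_compLpL (W ζ)
  have h2 : ∀ g ζ, W (ρ g⁻¹ ζ) =ᵐ[μ] fun x => ρ g⁻¹ (W ζ (ι g * x)) := by
    intro g ζ
    set T : Lp K 2 μ →ₗᵢ[ℂ] Lp K 2 μ := Lp.compMeasurePreservingₗᵢ ℂ (fun y => ι g * y)
      (measurePreserving_mul_left μ (ι g)) with hT
    have hTa : ∀ η : Lp K 2 μ, T η =ᵐ[μ] fun y => η (ι g * y) := fun η =>
      Lp.coeFn_compMeasurePreserving η (measurePreserving_mul_left μ (ι g))
    have h3 : W (ρ g⁻¹ ζ) = (ρ g⁻¹).compLpL 2 μ (T (W ζ)) := by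
      have h4 : Tendsto (fun n => (ρ g⁻¹).compLpL 2 μ (T (Wn n ζ))) atTop
          (𝓝 ((ρ g⁻¹).compLpL 2 μ (T (W ζ)))) :=
        (((ρ g⁻¹).compLpL 2 μ).continuous.tendsto _).comp ((T.continuous.tendsto _).comp (hap ζ))
      refine tendsto_nhds_unique (hap (ρ g⁻¹ ζ)) (h4.congr fun n => Lp.ext ?_)
      have h5 : ∀ᵐ y ∂μ, (Wn n ζ) (ι g * y) = b n (ι g * y) ζ :=
        (measurePreserving_mul_left μ (ι g)).quasiMeasurePreserving.ae (hWn n ζ)
      filter_upwards [(ρ g⁻¹).coeFn_compLpL (T (Wn n ζ)), hTa (Wn n ζ), h5, hWn n (ρ g⁻¹ ζ)]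
        with y h6 h7 h8 h9
      rw [h6, h7, h8, h9, (hb n).equiv]
      change (ρ g⁻¹ * (ρ g * b n y * ρ g⁻¹)) ζ = _
      rw [← mul_assoc, ← mul_assoc, rho_inv_mul, one_mul]
      rfl
    rw [h3]
    filter_upwards [(ρ g⁻¹).coeFn_compLpL (T (W ζ)), hTa (W ζ)] with y h6 h7
    rw [h6, h7]
  have h3 := noinv_erg hE h.reg hd W h1 h2
  rw [← hWω, h3]
  rfl

end sp

section main

variable {X Λ G H₁ H₂ K : Type} [Group X] [Countable X] [Group Λ] [Group G] [Group H₁] [Group H₂]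
  [TopologicalSpace G] [TopologicalSpace H₁] [TopologicalSpace H₂] [IsTopologicalGroup G]
  [IsTopologicalGroup H₁] [IsTopologicalGroup H₂] [MeasurableSpace G] [BorelSpace G]
  [T2Space G] [NoncompactSpace G] [SecondCountableTopology G] [LocallyCompactSpace G]
  [NormedAddCommGroup K] [InnerProductSpace ℂ K] [CompleteSpace K]
  {ρ : X →* (K →L[ℂ] K)} {V : Λ →* (K →L[ℂ] K)} {ω : K} {ι : X →* G} {κ₁ : Λ →* H₁} {κ₂ : Λ →* H₂}
  {μ : Measure G} [μ.IsHaarMeasure] [μ.IsMulRightInvariant]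
  {a b : G → K →L[ℂ] K}

/-- **[Q-MATCH]**: like helper175's `match_core`, with `ErgI` in the place of totality; the filter
`l` consists of elements which tend to `1` in `H₁` and to infinity in `H₂`. -/
theorem match_erg (h : Frm ρ V ω) (hE : ErgI ι ρ V ω) (hι : DenseRange ι)
    (hκ₂ : DenseRange κ₂) {l : Filter Λ} [l.NeBot] (hl₁ : Tendsto κ₁ l (𝓝 1))
    (hl₂ : Tendsto κ₂ l (cocompact H₂)) (hHM : HoweMoore H₂)
    (hF : F1' ι κ₂ ρ V ω μ) {c : Λ →* (Lp K 2 μ →L[ℂ] Lp K 2 μ)} (hc : Cj ι ρ V ω c)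
    (hal₁ : ∀ ξ ∈ smSp ι κ₁ ρ V ω μ, Tendsto (fun v => c v ξ) (comap κ₁ (𝓝 1)) (𝓝 ξ))
    (hal₂ : ∀ ξ ∈ smSp ι κ₂ ρ V ω μ, Tendsto (fun v => c v ξ) (comap κ₂ (𝓝 1)) (𝓝 ξ))
    (ha : Smo ι κ₁ ρ V ω μ a) (hb : Smo ι κ₂ ρ V ω μ b) : a = 0 ∨ b = 0 := by
  have hf := h
  -- orthogonality
  have h1 : ∀ {ξ η : Lp K 2 μ}, ξ ∈ smSp ι κ₁ ρ V ω μ → η ∈ smSp ι κ₂ ρ V ω μ →
      ⟪ξ, η⟫_ℂ = 0 := by
    intro ξ η hξ hη
    refine orth hc.norm ((hal₁ ξ hξ).mono_left (tendsto_iff_comap.1 hl₁)) ?_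
    exact coeff_tendsto hc.norm hκ₂ hHM (fun v η hη => c_smSp hf hc v hη) hal₂
      (fun θ hθ hfix => no_fixed_erg h hE hι hF hc hθ hfix) hl₂ ξ hη
  -- the product vanishes
  have h2 : ∀ x y, adjoint (b (x * y)) (adjoint (a x) ω) = 0 := by
    intro x y
    set d : G → K →L[ℂ] K := fun x => b (x * y) with hd
    have hd' : Smo ι κ₂ ρ V ω μ d := Smo.rt' hb y
    have hP := Smo.mul' hf (Smo.adj' hf ha) ha
    have hQ := Smo.mul' hf hd' (Smo.adj' hf hd')
    have h3 := h1 (ξ := hP.l2.toLp _) (η := hQ.l2.toLp _) ⟨_, hP, MemLp.coeFn_toLp hP.l2⟩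
      ⟨_, hQ, MemLp.coeFn_toLp hQ.l2⟩
    rw [← integral_inner_toLp hP.l2 hQ.l2] at h3
    have h4 := ip_prod (μ := μ) hf ha.toFd hd'.toFd ha.l2 hd'.l2
    have h5 : ip ω μ (fun x => adjoint (a x) * a x) (fun x => d x * adjoint (d x)) = 0 := h3
    rw [h5] at h4
    have hda : Fd ι ρ (fun x => adjoint (d x) * adjoint (a x)) :=
      (hd'.toFd.adj hf.reg).mul (ha.toFd.adj hf.reg)
    have hda2 : L2 ω μ (fun x => adjoint (d x) * adjoint (a x)) :=
      L2.mul_left (hd'.toFd.adj hf.reg).continuous (ha.toFd.adj hf.reg).continuous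
        (hd'.toFd.adj hf.reg).bdd (L2.adj hf.reg ha.toFd ha.l2)
    have h6 : nsq ω μ (fun x => adjoint (d x) * adjoint (a x)) = 0 := by
      have h7 : (nsq ω μ (fun x => adjoint (d x) * adjoint (a x))).toReal = 0 := by
        exact_mod_cast h4.symm
      rcases (ENNReal.toReal_eq_zero_iff _).1 h7 with h8 | h8
      · exact h8
      · exact absurd h8 (nsq_lt_top hda2).ne
    exact zero_of_nsq hda h6 x
  -- conclusion
  by_cases hb0 : ip ω μ (fun x => adjoint (b x)) (fun x => adjoint (b x)) = 0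
  · right
    have hb' := Smo.adj' hf hb
    rw [ip_self hb'.l2] at hb0
    have h6 : nsq ω μ (fun x => adjoint (b x)) = 0 := by
      have h7 : (nsq ω μ (fun x => adjoint (b x))).toReal = 0 := by exact_mod_cast hb0
      rcases (ENNReal.toReal_eq_zero_iff _).1 h7 with h8 | h8
      · exact h8
      · exact absurd h8 (nsq_lt_top hb'.l2).ne
    have h7 := field_eq_zero hf.reg hb'.toFd (zero_of_nsq hb'.toFd h6)
    funext x
    have h8 := congrFun h7 x
    have h9 : adjoint (b x) = 0 := h8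
    rw [← adjoint_adjoint (b x), h9, map_zero]
    rfl
  · left
    have ha' := Smo.adj' hf ha
    have h7 : (fun x => adjoint (a x)) = 0 := by
      refine field_eq_zero hf.reg ha'.toFd fun x => ?_
      set ζ := adjoint (a x) ω with hζ
      have h8 := (hF _ _ (Smo.adj' hf hb) (Smo.adj' hf hb) ζ ζ).2
      have h9 : ∫ z, ⟪adjoint (b z) ζ, adjoint (b z) ζ⟫_ℂ ∂μ = 0 := by
        rw [← integral_zero G ℂ (μ := μ)]
        refine integral_congr_ae (Eventually.of_forall fun z => ?_)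
        have h10 := h2 x (x⁻¹ * z)
        rw [mul_inv_cancel_left] at h10
        simp only [hζ, h10, inner_zero_left]
      rw [h9] at h8
      have h10 := (mul_eq_zero.1 h8.symm).resolve_left hb0
      exact inner_self_eq_zero.1 h10
    funext x
    have h9 : adjoint (a x) = 0 := congrFun h7 x
    rw [← adjoint_adjoint (a x), h9, map_zero]
    rfl

end main

end Vale.Agent.P092.H465
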