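import Mathlib.Analysis.Normed.Module.FiniteDimension
import Mathlib.Analysis.Normed.Field.Lemmas
import Mathlib.Algebra.Star.Basic
import Mathlib.Analysis.SpecificLimits.Normed

/-!
P092 (helper465), [CLASS-H]: a `k`-linear involution of a finite-dimensional normed division algebra over
a complete field is isometric.
-/

set_option linter.all false

open Filter Topology

namespace Vale.Agent.P092.H465

variable (k : Type*) [NontriviallyNormedField k] [CompleteSpace k] {D : Type*} [NormedDivisionRing D]
  [NormedAlgebra k D] [FiniteDimensional k D] [StarRing D]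

theorem continuous_star' (hs : ∀ a : k, star (algebraMap k D a) = algebraMap k D a) :
    Continuous fun x : D => star x := by
  let f : D →ₗ[k] D :=
    { toFun := star
      map_add' := star_add
      map_smul' := fun a x => by
        rw [Algebra.smul_def, star_mul, hs, RingHom.id_apply, Algebra.smul_def, Algebra.commutes] }
  exact f.continuous_of_finiteDimensional

/-- **The involution is isometric.** -/
theorem norm_star' (hs : ∀ a : k, star (algebraMap k D a) = algebraMap k D a) (x : D) :
    ‖star x‖ = ‖x‖ := by
  have hc := continuous_star' k hs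
  have key : ∀ x : D, ¬ ‖x‖ < ‖star x‖ := by
    intro x hx
    have hsx : star x ≠ 0 := norm_pos_iff.1 (lt_of_le_of_lt (norm_nonneg x) hx)
    have hx0 : x ≠ 0 := by
      rintro rfl
      rw [star_zero] at hsx
      exact hsx rfl
    have h1 : ‖x * (star x)⁻¹‖ < 1 := by
      rw [norm_mul, norm_inv, ← div_eq_mul_inv]
      exact (div_lt_one (norm_pos_iff.2 hsx)).2 hx
    have h2 := tendsto_pow_atTop_nhds_zero_of_norm_lt_one h1
    have h3 := ((hc.tendsto 0).comp h2).norm
    rw [star_zero, norm_zero] at h3
    have h4 : ∀ m : ℕ, 1 ≤ ‖star ((x * (star x)⁻¹) ^ m)‖ := by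
      intro m
      rw [star_pow, star_mul, star_inv₀, star_star, norm_pow, norm_mul, norm_inv]
      refine one_le_pow₀ ?_
      rw [mul_comm, ← div_eq_mul_inv]
      exact (one_le_div (norm_pos_iff.2 hx0)).2 hx.le
    have h5 := ge_of_tendsto' h3 h4
    exact absurd h5 (by norm_num)
  refine le_antisymm (not_lt.1 (key x)) ?_
  have := key (star x)
  rw [star_star] at this
  exact not_lt.1 this

end Vale.Agent.P092.H465
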