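import Vale.Agent.P092.H465.NdC
import Vale.Agent.P092.H259.Fk.Lat

/-!
P092, project ND (helper465): lattices in locally compact groups with a quotient, by a compact normal
subgroup, which is a product of overgroups of factors.
-/

set_option linter.all false

open MeasureTheory Filter Topology Set

namespace Vale.Agent.P092.Nd

open Vale.Agent.P092.H515.St (IsLattice)
open Vale.Agent.P092.SR.St (SuperAll)
open Vale.Agent.P092.H213.Nd (ND)
open Vale.Agent.P092.VR (Ov)

/-- Compact normal subgroups may be divided out. -/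
theorem lattice_cpt {Γ E G : Type} [Group Γ] [Group E] [TopologicalSpace E] [IsTopologicalGroup E]
    [T2Space E] [Group G] [TopologicalSpace G] [IsTopologicalGroup G] [T2Space G]
    [LocallyCompactSpace G] (hicc : UN.ICC Γ) (i : Γ →* E) (hi : Function.Injective i)
    (hl : IsLattice i.range) (f : E →* G) (hf : IsQuotientMap f)
    (hk : IsCompact (f.ker : Set E)) :
    Function.Injective (f.comp i) ∧ IsLattice (f.comp i).range := by
  have hdi := hl.disc
  have hr : i.range.map f = (f.comp i).range := by
    ext x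
    constructor
    · rintro ⟨_, ⟨g, rfl⟩, rfl⟩
      exact ⟨g, rfl⟩
    · rintro ⟨g, rfl⟩
      exact ⟨_, ⟨g, rfl⟩, rfl⟩
  refine ⟨?_, ?_⟩
  · rw [injective_iff_map_eq_one]
    intro x hx
    by_contra hne
    have hfin : Set.Finite {y : Γ | f (i y) = 1} := by
      have h1 : ((Subtype.val : i.range → E) ⁻¹' (f.ker : Set E)).Finite :=
        H790.finite_inter i.range hk
      refine Set.Finite.subset (h1.preimage (f := fun y : Γ => (⟨i y, y, rfl⟩ : i.range)) ?_) ?_
      · intro a _ b _ hab
        exact hi (congrArg Subtype.val hab)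
      · intro y hy
        exact hy
    refine hicc x hne (hfin.subset ?_)
    rintro y ⟨h, rfl⟩
    show f (i (h * x * h⁻¹)) = 1
    have hx' : f (i x) = 1 := hx
    rw [map_mul, map_mul, map_mul, map_mul, hx', mul_one, ← map_mul, ← map_mul, mul_inv_cancel,
      map_one, map_one]
  · rw [← hr]
    exact H793.lattice_map f hf.continuous hf.surjective hl
      (H793.discrete_map f (fun C hC => H259.Fk.proper_of_quoC f hf hk hC) _)

/-- **Lattices in groups with a compact normal subgroup**, the quotient being a product of overgroups of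
factors, such that the projections have an open closure or are not discrete. -/
theorem superAll_cpt {Γ : Type} [Group Γ] (hicc : UN.ICC Γ) {E : Type} [Group E]
    [TopologicalSpace E] [IsTopologicalGroup E] [T2Space E] {I : Type} [Fintype I] {G : I → Type}
    [∀ j, Group (G j)] [∀ j, TopologicalSpace (G j)] (i : Γ →* E) (hi : Function.Injective i)
    (hl : UN.IsLattice i.range) (f : E →* ∀ j, G j) (hf : IsQuotientMap f)
    (hk : IsCompact (f.ker : Set E))
    (hG : ∀ j, ∃ (M : Type) (_ : Group M) (_ : TopologicalSpace M) (φ : M →* G j) (r : ℕ), Ov φ r)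
    (hd : ∀ j, IsOpen (closure (Set.range fun g => f (i g) j)) ∨
      ND (G j) ∧ ¬ DiscreteTopology (Set.range fun g => f (i g) j)) : UN.SuperAll Γ := by
  choose M gM tM φ r hr using hG
  haveI := fun j => (hr j).top
  haveI := fun j => H333.V.Ov.lc (hr j)
  haveI := fun j => H333.V.Ov.t2 (hr j)
  obtain ⟨h1, h2⟩ := lattice_cpt hicc i hi ⟨hl.disc, hl.covol⟩ f hf hk
  exact UN.superAll_of (superAll_nd hr (f.comp i) h1 h2 hd ((UN.icc_iff Γ).1 hicc))

/-- Images of subgroups with an open closure. -/
theorem open_closure_map {Γ E G : Type} [Group Γ] [Group E] [TopologicalSpace E]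
    [IsTopologicalGroup E] [Group G] [TopologicalSpace G] [IsTopologicalGroup G] (f : E →* G)
    (hf : IsQuotientMap f) (i : Γ →* E) (h : IsOpen (closure (Set.range i))) :
    IsOpen (closure (Set.range fun g => f (i g))) := by
  have ho := (MonoidHom.isOpenQuotientMap_of_isQuotientMap hf).isOpenMap
  have hr : (closure (Set.range fun g => f (i g))) =
      ((f.comp i).range.topologicalClosure : Set G) := by
    rw [Subgroup.topologicalClosure_coe, MonoidHom.coe_range]
    rfl
  rw [hr]
  refine Subgroup.isOpen_of_mem_nhds (g := 1) _ ?_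
  have h1 : f '' closure (Set.range i) ∈ 𝓝 (1 : G) := by
    refine (ho _ h).mem_nhds ⟨1, subset_closure ⟨1, map_one i⟩, map_one f⟩
  refine Filter.mem_of_superset h1 ?_
  rw [← hr]
  refine (image_closure_subset_closure_image hf.continuous).trans (closure_mono ?_)
  rintro _ ⟨_, ⟨g, rfl⟩, rfl⟩
  exact ⟨g, rfl⟩

/-- Images of nondiscrete subgroups under homomorphisms with a finite kernel. -/
theorem not_discrete_map {Γ E G : Type} [Group Γ] [Group E] [TopologicalSpace E]
    [IsTopologicalGroup E] [T2Space E] [Group G] [TopologicalSpace G] (f : E →* G)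
    (hf : Continuous f) (hk : Finite f.ker) (i : Γ →* E)
    (h : ¬ DiscreteTopology (Set.range i)) :
    ¬ DiscreteTopology (Set.range fun g => f (i g)) := by
  intro hd
  apply h
  have hone : (1 : G) ∈ Set.range fun g => f (i g) := ⟨1, by
    show f (i 1) = 1
    rw [map_one, map_one]⟩
  obtain ⟨V, hV, hV1⟩ : ∃ V : Set G, IsOpen V ∧ V ∩ (Set.range fun g => f (i g)) = {1} := by
    have h1 : IsOpen ({⟨1, hone⟩} : Set (Set.range fun g => f (i g))) := isOpen_discrete _
    obtain ⟨V, hV, hV1⟩ := isOpen_induced_iff.1 h1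
    refine ⟨V, hV, ?_⟩
    ext x
    constructor
    · rintro ⟨hx, hx'⟩
      have h2 : (⟨x, hx'⟩ : Set.range fun g => f (i g)) ∈ Subtype.val ⁻¹' V := hx
      rw [hV1] at h2
      exact congrArg Subtype.val h2
    · rintro rfl
      have h2 : (⟨1, hone⟩ : Set.range fun g => f (i g)) ∈ Subtype.val ⁻¹' V := by
        rw [hV1]
        exact rfl
      exact ⟨h2, hone⟩
  have h1V : (1 : G) ∈ V := (hV1.symm ▸ (rfl : (1 : G) ∈ ({1} : Set G)) :
    (1 : G) ∈ V ∩ Set.range fun g => f (i g)).1
  have hfin : ((i.range : Set E) ∩ f ⁻¹' V).Finite := by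
    refine (Set.toFinite (f.ker : Set E)).subset ?_
    rintro _ ⟨⟨g, rfl⟩, hg⟩
    have h2 : f (i g) ∈ V ∩ Set.range fun g => f (i g) := ⟨hg, g, rfl⟩
    rw [hV1] at h2
    exact h2
  have h3 : DiscreteTopology i.range :=
    H793.discrete_of_finite i.range ((hV.preimage hf).mem_nhds (by
      show f 1 ∈ V
      rw [map_one]
      exact h1V)) hfin
  exact h3

/-- **Products of finite covers of overgroups of factors.** -/
theorem superAll_fin {Γ : Type} [Group Γ] (hicc : UN.ICC Γ) {I : Type} [Fintype I]
    {E G : I → Type} [∀ j, Group (E j)] [∀ j, TopologicalSpace (E j)]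
    [∀ j, IsTopologicalGroup (E j)] [∀ j, T2Space (E j)]
    [∀ j, Group (G j)] [∀ j, TopologicalSpace (G j)] (i : Γ →* ∀ j, E j)
    (hi : Function.Injective i) (hl : UN.IsLattice i.range) (f : ∀ j, E j →* G j)
    (hf : ∀ j, IsQuotientMap (f j)) (hk : ∀ j, Finite (f j).ker)
    (hG : ∀ j, ∃ (M : Type) (_ : Group M) (_ : TopologicalSpace M) (φ : M →* G j) (r : ℕ), Ov φ r)
    (hd : ∀ j, IsOpen (closure (Set.range fun g => i g j)) ∨
      ND (G j) ∧ ¬ DiscreteTopology (Set.range fun g => i g j)) : UN.SuperAll Γ := by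
  haveI : ∀ j, IsTopologicalGroup (G j) := fun j => by
    obtain ⟨M, _, _, φ, r, h⟩ := hG j
    exact h.top
  have hq : IsQuotientMap (H259.Fk.pf f) := by
    have h1 : IsOpenQuotientMap (Pi.map fun j => (f j : E j → G j)) :=
      IsOpenQuotientMap.piMap fun j => MonoidHom.isOpenQuotientMap_of_isQuotientMap (hf j)
    exact h1.isQuotientMap
  have hker : IsCompact ((H259.Fk.pf f).ker : Set (∀ j, E j)) := by
    have h1 : Set.Finite (Set.univ.pi fun j => ((f j).ker : Set (E j))) :=
      Set.Finite.pi fun j => Set.toFinite ((f j).ker : Set (E j))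
    refine (h1.subset ?_).isCompact
    intro x hx j _
    exact congrFun (hx : (H259.Fk.pf f) x = 1) j
  refine superAll_cpt hicc i hi hl (H259.Fk.pf f) hq hker hG fun j => ?_
  rcases hd j with h1 | ⟨h1, h2⟩
  · exact Or.inl (open_closure_map (f j) (hf j) ((Pi.evalMonoidHom E j).comp i) h1)
  · exact Or.inr ⟨h1, not_discrete_map (f j) (hf j).continuous (hk j)
      ((Pi.evalMonoidHom E j).comp i) h2⟩

end Vale.Agent.P092.Nd
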