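import Vale.Agent.P092.H465.QNeR

/-!
P092 (helper465), project Q, block [Q-NE]: lattices in finite products.
-/

set_option linter.all false

open scoped InnerProductSpace Topology ENNReal
open Filter ContinuousLinearMap MeasureTheory

namespace Vale.Agent.P092.H465

open Vale.Agent.P092.H160 Vale.Agent.P092.H156 Vale.Agent.P092.SR Vale.Agent.P092.H776
open Vale.Agent.P092.H734.Q Vale.Agent.P092.H264 Vale.Agent.P092.H739
open Vale.Agent.P092.H515 (IsLattice Tgt IsLattice.map_equiv)
open Vale.Agent.P092.H701 (HChain)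

/-- Splitting off one factor of a product. -/
def spl {I : Type} [DecidableEq I] (G : I → Type) [∀ i, Group (G i)] (i : I) :
    (∀ j, G j) ≃* G i × ∀ s : {s // s ≠ i}, G s where
  toEquiv := Equiv.piSplitAt i G
  map_mul' x y := rfl

theorem continuous_spl {I : Type} [DecidableEq I] (G : I → Type) [∀ i, Group (G i)]
    [∀ i, TopologicalSpace (G i)] (i : I) : Continuous (spl G i) :=
  (Homeomorph.piSplitAt i G).continuous

theorem continuous_spl_symm {I : Type} [DecidableEq I] (G : I → Type) [∀ i, Group (G i)]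
    [∀ i, TopologicalSpace (G i)] (i : I) : Continuous (spl G i).symm :=
  (Homeomorph.piSplitAt i G).symm.continuous

section abs

variable {I : Type} [Fintype I] {G Q : I → Type} [∀ j, Group (G j)]
    [∀ j, TopologicalSpace (G j)] [∀ j, IsTopologicalGroup (G j)]
    [∀ j, LocallyCompactSpace (G j)] [∀ j, SecondCountableTopology (G j)] [∀ j, T2Space (G j)]
    [∀ j, MeasurableSpace (G j)] [∀ j, BorelSpace (G j)] {Γ : Subgroup (∀ i, G i)}
    {Λ : Type} [Group Λ] {α : Γ →* (Ell2 Λ →L[ℂ] Ell2 Λ)}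
    [∀ j, Group (Q j)] [∀ j, TopologicalSpace (Q j)] [∀ j, IsTopologicalGroup (Q j)]
    [∀ j, LocallyCompactSpace (Q j)] [∀ j, SecondCountableTopology (Q j)] [∀ j, T2Space (Q j)]
    [∀ j, MeasurableSpace (Q j)] [∀ j, BorelSpace (Q j)]

/-- **[Q-NE]** for a lattice in a finite product of groups with a chain whose first direction has the
Mautner property. -/
theorem ne_abs (hΓ : IsLattice Γ) (hα : Frame α) {r : I → ℕ} (hr : ∀ i, 0 < r i)
    (C : ∀ i, HChain (G i) (r i)) (hM : ∀ i, Mau (G i) ((C i).b ⟨0, hr i⟩))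
    (hG : ∀ i, Tgt (G i) (r i)) (π : ∀ j, G j →* Q j)
    (hπ : ∀ j, Continuous (π j)) (μ : ∀ j, Measure (Q j)) [∀ j, (μ j).IsHaarMeasure]
    [∀ j, (μ j).IsMulRightInvariant] (i : I) :
    ∃ j, NeL false ((π j).comp ((Pi.evalMonoidHom G j).comp Γ.subtype))
      ((Pi.evalMonoidHom G i).comp Γ.subtype) α (μ j) := by
  classical
  obtain ⟨Γ', hΓ', e, he⟩ : ∃ Γ' : Subgroup (G i × ∀ s : {s // s ≠ i}, G s), IsLattice Γ' ∧
      ∃ e : Γ ≃* Γ', ∀ g, ((e g : Γ') : G i × ∀ s : {s // s ≠ i}, G s) = spl G i g :=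
    ⟨_, hΓ.map_equiv (spl G i) (continuous_spl G i) (continuous_spl_symm G i),
      Γ.equivMapOfInjective _ (spl G i).injective, fun g => rfl⟩
  have hd := hΓ.disc
  have hcard : Fintype.card {s // s ≠ i} < Fintype.card I :=
    Fintype.card_subtype_lt (x := i) (by simp)
  have hsum : ∑ j, r j ≤ r i + ∑ s : {s // s ≠ i}, r s := by
    rw [← Fintype.sum_subtype_add_sum_subtype (fun j => j = i) r]
    refine le_of_eq ?_
    congr 1
    exact (Finset.sum_congr rfl fun x _ => congrArg r x.2).trans (by simp)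
  obtain ⟨j, hj⟩ := qne_r hΓ' (frame_comap hα e.symm) (C i) (fun s : {s // s ≠ i} => C s)
    (fun s => hr s) (fun s => hM s) hG hcard hsum (Γ.subtype.comp e.symm.toMonoidHom)
    (fun K hK => by
      have h1 := H515.finite_of_compact Γ hK
      exact h1.preimage (f := fun x => e.symm x) (e.symm.injective.injOn)) π hπ μ
  refine ⟨j, neL_comap e.symm ?_⟩
  have h2 : (MonoidHom.fst (G i) (∀ s : {s // s ≠ i}, G s)).comp Γ'.subtype =
      ((Pi.evalMonoidHom G i).comp Γ.subtype).comp e.symm.toMonoidHom := by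
    ext x
    obtain ⟨g, rfl⟩ := e.surjective x
    change ((e g : Γ') : G i × ∀ s : {s // s ≠ i}, G s).1 =
      ((e.symm (e g) : Γ) : ∀ j, G j) i
    rw [he, e.symm_apply_apply]
    rfl
  rw [h2] at hj
  exact hj

end abs

end Vale.Agent.P092.H465
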