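import Vale.Agent.P092.H175.MatchB
import Vale.Agent.P092.H325.Comm

/-!
P092 (helper465), project Q, §5: [NOINV] and [MATCH] without totality of the frame.  `ρ` is a
representation of an arbitrary group `X`, `ι : X →* G` an arbitrary homomorphism; instead of
totality of the vectors `V v ω` the hypothesis is the ergodicity `ErgI` (= ERG').
-/

set_option linter.all false

open scoped InnerProductSpace Topology ENNReal Pointwise
open Filter ContinuousLinearMap MeasureTheory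
open Vale.Agent.P092.H160 Vale.Agent.P092.H156.Sm Vale.Agent.P092.H796 Vale.Agent.P092.H175
open Vale.Agent.P092.H933 (HoweMoore)

namespace Vale.Agent.P092.H465

section erg

variable {X Λ G K : Type} [Group X] [Group Λ] [Group G] [TopologicalSpace G]
  [NormedAddCommGroup K] [InnerProductSpace ℂ K] [CompleteSpace K]

/-- ERG': an operator which commutes with `V` and with the `ρ x`, `ι x = 1`, and which is
continuous for the conjugation by `ρ x` as `ι x → 1`, is scalar. -/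
def ErgI (ι : X →* G) (ρ : X →* (K →L[ℂ] K)) (V : Λ →* (K →L[ℂ] K)) (ω : K) : Prop :=
  ∀ T : K →L[ℂ] K, (∀ v, T * V v = V v * T) → (∀ x, ι x = 1 → T * ρ x = ρ x * T) →
    (∀ ε : ℝ, 0 < ε → ∃ U ∈ 𝓝 (1 : G), ∀ x, ι x ∈ U → ‖(ρ x * T * ρ x⁻¹) ω - T ω‖ ≤ ε) →
    ∃ c : ℂ, T = c • (1 : K →L[ℂ] K)

end erg

section noinv

variable {X Λ G K : Type} [Group X] [Group Λ]
  [NormedAddCommGroup K] [InnerProductSpace ℂ K] [CompleteSpace K]
  {ρ : X →* (K →L[ℂ] K)} {V : Λ →* (K →L[ℂ] K)} {ω : K}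
  [MeasurableSpace G] {μ : Measure G}
  [Group G] [TopologicalSpace G] [IsTopologicalGroup G] [BorelSpace G] [μ.IsMulLeftInvariant]

theorem inner_tl_left (g : G) (f h : Lp K 2 μ) :
    ⟪H325.tl μ g f, H325.tl μ g h⟫_ℂ = ⟪f, h⟫_ℂ := by
  have := (LinearMap.norm_map_iff_inner_map_map (H325.tl μ g : Lp K 2 μ →L[ℂ] Lp K 2 μ)).1
    (H325.norm_tl μ g) f h
  exact this

theorem tl_mul (g h : G) (f : Lp K 2 μ) :
    H325.tl μ g (H325.tl μ h f) = H325.tl μ (g * h) f := by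
  refine Lp.ext ?_
  have h1 : ∀ᵐ x ∂μ, (H325.tl μ h f) (g⁻¹ * x) = f (h⁻¹ * (g⁻¹ * x)) :=
    (measurePreserving_mul_left μ g⁻¹).quasiMeasurePreserving.ae (H325.tl_ae μ h f)
  filter_upwards [H325.tl_ae μ g (H325.tl μ h f), h1, H325.tl_ae μ (g * h) f] with x a b c
  rw [a, b, c, mul_inv_rev, mul_assoc]

theorem tl_one' (f : Lp K 2 μ) : H325.tl μ (1 : G) f = f := H325.tl_one μ f

/-- the smeared operator `ζ ↦ ∫_{B} (W ζ)(y x) dx` -/
noncomputable def sm (W : K →L[ℂ] Lp K 2 μ) {B : Set G} (hB : MeasurableSet B) (hμ : μ B ≠ ⊤)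
    (y : G) : K →L[ℂ] K := tb ((H325.tl μ y⁻¹).comp W) hB hμ

theorem sm_apply (W : K →L[ℂ] Lp K 2 μ) {B : Set G} (hB : MeasurableSet B) (hμ : μ B ≠ ⊤)
    (y : G) (ζ : K) : sm W hB hμ y ζ = ∫ x in B, (H325.tl μ y⁻¹ (W ζ)) x ∂μ := rfl

theorem inner_sm (W : K →L[ℂ] Lp K 2 μ) {B : Set G} (hB : MeasurableSet B) (hμ : μ B ≠ ⊤)
    (y : G) (ζ η : K) : ⟪η, sm W hB hμ y ζ⟫_ℂ =
      ⟪H325.tl μ y (indicatorConstLp 2 hB hμ η), W ζ⟫_ℂ := by
  rw [sm_apply, ← L2.inner_indicatorConstLp_eq_inner_setIntegral ℂ hB hμ η,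
    ← inner_tl_left y (indicatorConstLp 2 hB hμ η), tl_mul, mul_inv_cancel, tl_one']

variable [SecondCountableTopology G] [LocallyCompactSpace G] [T2Space G] [NoncompactSpace G]
  [IsLocallyFiniteMeasure μ]

theorem continuous_sm (W : K →L[ℂ] Lp K 2 μ) {B : Set G} (hB : MeasurableSet B) (hμ : μ B ≠ ⊤)
    (ζ : K) : Continuous fun y => sm W hB hμ y ζ := by
  have h1 : Continuous fun y : G => H325.tl μ y⁻¹ (W ζ) :=
    (H325.continuous_tl μ (W ζ)).comp continuous_inv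
  have h2 : ∀ y z, ‖sm W hB hμ y ζ - sm W hB hμ z ζ‖ ≤
      μ.real B ^ (1 / (2 : ℝ≥0∞).toReal) * ‖H325.tl μ y⁻¹ (W ζ) - H325.tl μ z⁻¹ (W ζ)‖ := by
    intro y z
    have h3 : sm W hB hμ y ζ - sm W hB hμ z ζ =
        ∫ x in B, (H325.tl μ y⁻¹ (W ζ) - H325.tl μ z⁻¹ (W ζ) : Lp K 2 μ) x ∂μ := by
      rw [sm_apply, sm_apply, ← integral_sub (integrableOn_of _ hμ) (integrableOn_of _ hμ)]
      exact integral_congr_ae (EventuallyEq.symm (ae_restrict_of_ae (Lp.coeFn_sub _ _)))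
    rw [h3]
    exact norm_setIntegral_le hB hμ _
  rw [continuous_iff_continuousAt]
  intro z
  rw [ContinuousAt, tendsto_iff_norm_sub_tendsto_zero]
  have h4 : Tendsto (fun y => μ.real B ^ (1 / (2 : ℝ≥0∞).toReal) *
      ‖H325.tl μ y⁻¹ (W ζ) - H325.tl μ z⁻¹ (W ζ)‖) (𝓝 z) (𝓝 0) := by
    have h5 := (tendsto_iff_norm_sub_tendsto_zero.1 (h1.tendsto z)).const_mul
      (μ.real B ^ (1 / (2 : ℝ≥0∞).toReal))
    rwa [mul_zero] at h5
  exact squeeze_zero (fun _ => norm_nonneg _) (fun y => h2 y z) h4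

/-- **[NOINV]** without totality. -/
theorem noinv_erg {ι : X →* G} (hE : ErgI ι ρ V ω) (hρ : RegRep ρ ω) (hd : DenseRange ι)
    (W : K →L[ℂ] Lp K 2 μ)
    (h1 : ∀ v ζ, W (V v ζ) =ᵐ[μ] fun x => V v (W ζ x))
    (h2 : ∀ g ζ, W (ρ g⁻¹ ζ) =ᵐ[μ] fun x => ρ g⁻¹ (W ζ (ι g * x))) : W = 0 := by
  have hω0 : ω ≠ 0 := by
    intro h
    have := hρ.norm_one
    rw [h, norm_zero] at this
    exact zero_ne_one this
  -- the two covariance properties of the smeared operators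
  have hV : ∀ {B : Set G} (hB : MeasurableSet B) (hμ : μ B ≠ ⊤) (y : G) (v : Λ),
      sm W hB hμ y * V v = V v * sm W hB hμ y := by
    intro B hB hμ y v
    refine ContinuousLinearMap.ext fun ζ => ?_
    rw [mul_ap, mul_ap, sm_apply, sm_apply]
    have h3 : ∀ᵐ x ∂μ, (W (V v ζ)) (y * x) = V v (W ζ (y * x)) :=
      (measurePreserving_mul_left μ y).quasiMeasurePreserving.ae (h1 v ζ)
    rw [← (V v).integral_comp_comm (integrableOn_of _ hμ)]
    refine integral_congr_ae (ae_restrict_of_ae ?_)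
    filter_upwards [H325.tl_ae μ y⁻¹ (W (V v ζ)), H325.tl_ae μ y⁻¹ (W ζ), h3] with x a b c
    rw [a, b, inv_inv, c]
  have hR : ∀ {B : Set G} (hB : MeasurableSet B) (hμ : μ B ≠ ⊤) (y : G) (g : X),
      sm W hB hμ (ι g * y) = ρ g * sm W hB hμ y * ρ g⁻¹ := by
    intro B hB hμ y g
    refine ContinuousLinearMap.ext fun ζ => ?_
    have e1 : W (ρ g⁻¹ ζ) = W (ρ g⁻¹ ζ) := rfl
    have h3 : ∀ᵐ x ∂μ, (W (ρ g⁻¹ ζ)) (y * x) = ρ g⁻¹ (W ζ (ι g * (y * x))) :=
      (measurePreserving_mul_left μ y).quasiMeasurePreserving.ae (h2 g ζ)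
    have h4 : sm W hB hμ y (ρ g⁻¹ ζ) = ρ g⁻¹ (sm W hB hμ (ι g * y) ζ) := by
      rw [sm_apply, sm_apply, ← (ρ g⁻¹).integral_comp_comm (integrableOn_of _ hμ)]
      refine integral_congr_ae (ae_restrict_of_ae ?_)
      filter_upwards [H325.tl_ae μ y⁻¹ (W (ρ g⁻¹ ζ)), H325.tl_ae μ (ι g * y)⁻¹ (W ζ), h3]
        with x a b c
      rw [a, b, inv_inv, inv_inv, c, mul_assoc]
    change _ = ρ g (sm W hB hμ y (ρ g⁻¹ ζ))
    rw [h4, hρ.apply_inv]
  -- all the smeared operators are scalar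
  have hsc : ∀ {B : Set G} (hB : MeasurableSet B) (hμ : μ B ≠ ⊤) (y : G),
      ∃ c : ℂ, sm W hB hμ y = c • (1 : K →L[ℂ] K) := by
    intro B hB hμ y
    refine hE _ (fun v => hV hB hμ y v) (fun x hx => ?_) (fun ε hε => ?_)
    · have h3 := hR hB hμ y x
      rw [hx, one_mul] at h3
      calc sm W hB hμ y * ρ x = (ρ x * sm W hB hμ y * ρ x⁻¹) * ρ x := by rw [← h3]
        _ = ρ x * sm W hB hμ y * (ρ x⁻¹ * ρ x) := by rw [mul_assoc]
        _ = ρ x * sm W hB hμ y := by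
            rw [← map_mul, inv_mul_cancel, map_one, mul_one]
    · have h3 := (continuous_sm W hB hμ ω).tendsto y
      have h4 : Tendsto (fun u : G => u * y) (𝓝 1) (𝓝 y) := by
        have := (continuous_mul_const y).tendsto (1 : G)
        rwa [one_mul] at this
      have h5 := Metric.tendsto_nhds.1 (h3.comp h4) ε hε
      refine ⟨_, h5, fun x hx => ?_⟩
      have h6 : dist (sm W hB hμ (ι x * y) ω) (sm W hB hμ y ω) < ε := hx
      rw [hR, dist_eq_norm] at h6
      exact h6.le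
  -- the scalar does not depend on the point
  have hcon : ∀ {B : Set G} (hB : MeasurableSet B) (hμ : μ B ≠ ⊤) (y : G),
      sm W hB hμ y ω = sm W hB hμ 1 ω := by
    intro B hB hμ y
    have hcl : IsClosed {z : G | sm W hB hμ z ω = sm W hB hμ 1 ω} :=
      isClosed_eq (continuous_sm W hB hμ ω) continuous_const
    have hsub : Set.range ι ⊆ {z : G | sm W hB hμ z ω = sm W hB hμ 1 ω} := by
      rintro _ ⟨x, rfl⟩
      have h3 := hR hB hμ 1 x
      rw [mul_one] at h3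
      obtain ⟨c, hc⟩ := hsc hB hμ 1
      change sm W hB hμ (ι x) ω = sm W hB hμ 1 ω
      rw [h3, hc, mul_smul_comm, smul_mul_assoc, mul_one, ← map_mul, mul_inv_cancel, map_one]
    exact (closure_minimal hsub hcl) (hd y)
  -- it vanishes for compact sets
  have hz : ∀ {B : Set G} (hC : IsCompact B), sm W hC.measurableSet hC.measure_ne_top 1 = 0 := by
    intro B hC
    set hB := hC.measurableSet
    set hμ := hC.measure_ne_top (μ := μ)
    obtain ⟨c, hc⟩ := hsc hB hμ 1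
    have hall : ∀ y, sm W hB hμ y = c • (1 : K →L[ℂ] K) := by
      intro y
      obtain ⟨d, hd'⟩ := hsc hB hμ y
      have h3 := hcon hB hμ y
      rw [hc, hd'] at h3
      have h4 : d • ω = c • ω := h3
      rw [hd', smul_left_injective ℂ hω0 h4]
    rw [hc]
    rcases B.eq_empty_or_nonempty with hBe | hne
    · have h3 : sm W hB hμ 1 ω = 0 := by
        rw [sm_apply]
        have : μ.restrict B = 0 := by rw [hBe, Measure.restrict_empty]
        rw [this, integral_zero_measure]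
      rw [hc] at h3
      have h4 : c • ω = 0 := h3
      rw [(smul_eq_zero.1 h4).resolve_right hω0, zero_smul]
    · -- Bessel's inequality for disjoint translates
      suffices hc0 : c = 0 by rw [hc0, zero_smul]
      by_contra hne0
      obtain ⟨f, hf⟩ : ∃ f : Lp K 2 μ, f = indicatorConstLp 2 hB hμ ω := ⟨_, rfl⟩
      have hco : ∀ y, ⟪H325.tl μ y f, W ω⟫_ℂ = c := by
        intro y
        rw [hf, ← inner_sm W hB hμ y ω ω, hall y]
        change ⟪ω, c • ω⟫_ℂ = c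
        rw [inner_smul_right, inner_self_eq_norm_sq_to_K, hρ.norm_one]
        simp
      have hn : ∀ n : ℕ, (n : ℝ) ^ 2 * ‖c‖ ^ 2 ≤ (n : ℝ) * ‖f‖ ^ 2 * ‖W ω‖ ^ 2 := by
        intro n
        obtain ⟨s, hs, hdis⟩ := exists_disjoint hd hC hne n
        -- the vectors are orthogonal
        have hort : ∀ γ ∈ s, ∀ γ' ∈ s, γ ≠ γ' →
            ⟪H325.tl μ (ι γ) f, H325.tl μ (ι γ') f⟫_ℂ = 0 := by
          intro γ hγ γ' hγ' hne'
          have hdj : Disjoint (ι γ • B) (ι γ' • B) := hdis hγ hγ' hne'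
          rw [L2.inner_def]
          rw [← integral_zero G ℂ (μ := μ)]
          refine integral_congr_ae ?_
          have e0 : ∀ᵐ z ∂μ, f z = B.indicator (fun _ => ω) z := by
            rw [hf]
            exact indicatorConstLp_coeFn
          have e1 : ∀ᵐ x ∂μ, f ((ι γ)⁻¹ * x) = B.indicator (fun _ => ω) ((ι γ)⁻¹ * x) :=
            (measurePreserving_mul_left μ (ι γ)⁻¹).quasiMeasurePreserving.ae e0
          have e2 : ∀ᵐ x ∂μ, f ((ι γ')⁻¹ * x) = B.indicator (fun _ => ω) ((ι γ')⁻¹ * x) :=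
            (measurePreserving_mul_left μ (ι γ')⁻¹).quasiMeasurePreserving.ae e0
          filter_upwards [H325.tl_ae μ (ι γ) f, H325.tl_ae μ (ι γ') f, e1, e2] with x a b a' b'
          rw [a, b, a', b']
          by_cases hx : (ι γ)⁻¹ * x ∈ B
          · have hx' : (ι γ')⁻¹ * x ∉ B := by
              intro hx'
              exact (Set.disjoint_left.1 hdj) (Set.mem_smul_set_iff_inv_smul_mem.2 hx)
                (Set.mem_smul_set_iff_inv_smul_mem.2 hx')
            rw [Set.indicator_of_notMem hx', inner_zero_right]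
          · rw [Set.indicator_of_notMem hx, inner_zero_left]
        obtain ⟨F, hF⟩ : ∃ F : Lp K 2 μ, F = ∑ γ ∈ s, H325.tl μ (ι γ) f := ⟨_, rfl⟩
        have h5 : ⟪F, W ω⟫_ℂ = (n : ℂ) * c := by
          rw [hF, sum_inner, Finset.sum_congr rfl fun γ _ => hco (ι γ), Finset.sum_const, hs,
            nsmul_eq_mul]
        have h6 : ‖F‖ ^ 2 = (n : ℝ) * ‖f‖ ^ 2 := by
          have h7 : ((‖F‖ ^ 2 : ℝ) : ℂ) = ((n : ℝ) * ‖f‖ ^ 2 : ℝ) := by
            have h8 : ((‖F‖ ^ 2 : ℝ) : ℂ) = ⟪F, F⟫_ℂ := by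
              rw [inner_self_eq_norm_sq_to_K]; norm_cast
            rw [h8, hF, sum_inner]
            have h9 : ∀ γ ∈ s, ⟪H325.tl μ (ι γ) f, ∑ γ' ∈ s, H325.tl μ (ι γ') f⟫_ℂ =
                ((‖f‖ ^ 2 : ℝ) : ℂ) := by
              intro γ hγ
              rw [inner_sum, Finset.sum_eq_single_of_mem γ hγ fun γ' hγ' hne' =>
                hort γ hγ γ' hγ' hne'.symm, inner_tl_left, inner_self_eq_norm_sq_to_K]
              norm_cast
            rw [Finset.sum_congr rfl h9, Finset.sum_const, hs, nsmul_eq_mul]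
            push_cast
            rfl
          exact_mod_cast h7
        have h7 : ‖(n : ℂ) * c‖ ≤ ‖F‖ * ‖W ω‖ := by
          rw [← h5]
          exact norm_inner_le_norm _ _
        rw [norm_mul, Complex.norm_natCast] at h7
        calc (n : ℝ) ^ 2 * ‖c‖ ^ 2 = ((n : ℝ) * ‖c‖) ^ 2 := by ring
          _ ≤ (‖F‖ * ‖W ω‖) ^ 2 := pow_le_pow_left₀ (by positivity) h7 2
          _ = _ := by rw [mul_pow, h6]
      have hcpos : 0 < ‖c‖ ^ 2 := by
        have : ‖c‖ ≠ 0 := norm_ne_zero_iff.2 hne0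
        positivity
      obtain ⟨n, hn'⟩ := exists_nat_gt (‖f‖ ^ 2 * ‖W ω‖ ^ 2 / ‖c‖ ^ 2)
      have hnpos : (0 : ℝ) < n := lt_of_le_of_lt (by positivity) hn'
      rw [div_lt_iff₀ hcpos] at hn'
      have h8 := hn n
      have h9 : (n : ℝ) * (‖f‖ ^ 2 * ‖W ω‖ ^ 2) < (n : ℝ) * ((n : ℝ) * ‖c‖ ^ 2) :=
        mul_lt_mul_of_pos_left hn' hnpos
      nlinarith
  -- conclusion
  refine ContinuousLinearMap.ext fun ζ => ?_
  change W ζ = 0
  refine Lp.ext ?_
  have h3 : ∀ᵐ x ∂μ, W ζ x = 0 := by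
    refine ae_eq_zero_of_forall_setIntegral_isCompact_eq_zero' ?_ fun s hs => ?_
    · exact (Lp.memLp (W ζ)).locallyIntegrable one_le_two
    · have h4 := congrArg (fun T : K →L[ℂ] K => T ζ) (hz hs)
      simp only [sm_apply, inv_one, tl_one', zero_apply] at h4
      exact h4
  filter_upwards [h3, Lp.coeFn_zero K 2 μ] with x a b
  rw [a, b]; rfl

end noinv

end Vale.Agent.P092.H465
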