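import Vale.Agent.P092.H465.MatchQ
import Vale.Agent.P092.H175.Match
import Vale.Agent.P092.H715.QDefs

/-!
P092 (helper465), project Q, block [Q-MATCH], final forms: only `Frm ρ V ω`, ergodicity `ErgI` of the
target place and the isometry `F1` (= [T4]) for the second source place.
-/

set_option linter.all false

open scoped InnerProductSpace Topology ENNReal Pointwise
open Filter ContinuousLinearMap MeasureTheory
open Vale.Agent.P092.H160 Vale.Agent.P092.H156.Sm Vale.Agent.P092.H796 Vale.Agent.P092.H175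
open Vale.Agent.P092.H933 (HoweMoore)

namespace Vale.Agent.P092.H465

variable {X Λ G H₁ H₂ K : Type} [Group X] [Countable X] [Group Λ] [Group G] [Group H₁] [Group H₂]
  [TopologicalSpace G] [TopologicalSpace H₁] [TopologicalSpace H₂] [IsTopologicalGroup G]
  [IsTopologicalGroup H₁] [IsTopologicalGroup H₂] [MeasurableSpace G] [BorelSpace G]
  [T2Space G] [SecondCountableTopology G] [LocallyCompactSpace G]
  [NormedAddCommGroup K] [InnerProductSpace ℂ K] [CompleteSpace K]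
  {ρ : X →* (K →L[ℂ] K)} {V : Λ →* (K →L[ℂ] K)} {ω : K} {ι : X →* G} {κ₁ : Λ →* H₁} {κ₂ : Λ →* H₂}
  {μ : Measure G} [μ.IsHaarMeasure] [μ.IsMulRightInvariant]
  {a b : G → K →L[ℂ] K}

/-- [Q-MATCH] along a filter (any number of source places). -/
theorem q_match_filter (hG : ¬ CompactSpace G) (h : Frm ρ V ω) (hE : ErgI ι ρ V ω)
    (hι : DenseRange ι) (hκ₂ : DenseRange κ₂) {l : Filter Λ} [l.NeBot]
    (hl₁ : Tendsto κ₁ l (𝓝 1)) (hl₂ : Tendsto κ₂ l (cocompact H₂)) (hHM : PA.HM H₂)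
    (hF : H715.Q.F1 ι κ₂ ρ V ω μ)
    (ha : Smo ι κ₁ ρ V ω μ a) (hb : Smo ι κ₂ ρ V ω μ b) : a = 0 ∨ b = 0 := by
  haveI : NoncompactSpace G := not_compactSpace_iff.1 hG
  exact match_erg h hE hι hκ₂ hl₁ hl₂ (howeMoore_of_hm hHM) hF (cj_cjr h)
    (fun ξ hξ => cont_smSp h (cj_cjr h) hξ) (fun ξ hξ => cont_smSp h (cj_cjr h) hξ) ha hb

/-- [Q-MATCH] for two source places, with properness of `Λ → H₁ × H₂`. -/
theorem q_match [T2Space H₁] [LocallyCompactSpace H₁] [(𝓝[≠] (1 : H₁)).NeBot]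
    (hG : ¬ CompactSpace G) (h : Frm ρ V ω) (hE : ErgI ι ρ V ω)
    (hι : DenseRange ι) (hκ₁ : DenseRange κ₁) (hκ₂ : DenseRange κ₂)
    (hp : ∀ C : Set (H₁ × H₂), IsCompact C → {v | (κ₁ v, κ₂ v) ∈ C}.Finite)
    (hHM : PA.HM H₂) (hF : H715.Q.F1 ι κ₂ ρ V ω μ)
    (ha : Smo ι κ₁ ρ V ω μ a) (hb : Smo ι κ₂ ρ V ω μ b) : a = 0 ∨ b = 0 := by
  haveI : (lf κ₁).NeBot := neBot_lf hκ₁
  have hp' : Tendsto (fun v => (κ₁ v, κ₂ v)) cofinite (cocompact (H₁ × H₂)) := by
    rw [Filter.hasBasis_cocompact.tendsto_right_iff]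
    intro C hC
    rw [eventually_cofinite]
    refine (hp C hC).subset fun v hv => ?_
    simpa using hv
  exact q_match_filter hG h hE hι hκ₂ (tendsto_iff_comap.2 (lf_le κ₁)) (tendsto_snd_lf hp') hHM hF
    ha hb

end Vale.Agent.P092.H465
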