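import Vale.Agent.P092.H465.Flip
import Vale.Agent.P092.H761.CoarseD
import Vale.Agent.P092.H931.Trans
import Vale.Agent.P092.H264.S2Asm
import Vale.Agent.P092.H328.Psl

/-!
P092 (helper465), project Q, block [Q-NE]: for each leg and each source place there is a target place
with a nonzero smooth field.
-/

set_option linter.all false

open scoped InnerProductSpace Topology ENNReal
open Filter ContinuousLinearMap MeasureTheory

namespace Vale.Agent.P092.H465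

open Vale.Agent.P092.H160 Vale.Agent.P092.H156 Vale.Agent.P092.SR Vale.Agent.P092.H776
open Vale.Agent.P092.H734.Q Vale.Agent.P092.H264
open Vale.Agent.P092.H85 (coc)
open Vale.Agent.P092.H515 (IsLattice Tgt)
open Vale.Agent.P092.H701 (HChain)
open Vale.Agent.P092.H933 (HoweMoore)

/-- The two legs. -/
def leg (Γ : Type) [Group Γ] (l : Bool) : Γ × Γ →* Γ :=
  if l then MonoidHom.snd Γ Γ else MonoidHom.fst Γ Γ

theorem leg_false (Γ : Type) [Group Γ] : leg Γ false = MonoidHom.fst Γ Γ := rfl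

theorem leg_true (Γ : Type) [Group Γ] : leg Γ true = MonoidHom.snd Γ Γ := rfl

/-- There is a nonzero smooth field for the leg `l`, the target place `p` and the source place
`κ`. -/
def NeL {Γ Λ G H : Type} [Group Γ] [Group Λ] [Group G] [TopologicalSpace G] [MeasurableSpace G]
    [Group H] [TopologicalSpace H] (l : Bool) (p : Γ →* G) (κ : Γ →* H)
    (α : Γ →* (Ell2 Λ →L[ℂ] Ell2 Λ)) (μ : Measure G) : Prop :=
  ∃ b, Sm.Smo (p.comp (leg Γ l)) κ (RRR α) (VV α) (dl (1 : Λ × Λ)) μ b ∧ b ≠ 0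

section masses

variable {H H' : Type} [Group H] [TopologicalSpace H] [Group H'] [TopologicalSpace H']
  {Γ : Subgroup (H × H')} {Λ : Type} [Group Λ] {α : Γ →* (Ell2 Λ →L[ℂ] Ell2 Λ)}

/-- The mass of the first leg in the frame. -/
theorem mass1_eq [IsTopologicalGroup H] [IsTopologicalGroup H'] (hα : Frame α) (v : Γ)
    (P : Γ → Prop) :
    H761.mass1 Γ (fun g => H931.V (H931.dual_frame hα) g) v P =
      H264.ms (RRR α) (VV α) (dl (1 : Λ × Λ)) (fun x : Γ × Γ => P x.1⁻¹) v := by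
  symm
  rw [H264.ms, H761.mass1]
  refine ((Equiv.inv (Γ × Γ)).tsum_eq _).symm.trans (tsum_congr fun x => ?_)
  have h1 : (⟪RRR α (Equiv.inv (Γ × Γ) x) (dl (1 : Λ × Λ)), VV α v (dl (1 : Λ × Λ))⟫_ℂ : ℂ) =
      (H931.V (H931.dual_frame hα) v (dl 1) : Ell2 (Γ × Γ)) x := by
    have h2 : RRR α (Equiv.inv (Γ × Γ) x) (dl (1 : Λ × Λ)) =
        H931.WW hα (dl x) := by
      rw [RRR_apply]
      have h3 := H931.WW_rho hα (x⁻¹).1 (x⁻¹).2 (dl 1)
      rw [H931.WW_one] at h3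
      refine h3.symm.trans ?_
      congr 1
      rw [rho_dl]
      congr 1
      simp
    rw [h2, ← H931.WW_one hα, ← H931.WW_V, H931.inner_WW, inner_dl]
  rw [h1]
  congr 1
  have h4 : (Equiv.inv (Γ × Γ) x).1⁻¹ = x.1 := inv_inv x.1
  exact congrArg (H538.ind P) h4

/-- The masses of the two legs are equal. -/
theorem ms_swap (hα : Frame α) (v : Γ) (P : Γ → Prop) :
    H264.ms (RRR α) (VV α) (dl (1 : Λ × Λ)) (fun x : Γ × Γ => P x.2) v =
      H264.ms (RRR α) (VV α) (dl (1 : Λ × Λ)) (fun x : Γ × Γ => P x.1) v := by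
  rw [H264.ms, H264.ms, ← (Equiv.prodComm Γ Γ).tsum_eq]
  refine tsum_congr fun x => ?_
  have e1 : swo Λ (dl (1 : Λ × Λ)) = dl (1 : Λ × Λ) := rei_dl _ _
  have e2 : ∀ u v : Ell2 (Λ × Λ), ⟪swo Λ u, swo Λ v⟫_ℂ = ⟪u, v⟫_ℂ := fun u v => inner_rei _ _ _
  have h1 : (⟪RRR α (Equiv.prodComm Γ Γ x) (dl (1 : Λ × Λ)), VV α v (dl (1 : Λ × Λ))⟫_ℂ : ℂ) =
      ⟪RRR α x (dl (1 : Λ × Λ)), VV α v (dl (1 : Λ × Λ))⟫_ℂ := by
    rw [← e2, swo_V hα, e1]
    congr 1
    rw [RRR_apply, RRR_apply, mul_ap, swo_RR₁, swo_RR₂, e1, RR₁_RR₂]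
    rfl
  rw [h1]
  rfl

/-- The mass of the leg `l`. -/
theorem ms_leg (hα : Frame α) (v : Γ) (P : Γ → Prop) (l : Bool) :
    H264.ms (RRR α) (VV α) (dl (1 : Λ × Λ)) (fun x : Γ × Γ => P (leg Γ l x)) v =
      H264.ms (RRR α) (VV α) (dl (1 : Λ × Λ)) (fun x : Γ × Γ => P x.1) v := by
  cases l
  · rfl
  · exact ms_swap hα v P

end masses

section main

variable {H H' : Type} [Group H] [TopologicalSpace H] [IsTopologicalGroup H]
    [LocallyCompactSpace H] [SecondCountableTopology H] [T2Space H] [Group H']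
    [TopologicalSpace H'] [IsTopologicalGroup H']
    [LocallyCompactSpace H'] [SecondCountableTopology H'] [T2Space H']
    {Q₁ : Type} [Group Q₁] [TopologicalSpace Q₁] [IsTopologicalGroup Q₁] [LocallyCompactSpace Q₁]
    [SecondCountableTopology Q₁] [T2Space Q₁] [MeasurableSpace Q₁] [BorelSpace Q₁]
    {Q₂ : Type} [Group Q₂] [TopologicalSpace Q₂] [IsTopologicalGroup Q₂] [LocallyCompactSpace Q₂]
    [SecondCountableTopology Q₂] [T2Space Q₂] [MeasurableSpace Q₂] [BorelSpace Q₂]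
    (μ₁ : Measure Q₁) [μ₁.IsHaarMeasure] [μ₁.IsMulRightInvariant]
    (μ₂ : Measure Q₂) [μ₂.IsHaarMeasure] [μ₂.IsMulRightInvariant]
    {Λ : Type} [Group Λ]

/-- From a lower bound of the masses to a smooth field, for the leg `l`. -/
theorem ne_of_mass [MeasurableSpace H] [BorelSpace H] [MeasurableSpace H'] [BorelSpace H']
    {Γ : Subgroup (H × H')} [DiscreteTopology Γ] [MeasurableSpace ((H × H') ⧸ Γ)]
    [BorelSpace ((H × H') ⧸ Γ)] {ν : Measure ((H × H') ⧸ Γ)} [IsProbabilityMeasure ν]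
    (hν : ∀ g : H × H', ν.map (fun x => g • x) = ν) {α : Γ →* (Ell2 Λ →L[ℂ] Ell2 Λ)}
    (hα : Frame α) (hM : HoweMoore H') {b : ℕ → H'} (hb : Tendsto b atTop (cocompact H'))
    (p : Γ →* Q₁) {S : Set Q₁} (hS : IsCompact S) {P : Γ → Prop} (hP : ∀ g, P g → (p g)⁻¹ ∈ S)
    (hm : ∀ N, (1 : ℝ) / 3 ≤
      ∫ y, H761.mass1 Γ (fun g => H931.V (H931.dual_frame hα) g) (coc Γ ((1 : H), b N) y) P ∂ν)
    (l : Bool) : NeL l p ((MonoidHom.fst H H').comp Γ.subtype) α μ₁ := by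
  have hcΓ : Countable Γ := H790.countable_of_discrete Γ
  have h1 : ∀ N, (1 : ℝ) / 3 ≤ ∫ y, H264.ms (RRR α) (VV α) (dl (1 : Λ × Λ))
      (fun x : Γ × Γ => (p.comp (leg Γ l)) x ∈ S) (coc Γ ((1 : H), b N) y) ∂ν := by
    intro N
    refine (hm N).trans ?_
    have h2 : ∀ y, H761.mass1 Γ (fun g => H931.V (H931.dual_frame hα) g)
        (coc Γ ((1 : H), b N) y) P = H264.ms (RRR α) (VV α) (dl (1 : Λ × Λ))
          (fun x : Γ × Γ => P ((leg Γ l x)⁻¹)) (coc Γ ((1 : H), b N) y) := by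
      intro y
      rw [mass1_eq hα]
      exact (ms_leg hα _ (fun g => P g⁻¹) l).symm
    simp only [h2]
    refine ams_mono (frm hα) (fun x hx => ?_) _
    have h3 := hP _ hx
    rw [map_inv, inv_inv] at h3
    exact h3
  obtain ⟨f, hf, hf1⟩ := s2_core hν (frm hα) (p.comp (leg Γ l)) μ₁ (HMSeq.of hM hb) hS
    (by norm_num : (0 : ℝ) < 1 / 3) h1
  exact ⟨f, hf, fun h2 => hf1 (by rw [h2]; rfl)⟩

/-- **[Q-NE]**, source place = the first factor. -/
theorem qne_one {Γ : Subgroup (H × H')} (hΓ : IsLattice Γ) {α : Γ →* (Ell2 Λ →L[ℂ] Ell2 Λ)}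
    (hα : Frame α) {r r' : ℕ} (hC : Chn H r) (hC' : Chn H' r') (hr' : 0 < r')
    (hM : HoweMoore H') (h₁ : Tgt H r) (h₂ : Tgt H' r')
    (π₁ : H →* Q₁) (hπ₁ : Continuous π₁) (π₂ : H' →* Q₂) (hπ₂ : Continuous π₂) (l : Bool) :
    NeL l (π₁.comp ((MonoidHom.fst H H').comp Γ.subtype))
        ((MonoidHom.fst H H').comp Γ.subtype) α μ₁ ∨
      NeL l (π₂.comp ((MonoidHom.snd H H').comp Γ.subtype))
        ((MonoidHom.fst H H').comp Γ.subtype) α μ₂ := by
  have hd := hΓ.disc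
  let _ : MeasurableSpace ((H × H') ⧸ Γ) := borel _
  have _ : BorelSpace ((H × H') ⧸ Γ) := ⟨rfl⟩
  let _ : MeasurableSpace H := borel _
  have _ : BorelSpace H := ⟨rfl⟩
  let _ : MeasurableSpace H' := borel _
  have _ : BorelSpace H' := ⟨rfl⟩
  obtain ⟨ν, hν0, hνf, hν⟩ := hΓ.covol
  have hν1 : ν Set.univ ≠ 0 := by
    intro h
    exact hν0 (Measure.measure_univ_eq_zero.mp h)
  have hP : IsProbabilityMeasure ((ν Set.univ)⁻¹ • ν) := by
    constructor
    rw [Measure.smul_apply, smul_eq_mul]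
    exact ENNReal.inv_mul_cancel hν1 hνf.ne
  have hinv : ∀ g : H × H', ((ν Set.univ)⁻¹ • ν).map (fun x => g • x) = (ν Set.univ)⁻¹ • ν := by
    intro g
    have hgm : Measurable (fun x : (H × H') ⧸ Γ => g • x) := H85.smul_meas Γ g
    ext s hs
    rw [Measure.map_apply hgm hs, Measure.smul_apply, Measure.smul_apply, hν g s hs]
  obtain ⟨C, -⟩ := hC
  obtain ⟨C', hC'⟩ := hC'
  obtain ⟨s, hs, h3⟩ := H761.s1_delta_snd Γ _ hinv (H931.dual_frame hα) C C' hr' h₁ h₂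
  have hb : Tendsto (fun N => C'.b ⟨0, hr'⟩ (s N)) atTop (cocompact H') :=
    (hC' hr').comp hs.tendsto_atTop
  rcases h3 with ⟨K, hK, h3⟩ | ⟨K, hK, h3⟩
  · refine Or.inl (ne_of_mass μ₁ hinv hα hM hb _ ((hK.image hπ₁).inv) (fun g hg => ?_) h3 l)
    exact Set.inv_mem_inv.2 ⟨_, hg, rfl⟩
  · refine Or.inr (ne_of_mass μ₂ hinv hα hM hb _ ((hK.image hπ₂).inv) (fun g hg => ?_) h3 l)
    exact Set.inv_mem_inv.2 ⟨_, hg, rfl⟩

end main

end Vale.Agent.P092.H465
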