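import Vale.Agent.P092.H465.QNe

/-!
P092 (helper465), project Q, block [Q-NE]: the second source place, and the version for lattices in
`SL × SL` with places in the adjoint groups.
-/

set_option linter.all false

open scoped InnerProductSpace Topology ENNReal
open Filter ContinuousLinearMap MeasureTheory

namespace Vale.Agent.P092.H465

open Vale.Agent.P092.H160 Vale.Agent.P092.H156 Vale.Agent.P092.SR Vale.Agent.P092.H776
open Vale.Agent.P092.H734.Q Vale.Agent.P092.H264
open Vale.Agent.P092.H515 (IsLattice Tgt)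
open Vale.Agent.P092.H933 (HoweMoore LocK)

section comap

variable {Γ Γ' Λ G H : Type} [Group Γ] [Group Γ'] [Group Λ] [Group G] [TopologicalSpace G]
  [MeasurableSpace G] [Group H] [TopologicalSpace H] {α : Γ →* (Ell2 Λ →L[ℂ] Ell2 Λ)}

theorem frame_comap (hα : Frame α) (e : Γ' ≃* Γ) : Frame (α.comp e.toMonoidHom) where
  reg :=
    { adj := fun g => by
        change adjoint (α (e g)) = α (e g⁻¹)
        rw [map_inv e g]
        exact hα.reg.adj (e g)
      norm_one := hα.reg.norm_one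
      inner_zero := fun g hg => hα.reg.inner_zero (e g) fun h1 => hg (e.map_eq_one_iff.1 h1)
      total := fun v hv => hα.reg.total v fun g => by
        have h1 := hv (e.symm g)
        have h2 : (α.comp e.toMonoidHom) (e.symm g) = α g := by
          change α (e (e.symm g)) = α g
          rw [e.apply_symm_apply]
        rw [h2] at h1
        exact h1 }
  comm g s := hα.comm (e g) s

theorem neL_comap (e : Γ' ≃* Γ) {l : Bool} {p : Γ →* G} {κ : Γ →* H} {μ : Measure G}
    (h : NeL l (p.comp e.toMonoidHom) (κ.comp e.toMonoidHom) (α.comp e.toMonoidHom) μ) :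
    NeL l p κ α μ := by
  obtain ⟨b, hb, h0⟩ := h
  have e1 : VV (α.comp e.toMonoidHom) = (VV α).comp e.toMonoidHom := rfl
  rw [e1] at hb
  have hb2 := smo_of_comp e hb
  refine ⟨b, ⟨⟨fun x y => ?_, hb2.bdd, hb2.rcont⟩, hb2.acont, hb2.l2⟩, h0⟩
  have h1 := hb2.toFd.equiv (e.symm x.1, e.symm x.2) y
  have e2 : (p.comp e.toMonoidHom).comp (leg Γ' l) (e.symm x.1, e.symm x.2) =
      p.comp (leg Γ l) x := by
    cases l
    · change p (e (e.symm x.1)) = p x.1
      rw [e.apply_symm_apply]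
    · change p (e (e.symm x.2)) = p x.2
      rw [e.apply_symm_apply]
  have e3 : ∀ x : Γ × Γ, RRR (α.comp e.toMonoidHom) (e.symm x.1, e.symm x.2) = RRR α x := by
    intro x
    rw [RRR_apply, RRR_apply]
    change RR₁ α (e (e.symm x.1)) * RR₂ α (e (e.symm x.2)) = _
    rw [e.apply_symm_apply, e.apply_symm_apply]
  have e4 : ((e.symm x.1, e.symm x.2) : Γ' × Γ')⁻¹ = (e.symm (x⁻¹).1, e.symm (x⁻¹).2) := by
    ext <;> simp
  rw [e2, e3, e4, e3] at h1
  exact h1

end comap

section main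

variable {H H' : Type} [Group H] [TopologicalSpace H] [IsTopologicalGroup H]
    [LocallyCompactSpace H] [SecondCountableTopology H] [T2Space H] [Group H']
    [TopologicalSpace H'] [IsTopologicalGroup H']
    [LocallyCompactSpace H'] [SecondCountableTopology H'] [T2Space H']
    {Q₁ : Type} [Group Q₁] [TopologicalSpace Q₁] [IsTopologicalGroup Q₁] [LocallyCompactSpace Q₁]
    [SecondCountableTopology Q₁] [T2Space Q₁] [MeasurableSpace Q₁] [BorelSpace Q₁]
    {Q₂ : Type} [Group Q₂] [TopologicalSpace Q₂] [IsTopologicalGroup Q₂] [LocallyCompactSpace Q₂]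
    [SecondCountableTopology Q₂] [T2Space Q₂] [MeasurableSpace Q₂] [BorelSpace Q₂]
    (μ₁ : Measure Q₁) [μ₁.IsHaarMeasure] [μ₁.IsMulRightInvariant]
    (μ₂ : Measure Q₂) [μ₂.IsHaarMeasure] [μ₂.IsMulRightInvariant]
    {Λ : Type} [Group Λ]

/-- **[Q-NE]**, source place = the second factor. -/
theorem qne_two {Γ : Subgroup (H × H')} (hΓ : IsLattice Γ) {α : Γ →* (Ell2 Λ →L[ℂ] Ell2 Λ)}
    (hα : Frame α) {r r' : ℕ} (hC : Chn H r) (hC' : Chn H' r') (hr : 0 < r)
    (hM : HoweMoore H) (h₁ : Tgt H r) (h₂ : Tgt H' r')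
    (π₁ : H →* Q₁) (hπ₁ : Continuous π₁) (π₂ : H' →* Q₂) (hπ₂ : Continuous π₂) (l : Bool) :
    NeL l (π₁.comp ((MonoidHom.fst H H').comp Γ.subtype))
        ((MonoidHom.snd H H').comp Γ.subtype) α μ₁ ∨
      NeL l (π₂.comp ((MonoidHom.snd H H').comp Γ.subtype))
        ((MonoidHom.snd H H').comp Γ.subtype) α μ₂ := by
  rcases qne_one μ₂ μ₁ (isLattice_Lsw hΓ) (frame_comap hα (esw Γ)) hC' hC hr hM h₂ h₁ π₂ hπ₂
    π₁ hπ₁ l with h | h
  · exact Or.inr (neL_comap (esw Γ) h)
  · exact Or.inl (neL_comap (esw Γ) h)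

end main

/-- Passage to the quotient of the source group by a finite normal subgroup. -/
theorem neL_quot {Γ Λ G H : Type} [Group Γ] [Countable Γ] [Group Λ] [Group G]
    [TopologicalSpace G] [IsTopologicalGroup G] [SecondCountableTopology G]
    [MeasurableSpace G] [BorelSpace G] [Group H] [TopologicalSpace H] [IsTopologicalGroup H]
    {α : Γ →* (Ell2 Λ →L[ℂ] Ell2 Λ)} (hα : Frame α) {l : Bool} {p : Γ →* G} {κ : Γ →* H}
    {μ : Measure G} [μ.IsMulLeftInvariant] (hd : DenseRange κ) (Z : Subgroup H)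
    [Z.Normal] [Finite Z] (h : NeL l p κ α μ) :
    NeL l p ((QuotientGroup.mk' Z).comp κ) α μ := by
  obtain ⟨b, hb, h0⟩ := h
  exact H328.exists_smo_quot (frm hα) hd Z hb h0

/-- The flipped version of `NeL`. -/
def NeF {Γ Λ G H : Type} [Group Γ] [Group Λ] [Group G] [TopologicalSpace G] [MeasurableSpace G]
    [Group H] [TopologicalSpace H] (l : Bool) (p : Γ →* G) (κ : Γ →* H)
    {α : Γ →* (Ell2 Λ →L[ℂ] Ell2 Λ)} (hα : Frame α) (μ : Measure G) : Prop :=
  ∃ b, Sm.Smo (p.comp (MonoidHom.fst Γ Λ)) κ (if l then RV₂ hα else RV₁ hα)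
    (if l then RR₂ α else RR₁ α) (dl (1 : Λ × Λ)) μ b ∧ b ≠ 0

/-- The flip. -/
theorem NeL.flip {Γ Λ G H : Type} [Group Γ] [Group Λ] [Group G] [Group H]
    [TopologicalSpace G] [TopologicalSpace H] [IsTopologicalGroup G] [IsTopologicalGroup H]
    [MeasurableSpace G] [BorelSpace G] [SecondCountableTopology G]
    {α : Γ →* (Ell2 Λ →L[ℂ] Ell2 Λ)} (hα : Frame α) {l : Bool} {p : Γ →* G} {κ : Γ →* H}
    {μ : Measure G} (h : NeL l p κ α μ) : NeF l p κ hα μ := by
  cases l
  · exact ne_flip_one hα h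
  · exact ne_flip_two hα h

end Vale.Agent.P092.H465
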