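import Vale.Agent.P092.H465.QNe2
import Vale.Agent.P092.H739.Inp
import Vale.Agent.P092.H515.LatSl

/-!
P092 (helper465), project Q, block [Q-NE]: any finite number of factors.
-/

set_option linter.all false

open scoped InnerProductSpace Topology ENNReal
open Filter ContinuousLinearMap MeasureTheory

namespace Vale.Agent.P092.H465

open Vale.Agent.P092.H160 Vale.Agent.P092.H156 Vale.Agent.P092.SR Vale.Agent.P092.H776
open Vale.Agent.P092.H734.Q Vale.Agent.P092.H264 Vale.Agent.P092.H739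
open Vale.Agent.P092.H85 (coc)
open Vale.Agent.P092.H761 (HS)
open Vale.Agent.P092.H515 (IsLattice Tgt HChain.prodSnd)
open Vale.Agent.P092.H701 (HChain)

/-- The masses in the frame, in coordinates. -/
theorem ms_eq_tsum {Γ Λ : Type} [Group Γ] [Group Λ] {α : Γ →* (Ell2 Λ →L[ℂ] Ell2 Λ)}
    (hα : Frame α) (v : Γ) (P : Γ × Γ → Prop) :
    H264.ms (RRR α) (VV α) (dl (1 : Λ × Λ)) P v =
      ∑' x : Γ × Γ, H538.ind P x⁻¹ *
        ‖(H931.V (H931.dual_frame hα) v (dl 1) : Ell2 (Γ × Γ)) x‖ ^ 2 := by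
  rw [H264.ms]
  refine ((Equiv.inv (Γ × Γ)).tsum_eq _).symm.trans (tsum_congr fun x => ?_)
  have h1 : (⟪RRR α (Equiv.inv (Γ × Γ) x) (dl (1 : Λ × Λ)), VV α v (dl (1 : Λ × Λ))⟫_ℂ : ℂ) =
      (H931.V (H931.dual_frame hα) v (dl 1) : Ell2 (Γ × Γ)) x := by
    have h2 : RRR α (Equiv.inv (Γ × Γ) x) (dl (1 : Λ × Λ)) =
        H931.WW hα (dl x) := by
      rw [RRR_apply]
      have h3 := H931.WW_rho hα (x⁻¹).1 (x⁻¹).2 (dl 1)
      rw [H931.WW_one] at h3
      refine h3.symm.trans ?_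
      congr 1
      rw [rho_dl]
      congr 1
      simp
    rw [h2, ← H931.WW_one hα, ← H931.WW_V, H931.inner_WW, inner_dl]
  rw [h1]
  rfl

section gen

variable {E : Type} [Group E] [TopologicalSpace E] [IsTopologicalGroup E]
    [LocallyCompactSpace E] [SecondCountableTopology E] [T2Space E] [MeasurableSpace E]
    [BorelSpace E] {Γ : Subgroup E} [DiscreteTopology Γ] [MeasurableSpace (E ⧸ Γ)]
    [BorelSpace (E ⧸ Γ)] {ν : Measure (E ⧸ Γ)} [IsProbabilityMeasure ν]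
    {Λ : Type} [Group Λ] {α : Γ →* (Ell2 Λ →L[ℂ] Ell2 Λ)}

/-- Some place of the first leg stays bounded along products of fewer directions than places. -/
theorem some_bounded_leg (hν : ∀ g : E, ν.map (fun x => g • x) = ν) (hα : Frame α)
    {I : Type} [Fintype I] [Nonempty I] {G : I → Type} [∀ i, Group (G i)]
    [∀ i, TopologicalSpace (G i)] {r : I → ℕ} {m k : ℕ} (C : HChain E m)
    (hk : k ≤ m) (hkI : k < Fintype.card I) (hG : ∀ i, Tgt (G i) (r i)) (hrm : ∑ i, r i ≤ m)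
    (φ : Γ →* ∀ i, G i) (hφ : ∀ K : Set (∀ i, G i), IsCompact K → {x | φ x ∈ K}.Finite)
    (z : ℕ → E) (hz : ∀ N, HS C.b k (z N)) :
    ∃ (i : I) (s : ℕ → ℕ) (K : Set (G i)), StrictMono s ∧ IsCompact K ∧ ∀ N,
      (1 : ℝ) / (2 * Fintype.card I) ≤
        ∫ x, H264.ms (RRR α) (VV α) (dl (1 : Λ × Λ)) (fun g : Γ × Γ => φ g.1 i ∈ K)
          (coc Γ (z (s N)) x) ∂ν := by
  classical
  have hcΓ : Countable Γ := H790.countable_of_discrete Γ
  obtain ⟨β, hβ⟩ : ∃ β, β = H931.dual hα := ⟨_, rfl⟩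
  have hdf := H931.dual_frame hα
  have hR := H761.arep_cj (V := fun g => H931.V hdf g) (map_one _)
    (fun v w => map_mul _ v w) (fun v => H931.V_adj hdf v)
    (fun v s => H931.V_rho hdf v s) (fun v hv => H931.inner_V hdf v hv)
  have hT := H761.coarse_V hdf
  have hE := H761.covFam_coarse hT
  have hq := fun (A : Set Γ) (q : Γ) => H761.et_lx hT A q
  have hd := H761.sharpCoef Γ ν hν hR hE hq
  have hint : ∀ (g : E) (F : Γ × Γ → ℝ),
      H132.massX (H790.baseL (H85.cdat ν hν).μ (Γ × Γ) Unit)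
        (H790.Ri (H85.cdat ν hν) (fun v => H761.cj (H931.V hdf v))) g F =
        ∫ x, H761.massR (fun v => H761.cj (H931.V hdf v)) (coc Γ g x) F ∂ν := fun g F =>
    H156.mass_int (H85.cdat ν hν) hR g F (fun i => H790.ept (H85.cdat ν hν).μ i)
      (fun i => H790.ept_ae i)
  obtain ⟨i, s, K, h1, h2, h3⟩ := some_bounded_seq hd C hk hkI hG hrm
    (fun i => (Pi.evalMonoidHom G i).comp φ) (fun K hK => by
      refine (hφ (Set.univ.pi K) (isCompact_univ_pi hK)).subset fun x hx => ?_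
      exact fun i _ => hx i) z hz
  refine ⟨i, s, K, h1, h2, fun N => ?_⟩
  have h4 := h3 N
  rw [H761.ind_fst, hint] at h4
  refine h4.trans_eq ?_
  congr 1
  funext x
  rw [H761.massR_cj_tsum _ _ (H538.abs_ind_le _), ms_eq_tsum hα]
  rfl

end gen

section prod

variable {A S : Type} [Fintype S] {H : S → Type} [Group A] [TopologicalSpace A]
    [IsTopologicalGroup A] [LocallyCompactSpace A] [SecondCountableTopology A] [T2Space A]
    [MeasurableSpace A] [BorelSpace A] [∀ s, Group (H s)] [∀ s, TopologicalSpace (H s)]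
    [∀ s, IsTopologicalGroup (H s)] [∀ s, LocallyCompactSpace (H s)]
    [∀ s, SecondCountableTopology (H s)] [∀ s, T2Space (H s)] [∀ s, MeasurableSpace (H s)]
    [∀ s, BorelSpace (H s)] {Γ : Subgroup (A × ∀ s, H s)}
    {Λ : Type} [Group Λ] {α : Γ →* (Ell2 Λ →L[ℂ] Ell2 Λ)}

/-- **[Q-NE]** for finitely many factors, source place = the factor `A`. -/
theorem qne_r (hΓ : IsLattice Γ) (hα : Frame α) {J : Type} [Fintype J] {G Q : J → Type}
    [∀ j, Group (G j)] [∀ j, TopologicalSpace (G j)] {r : J → ℕ} {nA : ℕ} {n : S → ℕ}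
    (CA : HChain A nA) (C : ∀ s, HChain (H s) (n s)) (hn : ∀ s, 0 < n s)
    (hM : ∀ s, Mau (H s) ((C s).b ⟨0, hn s⟩)) (hG : ∀ j, Tgt (G j) (r j))
    (hc : Fintype.card S < Fintype.card J) (hr : ∑ j, r j ≤ nA + ∑ s, n s)
    (φ : Γ →* ∀ j, G j) (hφ : ∀ K : Set (∀ j, G j), IsCompact K → {x | φ x ∈ K}.Finite)
    [∀ j, Group (Q j)] [∀ j, TopologicalSpace (Q j)] [∀ j, IsTopologicalGroup (Q j)]
    [∀ j, LocallyCompactSpace (Q j)] [∀ j, SecondCountableTopology (Q j)] [∀ j, T2Space (Q j)]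
    [∀ j, MeasurableSpace (Q j)] [∀ j, BorelSpace (Q j)] (π : ∀ j, G j →* Q j)
    (hπ : ∀ j, Continuous (π j)) (μ : ∀ j, Measure (Q j)) [∀ j, (μ j).IsHaarMeasure]
    [∀ j, (μ j).IsMulRightInvariant] :
    ∃ j, NeL false ((π j).comp ((Pi.evalMonoidHom G j).comp φ))
      ((MonoidHom.fst A (∀ s, H s)).comp Γ.subtype) α (μ j) := by
  classical
  have hd := hΓ.disc
  let _ : MeasurableSpace ((A × ∀ s, H s) ⧸ Γ) := borel _
  have _ : BorelSpace ((A × ∀ s, H s) ⧸ Γ) := ⟨rfl⟩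
  have hcΓ : Countable Γ := H790.countable_of_discrete Γ
  obtain ⟨ν, hν0, hνf, hν⟩ := hΓ.covol
  have hν1 : ν Set.univ ≠ 0 := by
    intro h
    exact hν0 (Measure.measure_univ_eq_zero.mp h)
  have hP : IsProbabilityMeasure ((ν Set.univ)⁻¹ • ν) := by
    constructor
    rw [Measure.smul_apply, smul_eq_mul]
    exact ENNReal.inv_mul_cancel hν1 hνf.ne
  have hinv : ∀ g : A × ∀ s, H s,
      ((ν Set.univ)⁻¹ • ν).map (fun x => g • x) = (ν Set.univ)⁻¹ • ν := by
    intro g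
    have hgm : Measurable (fun x : (A × ∀ s, H s) ⧸ Γ => g • x) := H85.smul_meas Γ g
    ext s hs
    rw [Measure.map_apply hgm hs, Measure.smul_apply, Measure.smul_apply, hν g s hs]
  have : Nonempty J := Fintype.card_pos_iff.1 (by omega)
  obtain ⟨D, hD⟩ := exists_piChain C hn Finset.univ
  have hcard : (Finset.univ : Finset S).card ≤ ∑ s, n s := by
    rw [Finset.card_eq_sum_ones]
    exact Finset.sum_le_sum fun s _ => hn s
  obtain ⟨j, s, K, hs, hK, h3⟩ := some_bounded_leg hinv hα (HChain.prodSnd CA D)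
    (k := (Finset.univ : Finset S).card) (by omega) (by rwa [Finset.card_univ]) hG
    (by omega) φ hφ (fun N => ((1 : A), fun s => (C s).b ⟨0, hn s⟩ N)) (fun N => by
      have h1 := hD fun _ => N
      simp only [Finset.mem_univ, if_true] at h1
      exact HS_prodSnd CA D h1)
  have hHM : HMSeq (∀ s, H s) (fun N s' => (C s').b ⟨0, hn s'⟩ (s N)) :=
    HMSeq.comp (mau_pi hM).hmSeq hs.tendsto_atTop
  obtain ⟨f, hf, hf1⟩ := s2_core hinv (frm hα)
    (((π j).comp ((Pi.evalMonoidHom G j).comp φ)).comp (leg Γ false)) (μ j) hHM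
    (hK.image (hπ j)) (c := 1 / (2 * Fintype.card J)) (by positivity) fun N => (h3 N).trans
      (ams_mono (frm hα) (fun x hx => ⟨_, hx, rfl⟩) _)
  exact ⟨j, f, hf, fun h2 => hf1 (by rw [h2]; rfl)⟩

end prod

end Vale.Agent.P092.H465
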